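import Vale.Agent.P223.MathlibUsed
import Vale.Agent.P223.K
attribute [-instance] ProperSMul.toContinuousSMul IsTopologicalTorsor.toContinuousSMul IdemSemiring.toCanonicallyOrderedAdd IdemSemiring.toMulLeftMono IdemSemiring.toMulRightMono AddQuantale.instAddLeftMono AddQuantale.instAddRightMono Quantale.instMulLeftMono Quantale.instMulRightMono FiniteDimensional.rclike_to_real IsScalarTower.complexToReal FiniteDimensional.complexToReal

set_option linter.all false

section

section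

set_option maxSynthPendingDepth 3

namespace Vale.Agent.P223

open scoped Matrix ContDiff Manifold
open MeasureTheory

/-- Partial derivative of `f` in the direction of the coordinate `c`. -/
noncomputable def pd {ι : Type} [Fintype ι] [DecidableEq ι] (c : ι) (f : (ι → ℝ) → ℝ)
    (x : ι → ℝ) : ℝ := fderiv ℝ f x (Pi.single c 1)

/-- Jacobian matrix of a map `φ : ℝ^ι → ℝ^ι`. -/
noncomputable def jac {ι : Type} [Fintype ι] [DecidableEq ι] (φ : (ι → ℝ) → (ι → ℝ))
    (y : ι → ℝ) : Matrix ι ι ℝ := Matrix.of fun c a => pd a (fun z => φ z c) y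

/-- Christoffel symbol with upper index `c` and lower indices `a b`. -/
noncomputable def christoffel {ι : Type} [Fintype ι] [DecidableEq ι]
    (g : (ι → ℝ) → Matrix ι ι ℝ) (x : ι → ℝ) (c a b : ι) : ℝ :=
  (1 / 2) * ∑ d, (g x)⁻¹ c d *
    (pd a (fun y => g y b d) x + pd b (fun y => g y a d) x - pd d (fun y => g y a b) x)

/-- Ricci tensor of `g` in coordinates. -/
noncomputable def ricci {ι : Type} [Fintype ι] [DecidableEq ι]
    (g : (ι → ℝ) → Matrix ι ι ℝ) (x : ι → ℝ) (a b : ι) : ℝ :=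
  ∑ c, (pd c (fun y => christoffel g y c a b) x - pd b (fun y => christoffel g y c a c) x)
  + ∑ c, ∑ d, (christoffel g x c c d * christoffel g x d a b
      - christoffel g x c b d * christoffel g x d a c)

/-- Scalar curvature of `g` in coordinates. -/
noncomputable def scal {ι : Type} [Fintype ι] [DecidableEq ι]
    (g : (ι → ℝ) → Matrix ι ι ℝ) (x : ι → ℝ) : ℝ :=
  ∑ a, ∑ b, (g x)⁻¹ a b * ricci g x a b

/-- Riemannian volume density in coordinates. -/
noncomputable def dens {ι : Type} [Fintype ι] [DecidableEq ι]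
    (g : (ι → ℝ) → Matrix ι ι ℝ) (x : ι → ℝ) : ℝ := Real.sqrt (g x).det

/-- `g` is a smooth Riemannian metric on the set `X` of `ℝ^ι`. -/
structure IsMetricOn {ι : Type} [Fintype ι] [DecidableEq ι] (X : Set (ι → ℝ))
    (g : (ι → ℝ) → Matrix ι ι ℝ) : Prop where
  smooth : ∀ a b, ContDiffOn ℝ ∞ (fun y => g y a b) X
  posDef : ∀ x ∈ X, (g x).PosDef

/-- A smooth Riemannian metric on a manifold, given by its matrices in the charts of the atlas. -/
structure RMetric (ι : Type) [Fintype ι] [DecidableEq ι] (M : Type) [TopologicalSpace M]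
    [ChartedSpace (ι → ℝ) M] where
  mat : OpenPartialHomeomorph M (ι → ℝ) → (ι → ℝ) → Matrix ι ι ℝ
  isMetric : ∀ e ∈ atlas (ι → ℝ) M, IsMetricOn e.target (mat e)
  compat : ∀ e ∈ atlas (ι → ℝ) M, ∀ e' ∈ atlas (ι → ℝ) M, ∀ x ∈ (e.symm.trans e').source,
    mat e x = (jac (e.symm.trans e') x)ᵀ * mat e' ((e.symm.trans e') x) * jac (e.symm.trans e') x

/-- The coordinate changes of the atlas are holomorphic for the constant complex structure `J`. -/
def HoloAtlas {ι : Type} [Fintype ι] [DecidableEq ι] (J : Matrix ι ι ℝ) (M : Type)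
    [TopologicalSpace M] [ChartedSpace (ι → ℝ) M] : Prop :=
  ∀ e ∈ atlas (ι → ℝ) M, ∀ e' ∈ atlas (ι → ℝ) M, ∀ x ∈ (e.symm.trans e').source,
    jac (e.symm.trans e') x * J = J * jac (e.symm.trans e') x

section

variable {ι : Type} [Fintype ι] [DecidableEq ι]
  {M : Type} [TopologicalSpace M] [ChartedSpace (ι → ℝ) M]
  {N : Type} [TopologicalSpace N] [ChartedSpace (ι → ℝ) N]

/-- The scalar curvature at a point, computed in the preferred chart. -/
noncomputable def RMetric.scalar (g : RMetric ι M) (p : M) : ℝ :=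
  scal (g.mat (chartAt (ι → ℝ) p)) (chartAt (ι → ℝ) p p)

/-- `μ` is the Riemannian volume measure of `g`. -/
def IsVol [MeasurableSpace M] (g : RMetric ι M) (μ : Measure M) : Prop :=
  ∀ e ∈ atlas (ι → ℝ) M, ∀ A : Set M, MeasurableSet A → A ⊆ e.source →
    μ A = ∫⁻ x in e '' A, ENNReal.ofReal (dens (g.mat e) x)

/-- The metric is Hermitian for the constant complex structure `J`. -/
def RMetric.IsHermitian (g : RMetric ι M) (J : Matrix ι ι ℝ) : Prop :=
  ∀ e ∈ atlas (ι → ℝ) M, ∀ x ∈ e.target, Jᵀ * g.mat e x * J = g.mat e x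

/-- The fundamental form `g(J·,·)` of the metric is closed. -/
def RMetric.IsKahler (g : RMetric ι M) (J : Matrix ι ι ℝ) : Prop :=
  ∀ e ∈ atlas (ι → ℝ) M, ∀ x ∈ e.target, ∀ a b c,
    pd a (fun y => (Jᵀ * g.mat e y) b c) x + pd b (fun y => (Jᵀ * g.mat e y) c a) x
      + pd c (fun y => (Jᵀ * g.mat e y) a b) x = 0

/-- `Ric(g₀) ≤ -lam g₀ + eta h` as quadratic forms. -/
def RicciLe (g0 h : RMetric ι M) (lam eta : ℝ) : Prop :=
  ∀ e ∈ atlas (ι → ℝ) M, ∀ x ∈ e.target, ∀ v : ι → ℝ,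
    ∑ a, ∑ b, v a * v b * ricci (g0.mat e) x a b
      ≤ -lam * (∑ a, ∑ b, v a * v b * g0.mat e x a b) + eta * ∑ a, ∑ b, v a * v b * h.mat e x a b

/-- Coordinate expression of a map. -/
def cmap (f : M → N) (e : OpenPartialHomeomorph M (ι → ℝ)) (e' : OpenPartialHomeomorph N (ι → ℝ)) :
    (ι → ℝ) → (ι → ℝ) := fun y => e' (f (e.symm y))

/-- `f` is a holomorphic map. -/
structure HoloMap (J : Matrix ι ι ℝ) (f : M → N) : Prop where
  cont : Continuous f
  smooth : ∀ e ∈ atlas (ι → ℝ) M, ∀ e' ∈ atlas (ι → ℝ) N, ∀ x ∈ e.target,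
    f (e.symm x) ∈ e'.source → ContDiffAt ℝ ∞ (cmap f e e') x
  holo : ∀ e ∈ atlas (ι → ℝ) M, ∀ e' ∈ atlas (ι → ℝ) N, ∀ x ∈ e.target,
    f (e.symm x) ∈ e'.source → jac (cmap f e e') x * J = J * jac (cmap f e e') x

/-- Coordinate density of the pulled back volume form. -/
noncomputable def pden (g0 : RMetric ι N) (f : M → N) (e : OpenPartialHomeomorph M (ι → ℝ))
    (x : ι → ℝ) : ℝ :=
  dens (g0.mat (chartAt (ι → ℝ) (f (e.symm x)))) (cmap f e (chartAt (ι → ℝ) (f (e.symm x))) x)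
    * |(jac (cmap f e (chartAt (ι → ℝ) (f (e.symm x)))) x).det|

/-- The absolute Jacobian determinant of `f` with respect to the two metrics. -/
noncomputable def relJac (g : RMetric ι M) (g0 : RMetric ι N) (f : M → N) (p : M) : ℝ :=
  pden g0 f (chartAt (ι → ℝ) p) (chartAt (ι → ℝ) p p)
    / dens (g.mat (chartAt (ι → ℝ) p)) (chartAt (ι → ℝ) p p)

/-- `Ric(g₀)(df v, df v) ≤ -lam g₀(df v, df v) + eta g(v, v)` for all tangent vectors `v`. -/
def RicBound (g : RMetric ι M) (g0 : RMetric ι N) (f : M → N) (lam eta : ℝ) : Prop :=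
  ∀ e ∈ atlas (ι → ℝ) M, ∀ e' ∈ atlas (ι → ℝ) N, ∀ x ∈ e.target, f (e.symm x) ∈ e'.source →
    ∀ v w : ι → ℝ, w = jac (cmap f e e') x *ᵥ v →
      ∑ a, ∑ b, w a * w b * ricci (g0.mat e') (cmap f e e' x) a b
        ≤ -lam * (∑ a, ∑ b, w a * w b * g0.mat e' (cmap f e e' x) a b)
          + eta * ∑ a, ∑ b, v a * v b * g.mat e x a b

end

/-- Singular simplices with `k` vertices (that is, of dimension `k - 1`) in `M`. -/
abbrev Simp (k : ℕ) (M : Type) [TopologicalSpace M] := C(stdSimplex ℝ (Fin k), M)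

/-- Finite real singular chains of simplices with `k` vertices. -/
abbrev Chain (k : ℕ) (M : Type) [TopologicalSpace M] := Simp k M →₀ ℝ

/-- The inclusion of the `i`-th face of the standard simplex. -/
noncomputable def faceMap (k : ℕ) (i : Fin (k + 1)) :
    C(stdSimplex ℝ (Fin k), stdSimplex ℝ (Fin (k + 1))) :=
  ⟨stdSimplex.map i.succAbove, stdSimplex.continuous_map _⟩

/-- The singular boundary. -/
noncomputable def bdry {M : Type} [TopologicalSpace M] (k : ℕ) :
    Chain (k + 1) M →ₗ[ℝ] Chain k M :=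
  Finsupp.linearCombination ℝ fun σ : Simp (k + 1) M =>
    ∑ i : Fin (k + 1), Finsupp.single (σ.comp (faceMap k i)) ((-1 : ℝ) ^ (i : ℕ))

/-- The `ℓ¹`-norm of a chain. -/
noncomputable def norm1 {M : Type} [TopologicalSpace M] {k : ℕ} (z : Chain k M) : ℝ :=
  z.sum fun _ a => |a|

/-- `e` is a smooth chart of `M`, positively oriented with respect to the atlas. -/
def OChart {n : ℕ} {M : Type} [TopologicalSpace M] [ChartedSpace (Fin n → ℝ) M]
    (e : OpenPartialHomeomorph M (Fin n → ℝ)) : Prop :=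
  ∀ e' ∈ atlas (Fin n → ℝ) M, ∀ x ∈ (e.symm.trans e').source,
    ContDiffAt ℝ ∞ (e.symm.trans e') x ∧ 0 < (jac (e.symm.trans e') x).det

/-- `z` is a singular cycle representing the fundamental class of `M`: near every point `p` it is
homologous, relative to the complement of `p`, to a positively oriented affine simplex of a chart
which contains `p` in its interior. -/
def IsFundamental {n : ℕ} {M : Type} [TopologicalSpace M] [ChartedSpace (Fin n → ℝ) M]
    (z : Chain (n + 1) M) : Prop :=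
  bdry n z = 0 ∧ ∀ p : M, ∃ e : OpenPartialHomeomorph M (Fin n → ℝ), OChart e ∧
    ∃ (w : Fin n → ℝ) (D : Matrix (Fin n) (Fin n) ℝ), 0 < D.det ∧
    ∃ s : Simp (n + 1) M,
      (∀ t, s t ∈ e.source ∧ e (s t) = fun j => w j + ∑ i : Fin n, t i.succ * D i j) ∧
      (∃ t, (∀ i, 0 < t i) ∧ s t = p) ∧
    ∃ (b : Chain (n + 2) M) (c : Chain (n + 1) M), (∀ σ ∈ c.support, p ∉ Set.range σ) ∧
      z = Finsupp.single s 1 + bdry (n + 1) b + c

/-- The simplicial volume of `M`. -/
noncomputable def simplicialVolume (n : ℕ) (M : Type) [TopologicalSpace M]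
    [ChartedSpace (Fin n → ℝ) M] : ENNReal :=
  ⨅ (z : Chain (n + 1) M) (_ : IsFundamental z), ENNReal.ofReal (norm1 z)

/-- `p` is a `d`-sheeted covering map which is locally biholomorphic. -/
structure HoloCover {n : ℕ} (J : Matrix (Fin n) (Fin n) ℝ) (d : ℕ) {M' M : Type}
    [TopologicalSpace M'] [ChartedSpace (Fin n → ℝ) M'] [TopologicalSpace M]
    [ChartedSpace (Fin n → ℝ) M] (p : M' → M) : Prop where
  covering : IsCoveringMap p
  holo : HoloMap J p
  locBij : ∀ e ∈ atlas (Fin n → ℝ) M', ∀ e' ∈ atlas (Fin n → ℝ) M, ∀ x ∈ e.target,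
    p (e.symm x) ∈ e'.source → (jac (cmap p e e') x).det ≠ 0
  card : ∀ y : M, (p ⁻¹' {y}).encard = d

end Vale.Agent.P223
end
end

section

section

end
end

section

section

set_option maxSynthPendingDepth 3

namespace Vale.Agent.P223

open scoped Matrix
open Finset

variable {ι : Type} [Fintype ι]

theorem s12 (f : ι → ι → ι → ι → ℝ) :
    ∑ a, ∑ b, ∑ c, ∑ d, f a b c d = ∑ a, ∑ b, ∑ c, ∑ d, f b a c d := Finset.sum_comm

theorem s23 (f : ι → ι → ι → ι → ℝ) :
    ∑ a, ∑ b, ∑ c, ∑ d, f a b c d = ∑ a, ∑ b, ∑ c, ∑ d, f a c b d :=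
  Finset.sum_congr rfl fun _ _ => Finset.sum_comm

theorem s34 (f : ι → ι → ι → ι → ℝ) :
    ∑ a, ∑ b, ∑ c, ∑ d, f a b c d = ∑ a, ∑ b, ∑ c, ∑ d, f a b d c :=
  Finset.sum_congr rfl fun _ _ => Finset.sum_congr rfl fun _ _ => Finset.sum_comm

/-- contraction one -/
noncomputable def T1 (gi : ι → ι → ℝ) (A B : ι → ι → ι → ℝ) : ℝ :=
  ∑ a, ∑ b, ∑ c, ∑ d, gi a b * (A c a d * B d b c)

/-- contraction two -/
noncomputable def T2 (gi : ι → ι → ℝ) (A B : ι → ι → ι → ℝ) : ℝ :=
  ∑ a, ∑ b, ∑ c, ∑ d, gi a b * (A c c d * B d a b)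

/-- contraction three -/
noncomputable def T3 (gi : ι → ι → ℝ) (A B : ι → ι → ι → ℝ) : ℝ :=
  ∑ a, ∑ b, ∑ c, ∑ d, gi a b * (A c c a * B d d b)

theorem T1_symm (gi : ι → ι → ℝ) (hgi : ∀ a b, gi a b = gi b a) (A B : ι → ι → ι → ℝ) :
    T1 gi A B = T1 gi B A := by
  unfold T1
  rw [s12, s34]
  refine Finset.sum_congr rfl fun a _ => Finset.sum_congr rfl fun b _ =>
    Finset.sum_congr rfl fun c _ => Finset.sum_congr rfl fun d _ => ?_
  rw [hgi b a]; ring

theorem T1_sub_left (gi : ι → ι → ℝ) (A A' B : ι → ι → ι → ℝ) :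
    T1 gi (fun c a b => A c a b - A' c a b) B = T1 gi A B - T1 gi A' B := by
  unfold T1
  simp only [← Finset.sum_sub_distrib]
  refine Finset.sum_congr rfl fun a _ => Finset.sum_congr rfl fun b _ =>
    Finset.sum_congr rfl fun c _ => Finset.sum_congr rfl fun d _ => ?_
  ring

theorem T1_sub_right (gi : ι → ι → ℝ) (A B B' : ι → ι → ι → ℝ) :
    T1 gi A (fun c a b => B c a b - B' c a b) = T1 gi A B - T1 gi A B' := by
  unfold T1
  simp only [← sum_sub_distrib]
  refine Finset.sum_congr rfl fun a _ => Finset.sum_congr rfl fun b _ =>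
    Finset.sum_congr rfl fun c _ => Finset.sum_congr rfl fun d _ => ?_
  ring

theorem T2_sub_left (gi : ι → ι → ℝ) (A A' B : ι → ι → ι → ℝ) :
    T2 gi (fun c a b => A c a b - A' c a b) B = T2 gi A B - T2 gi A' B := by
  unfold T2
  simp only [← Finset.sum_sub_distrib]
  refine Finset.sum_congr rfl fun a _ => Finset.sum_congr rfl fun b _ =>
    Finset.sum_congr rfl fun c _ => Finset.sum_congr rfl fun d _ => ?_
  ring

theorem T2_sub_right (gi : ι → ι → ℝ) (A B B' : ι → ι → ι → ℝ) :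
    T2 gi A (fun c a b => B c a b - B' c a b) = T2 gi A B - T2 gi A B' := by
  unfold T2
  simp only [← Finset.sum_sub_distrib]
  refine Finset.sum_congr rfl fun a _ => Finset.sum_congr rfl fun b _ =>
    Finset.sum_congr rfl fun c _ => Finset.sum_congr rfl fun d _ => ?_
  ring

/-- The purely algebraic form of the difference formula for scalar curvature. -/
theorem scal_difference_alg (gi : ι → ι → ℝ) (hgi : ∀ a b, gi a b = gi b a)
    (Γ Γ0 : ι → ι → ι → ℝ) (hΓ : ∀ c a b, Γ c a b = Γ c b a) (hΓ0 : ∀ c a b, Γ0 c a b = Γ0 c b a)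
    (E : ι → ι → ι → ι → ℝ) (hE : ∀ e c a b, E e c a b = E e c b a)
    (Dgi : ι → ι → ι → ℝ)
    (hD : ∀ c a b, Dgi c a b = - ∑ d, (Γ a c d * gi d b + Γ b c d * gi a d)) :
    (∑ a, ∑ b, gi a b * (∑ c, (E c c a b - E b c a c)
        + ∑ c, ∑ d, (Γ c c d * Γ d a b - Γ c b d * Γ d a c)
        - ∑ c, ∑ d, (Γ0 c c d * Γ0 d a b - Γ0 c b d * Γ0 d a c)))
      = (∑ c, ((∑ a, ∑ b, (Dgi c a b * (Γ c a b - Γ0 c a b) + gi a b * E c c a b))
          - (∑ d, (Dgi c c d * (∑ a, (Γ a a d - Γ0 a a d)) + gi c d * ∑ a, E c a a d))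
          + (∑ a, Γ a a c) * ((∑ a, ∑ b, gi a b * (Γ c a b - Γ0 c a b))
              - ∑ d, gi c d * ∑ a, (Γ a a d - Γ0 a a d))))
        + T1 gi (fun c a b => Γ c a b - Γ0 c a b) (fun c a b => Γ c a b - Γ0 c a b)
        - T2 gi (fun c a b => Γ c a b - Γ0 c a b) (fun c a b => Γ c a b - Γ0 c a b) := by
  have hC0 : ∀ c a b, (fun c a b => Γ c a b - Γ0 c a b) c a b = Γ c a b - Γ0 c a b :=
    fun _ _ _ => rfl
  -- derivative terms
  have hder : (∑ a, ∑ b, gi a b * ∑ c, (E c c a b - E b c a c))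
      = (∑ c, ∑ a, ∑ b, gi a b * E c c a b) - ∑ c, ∑ d, gi c d * ∑ a, E c a a d := by
    have h1 : (∑ a, ∑ b, gi a b * ∑ c, (E c c a b - E b c a c))
        = (∑ a, ∑ b, ∑ c, gi a b * E c c a b) - ∑ a, ∑ b, ∑ c, gi a b * E b c a c := by
      simp only [← Finset.sum_sub_distrib, Finset.mul_sum]
      refine Finset.sum_congr rfl fun a _ => Finset.sum_congr rfl fun b _ =>
        Finset.sum_congr rfl fun c _ => ?_
      ring
    rw [h1]
    congr 1
    · symm
      rw [Finset.sum_comm]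
      refine Finset.sum_congr rfl fun a _ => ?_
      rw [Finset.sum_comm]
    · rw [Finset.sum_comm]
      refine Finset.sum_congr rfl fun c _ => Finset.sum_congr rfl fun d _ => ?_
      rw [Finset.mul_sum]
      refine Finset.sum_congr rfl fun a _ => ?_
      rw [hgi, hE]
  -- quadratic terms
  have hL : ∀ Γ : ι → ι → ι → ℝ, (∑ a, ∑ b, gi a b * (∑ c, ∑ d, (Γ c c d * Γ d a b
      - Γ c b d * Γ d a c))) = T2 gi Γ Γ - T1 gi Γ Γ := by
    intro Γ
    rw [T1_symm gi hgi]
    unfold T1 T2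
    rw [s12 (f := fun a b c d => gi a b * (Γ c a d * Γ d b c))]
    simp only [← Finset.sum_sub_distrib, Finset.mul_sum]
    refine Finset.sum_congr rfl fun a _ => Finset.sum_congr rfl fun b _ =>
      Finset.sum_congr rfl fun c _ => Finset.sum_congr rfl fun d _ => ?_
    rw [hgi b a]; ring
  have hDV : (∑ c, ∑ a, ∑ b, Dgi c a b * (Γ c a b - Γ0 c a b))
      = - 2 * T1 gi Γ (fun c a b => Γ c a b - Γ0 c a b) := by
    have e1 : (∑ c, ∑ a, ∑ b, Dgi c a b * (Γ c a b - Γ0 c a b))
        = - (∑ c, ∑ a, ∑ b, ∑ d, Γ a c d * gi d b * (Γ c a b - Γ0 c a b))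
          - (∑ c, ∑ a, ∑ b, ∑ d, Γ b c d * gi a d * (Γ c a b - Γ0 c a b)) := by
      rw [← Finset.sum_neg_distrib, ← Finset.sum_sub_distrib]
      refine Finset.sum_congr rfl fun c _ => ?_
      rw [← Finset.sum_neg_distrib, ← Finset.sum_sub_distrib]
      refine Finset.sum_congr rfl fun a _ => ?_
      rw [← Finset.sum_neg_distrib, ← Finset.sum_sub_distrib]
      refine Finset.sum_congr rfl fun b _ => ?_
      rw [hD, ← Finset.sum_neg_distrib, Finset.sum_mul, ← Finset.sum_neg_distrib,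
        ← Finset.sum_sub_distrib]
      refine Finset.sum_congr rfl fun d _ => ?_
      ring
    have e2 : (∑ c, ∑ a, ∑ b, ∑ d, Γ a c d * gi d b * (Γ c a b - Γ0 c a b))
        = T1 gi Γ (fun c a b => Γ c a b - Γ0 c a b) := by
      unfold T1
      rw [s12, s34, s23, s12, s34, s23]
      refine Finset.sum_congr rfl fun a _ => Finset.sum_congr rfl fun b _ =>
        Finset.sum_congr rfl fun c _ => Finset.sum_congr rfl fun d _ => ?_
      rw [hΓ c d a, hΓ d c b, hΓ0 d c b]; ring
    have e3 : (∑ c, ∑ a, ∑ b, ∑ d, Γ b c d * gi a d * (Γ c a b - Γ0 c a b))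
        = T1 gi Γ (fun c a b => Γ c a b - Γ0 c a b) := by
      unfold T1
      rw [s12, s23, s34, s23, s12]
      refine Finset.sum_congr rfl fun a _ => Finset.sum_congr rfl fun b _ =>
        Finset.sum_congr rfl fun c _ => Finset.sum_congr rfl fun d _ => ?_
      rw [hΓ c d a, hgi b a]; ring
    rw [e1, e2, e3]; ring
  have hDG : (∑ c, ∑ d, Dgi c c d * (∑ a, (Γ a a d - Γ0 a a d)))
      = - T3 gi Γ (fun c a b => Γ c a b - Γ0 c a b)
        - T2 gi (fun c a b => Γ c a b - Γ0 c a b) Γ := by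
    have e1 : (∑ c, ∑ d, Dgi c c d * (∑ a, (Γ a a d - Γ0 a a d)))
        = - (∑ c, ∑ d, ∑ e, ∑ a, Γ c c e * gi e d * (Γ a a d - Γ0 a a d))
          - (∑ c, ∑ d, ∑ e, ∑ a, Γ d c e * gi c e * (Γ a a d - Γ0 a a d)) := by
      rw [← Finset.sum_neg_distrib, ← Finset.sum_sub_distrib]
      refine Finset.sum_congr rfl fun c _ => ?_
      rw [← Finset.sum_neg_distrib, ← Finset.sum_sub_distrib]
      refine Finset.sum_congr rfl fun d _ => ?_
      rw [hD, neg_mul, Finset.sum_mul, ← Finset.sum_neg_distrib, ← Finset.sum_neg_distrib,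
        ← Finset.sum_sub_distrib]
      refine Finset.sum_congr rfl fun e _ => ?_
      rw [Finset.mul_sum, ← Finset.sum_neg_distrib, ← Finset.sum_neg_distrib,
        ← Finset.sum_sub_distrib]
      refine Finset.sum_congr rfl fun a _ => ?_
      ring
    rw [e1]
    congr 1
    · congr 1
      unfold T3
      -- source f (c,d,e,a) ; want f (c, b, a, d)
      rw [s23, s12, s23]
      refine Finset.sum_congr rfl fun a _ => Finset.sum_congr rfl fun b _ =>
        Finset.sum_congr rfl fun c _ => Finset.sum_congr rfl fun d _ => ?_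
      ring
    · unfold T2
      -- source f (c,d,e,a) ; want f (a, d, b, c)
      rw [s23, s34]
      refine Finset.sum_congr rfl fun a _ => Finset.sum_congr rfl fun b _ =>
        Finset.sum_congr rfl fun c _ => Finset.sum_congr rfl fun d _ => ?_
      ring
  have htV : (∑ c, (∑ a, Γ a a c) * (∑ a, ∑ b, gi a b * (Γ c a b - Γ0 c a b)))
      = T2 gi Γ (fun c a b => Γ c a b - Γ0 c a b) := by
    have e1 : (∑ c, (∑ a, Γ a a c) * (∑ a, ∑ b, gi a b * (Γ c a b - Γ0 c a b)))
        = ∑ c, ∑ e, ∑ a, ∑ b, Γ e e c * (gi a b * (Γ c a b - Γ0 c a b)) := by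
      refine Finset.sum_congr rfl fun c _ => ?_
      rw [Finset.sum_mul]
      refine Finset.sum_congr rfl fun e _ => ?_
      rw [Finset.mul_sum]
      refine Finset.sum_congr rfl fun a _ => ?_
      rw [Finset.mul_sum]
    rw [e1]
    unfold T2
    -- source f (c,e,a,b) ; want f (d, c, a, b)
    rw [s23, s12, s34, s23, s34]
    refine Finset.sum_congr rfl fun a _ => Finset.sum_congr rfl fun b _ =>
      Finset.sum_congr rfl fun c _ => Finset.sum_congr rfl fun d _ => ?_
    ring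
  have htG : (∑ c, (∑ a, Γ a a c) * (∑ d, gi c d * ∑ a, (Γ a a d - Γ0 a a d)))
      = T3 gi Γ (fun c a b => Γ c a b - Γ0 c a b) := by
    have e1 : (∑ c, (∑ a, Γ a a c) * (∑ d, gi c d * ∑ a, (Γ a a d - Γ0 a a d)))
        = ∑ c, ∑ e, ∑ d, ∑ a, Γ e e c * (gi c d * (Γ a a d - Γ0 a a d)) := by
      refine Finset.sum_congr rfl fun c _ => ?_
      rw [Finset.sum_mul]
      refine Finset.sum_congr rfl fun e _ => ?_
      rw [Finset.mul_sum]
      refine Finset.sum_congr rfl fun d _ => ?_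
      rw [Finset.mul_sum, Finset.mul_sum]
    rw [e1]
    unfold T3
    rw [s23]
    refine Finset.sum_congr rfl fun a _ => Finset.sum_congr rfl fun b _ =>
      Finset.sum_congr rfl fun c _ => Finset.sum_congr rfl fun d _ => ?_
    ring
  -- assemble
  have hLHS : (∑ a, ∑ b, gi a b * (∑ c, (E c c a b - E b c a c)
        + ∑ c, ∑ d, (Γ c c d * Γ d a b - Γ c b d * Γ d a c)
        - ∑ c, ∑ d, (Γ0 c c d * Γ0 d a b - Γ0 c b d * Γ0 d a c)))
      = (∑ a, ∑ b, gi a b * ∑ c, (E c c a b - E b c a c))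
        + (∑ a, ∑ b, gi a b * (∑ c, ∑ d, (Γ c c d * Γ d a b - Γ c b d * Γ d a c)))
        - (∑ a, ∑ b, gi a b * (∑ c, ∑ d, (Γ0 c c d * Γ0 d a b - Γ0 c b d * Γ0 d a c))) := by
    simp only [← Finset.sum_add_distrib, ← Finset.sum_sub_distrib]
    refine Finset.sum_congr rfl fun a _ => Finset.sum_congr rfl fun b _ => ?_
    simp only [sum_sub_distrib, sum_add_distrib]
    ring
  have hRHS : (∑ c, ((∑ a, ∑ b, (Dgi c a b * (Γ c a b - Γ0 c a b) + gi a b * E c c a b))
          - (∑ d, (Dgi c c d * (∑ a, (Γ a a d - Γ0 a a d)) + gi c d * ∑ a, E c a a d))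
          + (∑ a, Γ a a c) * ((∑ a, ∑ b, gi a b * (Γ c a b - Γ0 c a b))
              - ∑ d, gi c d * ∑ a, (Γ a a d - Γ0 a a d))))
      = (∑ c, ∑ a, ∑ b, Dgi c a b * (Γ c a b - Γ0 c a b))
        + (∑ c, ∑ a, ∑ b, gi a b * E c c a b)
        - (∑ c, ∑ d, Dgi c c d * (∑ a, (Γ a a d - Γ0 a a d)))
        - (∑ c, ∑ d, gi c d * ∑ a, E c a a d)
        + (∑ c, (∑ a, Γ a a c) * (∑ a, ∑ b, gi a b * (Γ c a b - Γ0 c a b)))
        - (∑ c, (∑ a, Γ a a c) * (∑ d, gi c d * ∑ a, (Γ a a d - Γ0 a a d))) := by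
    rw [← Finset.sum_add_distrib, ← Finset.sum_sub_distrib, ← Finset.sum_sub_distrib,
      ← Finset.sum_add_distrib, ← Finset.sum_sub_distrib]
    refine Finset.sum_congr rfl fun c _ => ?_
    simp only [Finset.sum_add_distrib]
    ring
  rw [hLHS, hRHS, hder, hL Γ, hL Γ0, hDV, hDG, htV, htG]
  have b1 := T1_sub_right gi Γ Γ Γ0
  have b2 := T1_sub_left gi Γ Γ0 (fun c a b => Γ c a b - Γ0 c a b)
  have b3 := T1_sub_right gi Γ0 Γ Γ0
  have b4 := T2_sub_right gi Γ Γ Γ0
  have b5 := T2_sub_left gi Γ Γ0 (fun c a b => Γ c a b - Γ0 c a b)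
  have b6 := T2_sub_right gi Γ0 Γ Γ0
  have b7 := T2_sub_left gi Γ Γ0 Γ
  have b8 := T1_symm gi hgi Γ Γ0
  linarith only [b1, b2, b3, b5, b6, b7, b8]

end Vale.Agent.P223
end
end

section

section

set_option maxSynthPendingDepth 3

namespace Vale.Agent.P223

open scoped Matrix
open Finset

variable {ι : Type} [Fintype ι] [DecidableEq ι]

/-- three-tensors -/
abbrev Ten (ι : Type) := ι → ι → ι → ℝ

noncomputable def dot3 (S T : Ten ι) : ℝ := ∑ a, ∑ b, ∑ c, S a b c * T a b c

noncomputable def R1 (M : Matrix ι ι ℝ) (T : Ten ι) : Ten ι := fun a b c => ∑ d, M a d * T d b c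
noncomputable def R2 (M : Matrix ι ι ℝ) (T : Ten ι) : Ten ι := fun a b c => ∑ d, M b d * T a d c
noncomputable def R3 (M : Matrix ι ι ℝ) (T : Ten ι) : Ten ι := fun a b c => ∑ d, M c d * T a b d

def tau (T : Ten ι) : Ten ι := fun a b c => T b a c
def sig (T : Ten ι) : Ten ι := fun a b c => T a c b

omit [DecidableEq ι] in
theorem dot3_comm (S T : Ten ι) : dot3 S T = dot3 T S := by
  unfold dot3
  refine Finset.sum_congr rfl fun a _ => Finset.sum_congr rfl fun b _ =>
    Finset.sum_congr rfl fun c _ => mul_comm _ _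

omit [DecidableEq ι] in
theorem dot3_add_left (S S' T : Ten ι) : dot3 (S + S') T = dot3 S T + dot3 S' T := by
  unfold dot3
  simp only [← Finset.sum_add_distrib, Pi.add_apply, add_mul]

omit [DecidableEq ι] in
theorem dot3_sub_left (S S' T : Ten ι) : dot3 (S - S') T = dot3 S T - dot3 S' T := by
  unfold dot3
  simp only [Pi.sub_apply, sub_mul, ← sum_sub_distrib]

omit [DecidableEq ι] in
theorem dot3_smul_left (r : ℝ) (S T : Ten ι) : dot3 (r • S) T = r * dot3 S T := by
  unfold dot3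
  simp only [Finset.mul_sum, Pi.smul_apply, smul_eq_mul, mul_assoc]

omit [DecidableEq ι] in
theorem dot3_self_nonneg (S : Ten ι) : 0 ≤ dot3 S S := by
  unfold dot3
  exact Finset.sum_nonneg fun a _ => Finset.sum_nonneg fun b _ =>
    Finset.sum_nonneg fun c _ => mul_self_nonneg _

omit [DecidableEq ι] in
theorem dot3_tau (S T : Ten ι) : dot3 (tau S) (tau T) = dot3 S T := by
  unfold dot3 tau
  rw [Finset.sum_comm]

omit [DecidableEq ι] in
theorem dot3_sig (S T : Ten ι) : dot3 (sig S) (sig T) = dot3 S T := by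
  unfold dot3 sig
  refine Finset.sum_congr rfl fun a _ => ?_
  rw [Finset.sum_comm]

omit [DecidableEq ι] in
theorem R1_adj (M : Matrix ι ι ℝ) (S T : Ten ι) : dot3 (R1 M S) T = dot3 S (R1 Mᵀ T) := by
  unfold dot3 R1
  simp only [Finset.sum_mul, Finset.mul_sum, Matrix.transpose_apply]
  -- LHS: Σ a b c d, M a d * S d b c * T a b c ; RHS Σ a b c d, S a b c * (M d a * T d b c)
  rw [s34, s23, s12, s23, s34]
  refine Finset.sum_congr rfl fun a _ => Finset.sum_congr rfl fun b _ =>
    Finset.sum_congr rfl fun c _ => Finset.sum_congr rfl fun d _ => ?_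
  ring

omit [Fintype ι] [DecidableEq ι] in
theorem tau_tau (T : Ten ι) : tau (tau T) = T := rfl
omit [Fintype ι] [DecidableEq ι] in
theorem sig_sig (T : Ten ι) : sig (sig T) = T := rfl

omit [DecidableEq ι] in
theorem tau_R1 (M : Matrix ι ι ℝ) (T : Ten ι) : tau (R1 M T) = R2 M (tau T) := rfl
omit [DecidableEq ι] in
theorem tau_R2 (M : Matrix ι ι ℝ) (T : Ten ι) : tau (R2 M T) = R1 M (tau T) := rfl
omit [DecidableEq ι] in
theorem tau_R3 (M : Matrix ι ι ℝ) (T : Ten ι) : tau (R3 M T) = R3 M (tau T) := rfl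
omit [DecidableEq ι] in
theorem sig_R1 (M : Matrix ι ι ℝ) (T : Ten ι) : sig (R1 M T) = R1 M (sig T) := rfl
omit [DecidableEq ι] in
theorem sig_R2 (M : Matrix ι ι ℝ) (T : Ten ι) : sig (R2 M T) = R3 M (sig T) := rfl
omit [DecidableEq ι] in
theorem sig_R3 (M : Matrix ι ι ℝ) (T : Ten ι) : sig (R3 M T) = R2 M (sig T) := rfl

omit [DecidableEq ι] in
theorem R2_adj (M : Matrix ι ι ℝ) (S T : Ten ι) : dot3 (R2 M S) T = dot3 S (R2 Mᵀ T) := by
  have h := R1_adj M (tau S) (tau T)
  rw [← tau_R2, ← tau_R2, dot3_tau, dot3_tau] at h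
  exact h

omit [DecidableEq ι] in
theorem R3_adj (M : Matrix ι ι ℝ) (S T : Ten ι) : dot3 (R3 M S) T = dot3 S (R3 Mᵀ T) := by
  have h := R2_adj M (sig S) (sig T)
  rw [← sig_R3, ← sig_R3, dot3_sig, dot3_sig] at h
  exact h

omit [DecidableEq ι] in
theorem R1_R1 (M M' : Matrix ι ι ℝ) (T : Ten ι) : R1 M (R1 M' T) = R1 (M * M') T := by
  funext a b c
  unfold R1
  simp only [Matrix.mul_apply, Finset.sum_mul, Finset.mul_sum]
  rw [Finset.sum_comm]
  refine Finset.sum_congr rfl fun d _ => Finset.sum_congr rfl fun e _ => ?_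
  ring

omit [DecidableEq ι] in
theorem R2_R2 (M M' : Matrix ι ι ℝ) (T : Ten ι) : R2 M (R2 M' T) = R2 (M * M') T := by
  have h := R1_R1 M M' (tau T)
  have := congrArg tau h
  simpa [tau_R1, tau_tau] using this

omit [DecidableEq ι] in
theorem R3_R3 (M M' : Matrix ι ι ℝ) (T : Ten ι) : R3 M (R3 M' T) = R3 (M * M') T := by
  have h := R2_R2 M M' (sig T)
  have := congrArg sig h
  simpa [sig_R2, sig_sig] using this

omit [DecidableEq ι] in
theorem R1_R2 (M M' : Matrix ι ι ℝ) (T : Ten ι) : R1 M (R2 M' T) = R2 M' (R1 M T) := by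
  funext a b c
  unfold R1 R2
  simp only [Finset.mul_sum]
  rw [Finset.sum_comm]
  refine Finset.sum_congr rfl fun d _ => Finset.sum_congr rfl fun e _ => ?_
  ring

omit [DecidableEq ι] in
theorem R1_R3 (M M' : Matrix ι ι ℝ) (T : Ten ι) : R1 M (R3 M' T) = R3 M' (R1 M T) := by
  have h := R1_R2 M M' (sig T)
  have := congrArg sig h
  simpa [sig_R2, sig_R1, sig_sig] using this

omit [DecidableEq ι] in
theorem R2_R3 (M M' : Matrix ι ι ℝ) (T : Ten ι) : R2 M (R3 M' T) = R3 M' (R2 M T) := by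
  have h := R1_R3 M M' (tau T)
  have := congrArg tau h
  simpa [tau_R1, tau_R3, tau_tau] using this

theorem R1_one (T : Ten ι) : R1 (1 : Matrix ι ι ℝ) T = T := by
  funext a b c
  simp only [R1, Matrix.one_apply, ite_mul, one_mul, zero_mul, sum_ite_eq, mem_univ, ↓reduceIte]

theorem R2_one (T : Ten ι) : R2 (1 : Matrix ι ι ℝ) T = T := by
  funext a b c
  simp only [R2, Matrix.one_apply, ite_mul, one_mul, zero_mul, sum_ite_eq, mem_univ, ↓reduceIte]

theorem R3_one (T : Ten ι) : R3 (1 : Matrix ι ι ℝ) T = T := by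
  funext a b c
  simp only [R3, Matrix.one_apply, ite_mul, one_mul, zero_mul, sum_ite_eq, mem_univ, ↓reduceIte]

omit [DecidableEq ι] in
theorem R1_neg (M : Matrix ι ι ℝ) (T : Ten ι) : R1 (-M) T = - R1 M T := by
  funext a b c
  simp only [R1, Matrix.neg_apply, neg_mul, sum_neg_distrib, Pi.neg_apply]
omit [DecidableEq ι] in
theorem R2_neg (M : Matrix ι ι ℝ) (T : Ten ι) : R2 (-M) T = - R2 M T := by
  funext a b c
  simp only [R2, Matrix.neg_apply, neg_mul, sum_neg_distrib, Pi.neg_apply]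
omit [DecidableEq ι] in
theorem R3_neg (M : Matrix ι ι ℝ) (T : Ten ι) : R3 (-M) T = - R3 M T := by
  funext a b c
  simp only [R3, Matrix.neg_apply, neg_mul, sum_neg_distrib, Pi.neg_apply]
omit [DecidableEq ι] in
theorem R1_neg' (M : Matrix ι ι ℝ) (T : Ten ι) : R1 M (-T) = - R1 M T := by
  funext a b c
  simp only [R1, Pi.neg_apply, mul_neg, sum_neg_distrib]
omit [DecidableEq ι] in
theorem R3_neg' (M : Matrix ι ι ℝ) (T : Ten ι) : R3 M (-T) = - R3 M T := by
  funext a b c
  simp only [R3, Pi.neg_apply, mul_neg, sum_neg_distrib]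

/-- inner product of three-tensors induced by the bilinear form `gi` on covectors -/
noncomputable def ip (gi : Matrix ι ι ℝ) (S T : Ten ι) : ℝ := dot3 S (R1 gi (R2 gi (R3 gi T)))

end Vale.Agent.P223
end
end

section

section

set_option maxSynthPendingDepth 3

namespace Vale.Agent.P223

open scoped Matrix
open Finset

variable {ι : Type} [Fintype ι] [DecidableEq ι]

omit [DecidableEq ι] in
theorem ip_comm (gi : Matrix ι ι ℝ) (hgi : giᵀ = gi) (S T : Ten ι) : ip gi S T = ip gi T S := by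
  unfold ip
  have h1 := R1_adj gi S (R2 gi (R3 gi T))
  rw [hgi] at h1
  rw [← h1]
  have h2 := R2_adj gi (R1 gi S) (R3 gi T)
  rw [hgi] at h2
  rw [← h2]
  have h3 := R3_adj gi (R2 gi (R1 gi S)) T
  rw [hgi] at h3
  rw [← h3, dot3_comm]
  congr 1
  rw [← R1_R2, ← R1_R3, ← R2_R3]

omit [DecidableEq ι] in
theorem ip_add_left (gi : Matrix ι ι ℝ) (S S' T : Ten ι) :
    ip gi (S + S') T = ip gi S T + ip gi S' T := dot3_add_left _ _ _

omit [DecidableEq ι] in
theorem ip_sub_left (gi : Matrix ι ι ℝ) (S S' T : Ten ι) :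
    ip gi (S - S') T = ip gi S T - ip gi S' T := dot3_sub_left _ _ _

omit [DecidableEq ι] in
theorem ip_smul_left (gi : Matrix ι ι ℝ) (r : ℝ) (S T : Ten ι) :
    ip gi (r • S) T = r * ip gi S T := dot3_smul_left _ _ _

omit [DecidableEq ι] in
theorem ip_sub_right (gi : Matrix ι ι ℝ) (hgi : giᵀ = gi) (S T T' : Ten ι) :
    ip gi S (T - T') = ip gi S T - ip gi S T' := by
  rw [ip_comm gi hgi, ip_sub_left, ip_comm gi hgi T, ip_comm gi hgi T']

omit [DecidableEq ι] in
theorem ip_smul_right (gi : Matrix ι ι ℝ) (hgi : giᵀ = gi) (r : ℝ) (S T : Ten ι) :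
    ip gi S (r • T) = r * ip gi S T := by
  rw [ip_comm gi hgi, ip_smul_left, ip_comm gi hgi T]

omit [DecidableEq ι] in
theorem ip_tau (gi : Matrix ι ι ℝ) (S T : Ten ι) : ip gi (tau S) (tau T) = ip gi S T := by
  unfold ip
  rw [← dot3_tau S, tau_R1, tau_R2, tau_R3, R1_R2]

omit [DecidableEq ι] in
theorem ip_sig (gi : Matrix ι ι ℝ) (S T : Ten ι) : ip gi (sig S) (sig T) = ip gi S T := by
  unfold ip
  rw [← dot3_sig S, sig_R1, sig_R2, sig_R3, R2_R3]

omit [DecidableEq ι] in
theorem ip_R1 (gi M : Matrix ι ι ℝ) (h : Mᵀ * gi * M = gi) (S T : Ten ι) :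
    ip gi (R1 M S) (R1 M T) = ip gi S T := by
  unfold ip
  rw [R1_adj, ← R1_R3, ← R1_R2, R1_R1, R1_R1, h]

omit [DecidableEq ι] in
theorem ip_R2 (gi M : Matrix ι ι ℝ) (h : Mᵀ * gi * M = gi) (S T : Ten ι) :
    ip gi (R2 M S) (R2 M T) = ip gi S T := by
  have := ip_R1 gi M h (tau S) (tau T)
  rw [← tau_R2, ← tau_R2, ip_tau, ip_tau] at this
  exact this

omit [DecidableEq ι] in
theorem ip_R3 (gi M : Matrix ι ι ℝ) (h : Mᵀ * gi * M = gi) (S T : Ten ι) :
    ip gi (R3 M S) (R3 M T) = ip gi S T := by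
  have := ip_R2 gi M h (sig S) (sig T)
  rw [← sig_R3, ← sig_R3, ip_sig, ip_sig] at this
  exact this

omit [DecidableEq ι] in
theorem ip_self_nonneg (gi : Matrix ι ι ℝ) (B : Matrix ι ι ℝ) (hB : gi = Bᵀ * B) (S : Ten ι) :
    0 ≤ ip gi S S := by
  have : ip gi S S = dot3 (R1 B (R2 B (R3 B S))) (R1 B (R2 B (R3 B S))) := by
    unfold ip
    rw [R1_adj, R1_R1, ← hB, R2_adj, ← R1_R2, R2_R2, ← hB, R3_adj, ← R1_R3, ← R2_R3, R3_R3, ← hB]
  rw [this]
  exact dot3_self_nonneg _

/-- third permutation -/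
def kap (T : Ten ι) : Ten ι := fun a b c => T c a b

omit [DecidableEq ι] in
theorem ip_kap (gi : Matrix ι ι ℝ) (S T : Ten ι) : ip gi (kap S) (kap T) = ip gi S T := by
  have h : ∀ S : Ten ι, kap S = sig (tau S) := fun S => rfl
  rw [h, h, ip_sig, ip_tau]

/-- Key algebraic inequality coming from the complex structure. -/
theorem ip_tau_le (gi J B : Matrix ι ι ℝ) (hB : gi = Bᵀ * B) (hJ : J * J = -1)
    (hJg : J * gi * Jᵀ = gi) (N : Ten ι) (hsym : sig N = N) (hinv : R2 Jᵀ (R3 Jᵀ N) = N) :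
    2 * ip gi N (tau N) ≤ ip gi N N := by
  have hgi : giᵀ = gi := by rw [hB, Matrix.transpose_mul, Matrix.transpose_transpose]
  have hJt : Jᵀᵀ * gi * Jᵀ = gi := by rw [Matrix.transpose_transpose]; exact hJg
  have hJJ : Jᵀ * Jᵀ = -1 := by
    rw [← Matrix.transpose_mul, hJ]; simp
  have h11 : ∀ T : Ten ι, R1 Jᵀ (R1 Jᵀ T) = -T := by
    intro T; rw [R1_R1, hJJ, R1_neg, R1_one]
  have h22 : ∀ T : Ten ι, R2 Jᵀ (R2 Jᵀ T) = -T := by
    intro T; rw [R2_R2, hJJ, R2_neg, R2_one]
  have h33 : ∀ T : Ten ι, R3 Jᵀ (R3 Jᵀ T) = -T := by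
    intro T; rw [R3_R3, hJJ, R3_neg, R3_one]
  -- J3 N = - J2 N
  have h3 : R3 Jᵀ N = - R2 Jᵀ N := by
    have := congrArg (R2 Jᵀ) hinv
    rw [h22] at this
    rw [← this, neg_neg]
  -- K = J1 J2 N
  set K : Ten ι := R1 Jᵀ (R2 Jᵀ N) with hK
  have hJ1J3 : R1 Jᵀ (R3 Jᵀ N) = -K := by
    rw [h3, R1_neg']
  -- orthogonality
  have horth : ip gi N K = 0 := by
    have e : ip gi N K = - ip gi N K := by
      calc ip gi N K = ip gi (sig N) (sig K) := (ip_sig gi N K).symm
        _ = ip gi N (R1 Jᵀ (R3 Jᵀ N)) := by rw [hsym, hK, sig_R1, sig_R2, hsym]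
        _ = ip gi N (-K) := by rw [hJ1J3]
        _ = - ip gi N K := by
            have := ip_smul_right gi hgi (-1) N K
            simpa only [neg_smul, one_smul, neg_mul, one_mul] using this
    linarith only [e]
  have hKK : ip gi K K = ip gi N N := by
    rw [hK, ip_R1 gi Jᵀ hJt, ip_R2 gi Jᵀ hJt]
  -- P = - ip N (tau K)
  have hP : ip gi N (tau N) = - ip gi N (tau K) := by
    have e1 : ip gi N (tau N) = ip gi (R3 Jᵀ N) (R3 Jᵀ (tau N)) := (ip_R3 gi Jᵀ hJt _ _).symm
    rw [← tau_R3, h3] at e1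
    have e2 : tau (-R2 Jᵀ N) = - R1 Jᵀ (tau N) := by
      rw [← tau_R2]; rfl
    rw [e2] at e1
    have e3 : ip gi (-R2 Jᵀ N) (-R1 Jᵀ (tau N)) = ip gi (R2 Jᵀ N) (R1 Jᵀ (tau N)) := by
      have a1 := ip_smul_right gi hgi (-1) (-R2 Jᵀ N) (R1 Jᵀ (tau N))
      have a2 := ip_smul_left gi (-1) (R2 Jᵀ N) (R1 Jᵀ (tau N))
      simp only [neg_smul, one_smul] at a1 a2
      rw [a1, a2]; ring
    rw [e3] at e1
    have e4 : ip gi (R2 Jᵀ N) (R1 Jᵀ (tau N))
        = ip gi (R2 Jᵀ (R2 Jᵀ N)) (R2 Jᵀ (R1 Jᵀ (tau N))) := (ip_R2 gi Jᵀ hJt _ _).symm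
    have e6 : R2 Jᵀ (R1 Jᵀ (tau N)) = tau K := by rw [hK, tau_R1, tau_R2]
    rw [h22, e6] at e4
    have a2 := ip_smul_left gi (-1) N (tau K)
    simp only [neg_smul, one_smul] at a2
    rw [e1, e4, a2]; ring
  have htK : ip gi K (tau K) = ip gi N (tau N) := by
    have e1 : tau K = R2 Jᵀ (R1 Jᵀ (tau N)) := by rw [hK, tau_R1, tau_R2]
    rw [e1, ← R1_R2, hK, ip_R1 gi Jᵀ hJt, ip_R2 gi Jᵀ hJt]
  have hKt : ip gi K (tau N) = ip gi N (tau K) := by
    have := ip_tau gi K (tau N)
    rw [tau_tau] at this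
    rw [← this, ip_comm gi hgi]
  -- nonnegativity of the norm of D = (N - K) - tau (N - K)
  have hnn := ip_self_nonneg gi B hB ((N - K) - tau (N - K))
  have hexp : ip gi ((N - K) - tau (N - K)) ((N - K) - tau (N - K))
      = 2 * ip gi (N - K) (N - K) - 2 * ip gi (N - K) (tau (N - K)) := by
    generalize N - K = X
    rw [ip_sub_left, ip_sub_right gi hgi, ip_sub_right gi hgi, ip_tau,
      ip_comm gi hgi (tau X) X]
    ring
  have h1 : ip gi (N - K) (N - K) = 2 * ip gi N N := by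
    rw [ip_sub_left, ip_sub_right gi hgi, ip_sub_right gi hgi, ip_comm gi hgi K N, horth, hKK]
    ring
  have h2 : ip gi (N - K) (tau (N - K)) = 4 * ip gi N (tau N) := by
    have : tau (N - K) = tau N - tau K := rfl
    rw [this, ip_sub_left, ip_sub_right gi hgi, ip_sub_right gi hgi, htK, hKt]
    linarith only [hP]
  rw [hexp, h1, h2] at hnn
  linarith

end Vale.Agent.P223
end
end

section

section

set_option maxSynthPendingDepth 3

namespace Vale.Agent.P223

open scoped Matrix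
open Finset

variable {ι : Type} [Fintype ι] [DecidableEq ι]

noncomputable def del (gi : Matrix ι ι ℝ) (N : Ten ι) (d : ι) : ℝ := ∑ a, ∑ b, gi a b * N a b d
noncomputable def trc (gi : Matrix ι ι ℝ) (N : Ten ι) (d : ι) : ℝ := ∑ a, ∑ b, gi a b * N d a b
noncomputable def Gam (gi : Matrix ι ι ℝ) (N : Ten ι) (c a b : ι) : ℝ :=
  (1 / 2) * ∑ d, gi c d * (N a b d + N b a d - N d a b)

omit [DecidableEq ι] in
theorem sum3_rot (f : ι → ι → ι → ℝ) :
    ∑ a, ∑ b, ∑ c, f a b c = ∑ c, ∑ a, ∑ b, f a b c := by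
  rw [Finset.sum_congr rfl fun a _ => Finset.sum_comm (f := fun b c => f a b c)]
  rw [Finset.sum_comm]

/-- lowered Christoffel tensor -/
noncomputable def Cl (N : Ten ι) : Ten ι := (1 / 2 : ℝ) • (N + (tau N - kap N))

omit [DecidableEq ι] in
theorem Gam_eq (gi : Matrix ι ι ℝ) (N : Ten ι) (c a b : ι) :
    Gam gi N c a b = R3 gi (Cl N) a b c := by
  unfold Gam R3 Cl tau kap
  rw [Finset.mul_sum]
  refine Finset.sum_congr rfl fun d _ => ?_
  simp only [Pi.smul_apply, Pi.add_apply, Pi.sub_apply, smul_eq_mul]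
  ring

omit [DecidableEq ι] in
theorem T1_eq_ip (gi : Matrix ι ι ℝ) (hgi : giᵀ = gi) (N : Ten ι) :
    T1 gi (Gam gi N) (Gam gi N) = ip gi (Cl N) (sig (Cl N)) := by
  have h1 : T1 gi (Gam gi N) (Gam gi N)
      = dot3 (R3 gi (Cl N)) (R1 gi (sig (R3 gi (Cl N)))) := by
    unfold T1 dot3
    simp only [Gam_eq]
    -- source: Σ a b c d, gi a b * (X a d c * X b c d)
    rw [s23, s34, s23]
    refine Finset.sum_congr rfl fun a _ => Finset.sum_congr rfl fun b _ =>
      Finset.sum_congr rfl fun c _ => ?_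
    unfold R1 sig
    rw [Finset.mul_sum]
    refine Finset.sum_congr rfl fun d _ => ?_
    ring
  rw [h1, sig_R3, R3_adj, hgi, ← R1_R3, ← R2_R3]
  rfl

omit [DecidableEq ι] in
theorem ip_Cl (gi : Matrix ι ι ℝ) (hgi : giᵀ = gi) (N : Ten ι) (hsym : sig N = N) :
    ip gi (Cl N) (sig (Cl N)) = (1 / 4) * (2 * ip gi N (tau N) - ip gi N N) := by
  have hk : kap N = sig (tau N) := rfl
  have e1 : sig (Cl N) = (1 / 2 : ℝ) • (N - (tau N - kap N)) := by
    have : sig (Cl N) = (1 / 2 : ℝ) • (sig N + (sig (tau N) - sig (kap N))) := rfl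
    rw [this, hsym, hk, sig_sig]
    congr 1
    abel
  rw [e1]
  unfold Cl
  rw [ip_smul_left, ip_smul_right gi hgi]
  have e2 : ip gi (N + (tau N - kap N)) (N - (tau N - kap N))
      = ip gi N N - ip gi (tau N - kap N) (tau N - kap N) := by
    generalize tau N - kap N = D
    rw [ip_add_left, ip_sub_right gi hgi, ip_sub_right gi hgi, ip_comm gi hgi D N]
    ring
  have e3 : ip gi (tau N - kap N) (tau N - kap N) = 2 * ip gi N N - 2 * ip gi N (tau N) := by
    have f1 : ip gi (tau N) (kap N) = ip gi N (tau N) := by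
      have g1 : ip gi (tau N) (kap N) = ip gi (tau (tau N)) (tau (kap N)) := (ip_tau gi _ _).symm
      have g2 : tau (kap N) = kap N := by
        funext a b c
        show N c b a = N c a b
        exact congrFun (congrFun (congrFun hsym c) a) b
      have g3 : ip gi N (kap N) = ip gi (sig N) (sig (kap N)) := (ip_sig gi _ _).symm
      have g4 : sig (kap N) = tau N := rfl
      rw [g1, tau_tau, g2, g3, hsym, g4]
    rw [ip_sub_left, ip_sub_right gi hgi, ip_sub_right gi hgi, ip_tau, ip_kap,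
      ip_comm gi hgi (kap N) (tau N), f1]
    ring
  rw [e2, e3]
  ring

omit [DecidableEq ι] in
theorem V_eq (gi : Matrix ι ι ℝ) (N : Ten ι) (hgi : giᵀ = gi) (c : ι) :
    (∑ a, ∑ b, gi a b * Gam gi N c a b)
      = ∑ d, gi c d * (del gi N d - (1 / 2) * trc gi N d) := by
  have hg : ∀ a b, gi a b = gi b a := fun a b => congrFun (congrFun hgi b) a
  have h1 : (∑ a, ∑ b, gi a b * Gam gi N c a b)
      = ∑ d, gi c d * ∑ a, ∑ b, gi a b * ((1 / 2) * (N a b d + N b a d - N d a b)) := by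
    unfold Gam
    simp only [Finset.mul_sum]
    rw [Finset.sum_comm]
    symm
    rw [Finset.sum_comm]
    rw [Finset.sum_comm]
    have : ∀ f : ι → ι → ι → ℝ, ∑ d, ∑ a, ∑ b, f d a b = ∑ b, ∑ a, ∑ d, f d a b := by
      intro f
      rw [Finset.sum_comm]
      rw [Finset.sum_congr rfl fun a _ => Finset.sum_comm (f := fun d b => f d a b)]
      rw [Finset.sum_comm]
    rw [this]
    refine Finset.sum_congr rfl fun b _ => Finset.sum_congr rfl fun a _ =>
      Finset.sum_congr rfl fun d _ => ?_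
    ring
  rw [h1]
  refine Finset.sum_congr rfl fun d _ => ?_
  congr 1
  have h2 : (∑ a, ∑ b, gi a b * N b a d) = del gi N d := by
    unfold del
    rw [Finset.sum_comm]
    refine Finset.sum_congr rfl fun a _ => Finset.sum_congr rfl fun b _ => ?_
    rw [hg]
  have h3 : (∑ a, ∑ b, gi a b * ((1 / 2) * (N a b d + N b a d - N d a b)))
      = (1 / 2) * ((∑ a, ∑ b, gi a b * N a b d) + (∑ a, ∑ b, gi a b * N b a d)
        - ∑ a, ∑ b, gi a b * N d a b) := by
    simp only [← Finset.sum_add_distrib, ← Finset.sum_sub_distrib, Finset.mul_sum]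
    refine Finset.sum_congr rfl fun a _ => Finset.sum_congr rfl fun b _ => ?_
    ring
  rw [h3, h2]
  unfold del trc
  ring

/-- the tensor `s ⊗ G` -/
def sG (s : ι → ℝ) (G : Matrix ι ι ℝ) : Ten ι := fun a b c => s a * G b c

theorem raise_sG (gi G : Matrix ι ι ℝ) (hgi : giᵀ = gi) (hG : G * gi = 1) (s : ι → ℝ) (a b c : ι) :
    R1 gi (R2 gi (R3 gi (sG s G))) a b c = (∑ d, gi a d * s d) * gi b c := by
  unfold R1 R2 R3 sG
  have h : ∀ e, (∑ f, gi c f * G e f) = (1 : Matrix ι ι ℝ) e c := by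
    intro e
    rw [← hG, Matrix.mul_apply]
    refine Finset.sum_congr rfl fun f _ => ?_
    have : gi c f = gi f c := congrFun (congrFun hgi f) c
    rw [this, mul_comm]
  rw [Finset.sum_mul]
  refine Finset.sum_congr rfl fun d _ => ?_
  rw [mul_assoc]
  congr 1
  have h2 : ∀ e, (∑ f, gi c f * (s d * G e f)) = s d * (1 : Matrix ι ι ℝ) e c := by
    intro e
    rw [← h e, Finset.mul_sum]
    refine Finset.sum_congr rfl fun f _ => ?_
    ring
  simp only [h2]
  simp only [Matrix.one_apply, mul_ite, mul_one, mul_zero, sum_ite_eq', mem_univ, ↓reduceIte]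
  ring

theorem ip_sG (gi G : Matrix ι ι ℝ) (hgi : giᵀ = gi) (hG : G * gi = 1) (s : ι → ℝ) (N : Ten ι) :
    ip gi N (sG s G) = ∑ a, (∑ d, gi a d * s d) * trc gi N a := by
  unfold ip dot3 trc
  refine Finset.sum_congr rfl fun a _ => ?_
  rw [Finset.mul_sum]
  refine Finset.sum_congr rfl fun b _ => ?_
  rw [Finset.mul_sum]
  refine Finset.sum_congr rfl fun c _ => ?_
  rw [raise_sG gi G hgi hG]
  ring

theorem ip_tau_sG (gi G : Matrix ι ι ℝ) (hgi : giᵀ = gi) (hG : G * gi = 1) (s : ι → ℝ)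
    (N : Ten ι) (hsym : sig N = N) :
    ip gi (tau N) (sG s G) = ∑ a, (∑ d, gi a d * s d) * del gi N a := by
  rw [ip_sG gi G hgi hG]
  refine Finset.sum_congr rfl fun a _ => ?_
  congr 1
  unfold trc del tau
  refine Finset.sum_congr rfl fun b _ => Finset.sum_congr rfl fun c _ => ?_
  congr 1
  exact congrFun (congrFun (congrFun hsym b) c) a

theorem trc_sG (gi G : Matrix ι ι ℝ) (hgi : giᵀ = gi) (hG : G * gi = 1) (s : ι → ℝ) (a : ι) :
    trc gi (sG s G) a = (Fintype.card ι : ℝ) * s a := by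
  unfold trc sG
  have h : ∀ b, (∑ c, gi b c * (s a * G b c)) = s a := by
    intro b
    have : (∑ c, gi b c * G b c) = 1 := by
      have h1 : (G * gi) b b = 1 := by rw [hG]; simp
      rw [Matrix.mul_apply] at h1
      rw [← h1]
      refine Finset.sum_congr rfl fun f _ => ?_
      have : gi b f = gi f b := congrFun (congrFun hgi f) b
      rw [this, mul_comm]
    calc (∑ c, gi b c * (s a * G b c)) = s a * ∑ c, gi b c * G b c := by
          rw [Finset.mul_sum]
          refine Finset.sum_congr rfl fun f _ => ?_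
          ring
      _ = s a := by rw [this, mul_one]
  simp only [h]
  simp only [sum_const, card_univ, nsmul_eq_mul]

/-- The main pointwise inequality. -/
theorem pointwise_ineq (G gi J B : Matrix ι ι ℝ) (hB : gi = Bᵀ * B) (hG : G * gi = 1)
    (hJ : J * J = -1) (hJG : Jᵀ * G * J = G) (hJg : J * gi * Jᵀ = gi)
    (N : Ten ι) (hsym : sig N = N) (hinv : R2 Jᵀ (R3 Jᵀ N) = N)
    (s : ι → ℝ) (hn : 2 ≤ Fintype.card ι) :
    T1 gi (Gam gi N) (Gam gi N)
      - (2 / (Fintype.card ι : ℝ)) * ∑ c, s c * (∑ a, ∑ b, gi a b * Gam gi N c a b)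
      - (((Fintype.card ι : ℝ) - 2) / (Fintype.card ι : ℝ)) * ∑ a, ∑ b, gi a b * s a * s b ≤ 0 := by
  have hgi : giᵀ = gi := by rw [hB, Matrix.transpose_mul, Matrix.transpose_transpose]
  have hGt : Gᵀ = G := by
    have h1 : gi * G = 1 := mul_eq_one_comm.mp hG
    have h2 : gi * Gᵀ = 1 := by
      have := congrArg Matrix.transpose hG
      rw [Matrix.transpose_mul, hgi, Matrix.transpose_one] at this
      exact this
    calc Gᵀ = (G * gi) * Gᵀ := by rw [hG, one_mul]
      _ = G * (gi * Gᵀ) := by rw [Matrix.mul_assoc]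
      _ = G := by rw [h2, mul_one]
  set n : ℝ := (Fintype.card ι : ℝ) with hn'
  have hn2 : (2 : ℝ) ≤ n := by rw [hn']; exact_mod_cast hn
  have hnpos : 0 < n := by linarith only [hn2]
  set t : ℝ := 2 / n with ht
  set S : Ten ι := sG s G with hS
  have hSsym : sig S = S := by
    funext a b c
    show s a * G c b = s a * G b c
    have : G c b = G b c := congrFun (congrFun hGt b) c
    rw [this]
  have hSinv : R2 Jᵀ (R3 Jᵀ S) = S := by
    funext a b c
    show (∑ d, Jᵀ b d * ∑ e, Jᵀ c e * (s a * G d e)) = s a * G b c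
    have : (Jᵀ * G * J) b c = G b c := by rw [hJG]
    rw [← this, Matrix.mul_assoc, Matrix.mul_apply, Finset.mul_sum]
    refine Finset.sum_congr rfl fun d _ => ?_
    rw [Matrix.mul_apply, Finset.mul_sum, Finset.mul_sum, Finset.mul_sum]
    refine Finset.sum_congr rfl fun e _ => ?_
    simp only [Matrix.transpose_apply]
    ring
  -- the corrected tensor
  set M : Ten ι := N - t • S with hM
  have hMsym : sig M = M := by
    have : sig M = sig N - t • sig S := rfl
    rw [this, hsym, hSsym]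
  have hMinv : R2 Jᵀ (R3 Jᵀ M) = M := by
    have h1 : R3 Jᵀ M = R3 Jᵀ N - t • R3 Jᵀ S := by
      funext a b c
      simp only [hM, R3, Pi.sub_apply, Pi.smul_apply, smul_eq_mul, Finset.mul_sum,
        ← Finset.sum_sub_distrib]
      refine Finset.sum_congr rfl fun d _ => ?_
      ring
    have h2 : R2 Jᵀ (R3 Jᵀ M) = R2 Jᵀ (R3 Jᵀ N) - t • R2 Jᵀ (R3 Jᵀ S) := by
      rw [h1]
      funext a b c
      simp only [R2, Pi.sub_apply, Pi.smul_apply, smul_eq_mul, Finset.mul_sum,
        ← Finset.sum_sub_distrib]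
      refine Finset.sum_congr rfl fun d _ => ?_
      ring
    rw [h2, hinv, hSinv]
  have hkey := ip_tau_le gi J B hB hJ hJg M hMsym hMinv
  -- expansions
  set q : ℝ := ∑ a, (∑ d, gi a d * s d) * s a with hq
  set sd : ℝ := ∑ a, (∑ d, gi a d * s d) * del gi N a with hsd
  set st : ℝ := ∑ a, (∑ d, gi a d * s d) * trc gi N a with hst
  have i1 : ip gi N S = st := ip_sG gi G hgi hG s N
  have i2 : ip gi (tau N) S = sd := ip_tau_sG gi G hgi hG s N hsym
  have i3 : ip gi S S = n * q := by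
    rw [hS, ip_sG gi G hgi hG, hq, Finset.mul_sum]
    refine Finset.sum_congr rfl fun a _ => ?_
    rw [trc_sG gi G hgi hG]
    ring
  have i4 : ip gi (tau S) S = q := by
    rw [hS, ip_tau_sG gi G hgi hG s _ hSsym, hq]
    refine Finset.sum_congr rfl fun a _ => ?_
    congr 1
    -- del gi (sG s G) a = s a
    rw [hS]
    unfold del sG
    have h1 : gi * G = 1 := mul_eq_one_comm.mp hG
    have : ∀ b, (∑ c, gi b c * (s b * G c a)) = s b * (1 : Matrix ι ι ℝ) b a := by
      intro b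
      rw [← h1, Matrix.mul_apply, Finset.mul_sum]
      refine Finset.sum_congr rfl fun c _ => ?_
      ring
    simp only [this]
    simp only [Matrix.one_apply, mul_ite, mul_one, mul_zero, sum_ite_eq', mem_univ, ↓reduceIte]
  have e1 : ip gi M M = ip gi N N - 2 * t * st + t ^ 2 * (n * q) := by
    rw [hM, ip_sub_left, ip_sub_right gi hgi, ip_sub_right gi hgi, ip_smul_left,
      ip_smul_right gi hgi, ip_smul_left, ip_smul_right gi hgi, ip_comm gi hgi S N, i1, i3]
    ring
  have e2 : ip gi M (tau M) = ip gi N (tau N) - 2 * t * sd + t ^ 2 * q := by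
    have : tau M = tau N - t • tau S := rfl
    have i5 : ip gi N (tau S) = sd := by
      rw [← ip_tau, tau_tau, i2]
    rw [this, hM, ip_sub_left, ip_sub_right gi hgi, ip_sub_right gi hgi, ip_smul_left,
      ip_smul_right gi hgi, ip_smul_left, ip_smul_right gi hgi, ip_comm gi hgi S (tau N), i2,
      ip_comm gi hgi S (tau S), i4, i5]
    ring
  have e3 : T1 gi (Gam gi N) (Gam gi N) = (1 / 4) * (2 * ip gi N (tau N) - ip gi N N) := by
    rw [T1_eq_ip gi hgi, ip_Cl gi hgi N hsym]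
  have e4 : (∑ c, s c * (∑ a, ∑ b, gi a b * Gam gi N c a b)) = sd - (1 / 2) * st := by
    have : ∀ c, (∑ a, ∑ b, gi a b * Gam gi N c a b)
      = ∑ d, gi c d * (del gi N d - (1 / 2) * trc gi N d) := fun c => V_eq gi N hgi c
    simp only [this]
    rw [hsd, hst, Finset.mul_sum, ← Finset.sum_sub_distrib]
    have h5 : ∀ a, (∑ d, gi a d * s d) * del gi N a - 1 / 2 * ((∑ d, gi a d * s d) * trc gi N a)
        = ∑ d, s d * (gi d a * (del gi N a - (1 / 2) * trc gi N a)) := by
      intro a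
      have : (∑ d, gi a d * s d) * del gi N a - 1 / 2 * ((∑ d, gi a d * s d) * trc gi N a)
          = (∑ d, gi a d * s d) * (del gi N a - (1 / 2) * trc gi N a) := by ring
      rw [this, Finset.sum_mul]
      refine Finset.sum_congr rfl fun d _ => ?_
      have : gi a d = gi d a := congrFun (congrFun hgi d) a
      rw [this]; ring
    simp only [h5]
    rw [Finset.sum_comm]
    refine Finset.sum_congr rfl fun c _ => ?_
    rw [Finset.mul_sum]
  have e5 : (∑ a, ∑ b, gi a b * s a * s b) = q := by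
    rw [hq]
    refine Finset.sum_congr rfl fun a _ => ?_
    rw [Finset.sum_mul]
    refine Finset.sum_congr rfl fun b _ => ?_
    ring
  have hqnn : 0 ≤ q := by
    have : q = ∑ k, (∑ a, B k a * s a) ^ 2 := by
      rw [hq]
      have h1 : ∀ a, (∑ d, gi a d * s d) * s a = ∑ d, ∑ k, B k a * s a * (B k d * s d) := by
        intro a
        rw [Finset.sum_mul]
        refine Finset.sum_congr rfl fun d _ => ?_
        rw [hB, Matrix.mul_apply, Finset.sum_mul, Finset.sum_mul]
        refine Finset.sum_congr rfl fun k _ => ?_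
        rw [Matrix.transpose_apply]; ring
      simp only [h1]
      have h2 : ∀ k, (∑ a, B k a * s a) ^ 2 = ∑ a, ∑ d, B k a * s a * (B k d * s d) := by
        intro k
        rw [sq, Finset.sum_mul_sum]
      simp only [h2]
      exact (sum3_rot _)
    rw [this]
    exact Finset.sum_nonneg fun k _ => sq_nonneg _
  rw [e3, e4, e5]
  have hnt : t * n = 2 := by rw [ht]; (clear * - hn2; field_simp)
  have hfin : (1 / 4) * (2 * ip gi N (tau N) - ip gi N N) ≤ t * sd - (1 / 2) * t * st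
      - (1 / 2) * t ^ 2 * q + (1 / 2) * t * q := by
    have : t ^ 2 * (n * q) = 2 * t * q := by
      calc t ^ 2 * (n * q) = t * (t * n) * q := by ring
        _ = 2 * t * q := by rw [hnt]; ring
    rw [e1, e2, this] at hkey
    linarith only [hkey]
  have hn2' : (n - 2) / n = 1 - t := by rw [ht]; (clear * - hn2; field_simp)
  rw [hn2']
  have ht1 : t ≤ 1 := by rw [ht, div_le_one hnpos]; exact hn2
  have ht0 : 0 < t := by rw [ht]; positivity
  nlinarith only [hn2, hfin, hnt, mul_nonneg (mul_nonneg hqnn (sub_nonneg.mpr ht1)) ht0.le]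

end Vale.Agent.P223
end
end

section

section

set_option maxSynthPendingDepth 3

namespace Vale.Agent.P223

open scoped Matrix ContDiff Topology
open Finset

variable {ι : Type} [Fintype ι] [DecidableEq ι]

/-- smoothness at a point -/
abbrev Sm (f : (ι → ℝ) → ℝ) (x : ι → ℝ) : Prop := ContDiffAt ℝ ∞ f x

omit [DecidableEq ι] in
theorem Sm.diff {f : (ι → ℝ) → ℝ} {x : ι → ℝ} (h : Sm f x) : DifferentiableAt ℝ f x :=
  h.differentiableAt (by simp)

theorem pd_congr {c : ι} {f h : (ι → ℝ) → ℝ} {x : ι → ℝ} (e : f =ᶠ[𝓝 x] h) :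
    pd c f x = pd c h x := by
  unfold pd; rw [e.fderiv_eq]

theorem pd_add {c : ι} {f h : (ι → ℝ) → ℝ} {x : ι → ℝ} (hf : Sm f x) (hh : Sm h x) :
    pd c (fun y => f y + h y) x = pd c f x + pd c h x := by
  unfold pd
  rw [fderiv_fun_add hf.diff hh.diff]; rfl

theorem pd_sub {c : ι} {f h : (ι → ℝ) → ℝ} {x : ι → ℝ} (hf : Sm f x) (hh : Sm h x) :
    pd c (fun y => f y - h y) x = pd c f x - pd c h x := by
  unfold pd
  rw [fderiv_fun_sub hf.diff hh.diff]; rfl

theorem pd_mul {c : ι} {f h : (ι → ℝ) → ℝ} {x : ι → ℝ} (hf : Sm f x) (hh : Sm h x) :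
    pd c (fun y => f y * h y) x = pd c f x * h x + f x * pd c h x := by
  unfold pd
  rw [fderiv_fun_mul hf.diff hh.diff]
  simp only [ContinuousLinearMap.add_apply, ContinuousLinearMap.smul_apply, smul_eq_mul]
  ring

theorem pd_const_mul {c : ι} {h : (ι → ℝ) → ℝ} {x : ι → ℝ} (r : ℝ) (hh : Sm h x) :
    pd c (fun y => r * h y) x = r * pd c h x := by
  unfold pd
  rw [fderiv_const_mul hh.diff]
  simp

theorem pd_const {c : ι} {x : ι → ℝ} (r : ℝ) : pd c (fun _ => r) x = 0 := by
  unfold pd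
  simp

theorem pd_sum {κ : Type} {s : Finset κ} {c : ι} {f : κ → (ι → ℝ) → ℝ} {x : ι → ℝ}
    (hf : ∀ k ∈ s, Sm (f k) x) :
    pd c (fun y => ∑ k ∈ s, f k y) x = ∑ k ∈ s, pd c (f k) x := by
  unfold pd
  rw [fderiv_fun_sum fun k hk => (hf k hk).diff]
  simp only [_root_.sum_apply]

omit [DecidableEq ι] in
theorem Sm.add {f h : (ι → ℝ) → ℝ} {x : ι → ℝ} (hf : Sm f x) (hh : Sm h x) :
    Sm (fun y => f y + h y) x := ContDiffAt.add hf hh
omit [DecidableEq ι] in
theorem Sm.sub {f h : (ι → ℝ) → ℝ} {x : ι → ℝ} (hf : Sm f x) (hh : Sm h x) :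
    Sm (fun y => f y - h y) x := ContDiffAt.sub hf hh
omit [DecidableEq ι] in
theorem Sm.mul {f h : (ι → ℝ) → ℝ} {x : ι → ℝ} (hf : Sm f x) (hh : Sm h x) :
    Sm (fun y => f y * h y) x := ContDiffAt.mul hf hh
omit [DecidableEq ι] in
theorem Sm.const {x : ι → ℝ} (r : ℝ) : Sm (fun _ => r) x := contDiffAt_const
omit [DecidableEq ι] in
theorem Sm.sum {κ : Type} {s : Finset κ} {f : κ → (ι → ℝ) → ℝ} {x : ι → ℝ}
    (hf : ∀ k ∈ s, Sm (f k) x) : Sm (fun y => ∑ k ∈ s, f k y) x := ContDiffAt.sum hf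
omit [DecidableEq ι] in
theorem Sm.prod {κ : Type} {s : Finset κ} {f : κ → (ι → ℝ) → ℝ} {x : ι → ℝ}
    (hf : ∀ k ∈ s, Sm (f k) x) : Sm (fun y => ∏ k ∈ s, f k y) x := contDiffAt_prod hf

theorem Sm.pd {f : (ι → ℝ) → ℝ} {x : ι → ℝ} (hf : Sm f x) (c : ι) :
    Sm (fun y => pd c f y) x := by
  unfold Vale.Agent.P223.pd
  have h1 : ContDiffAt ℝ ∞ (fderiv ℝ f) x := hf.fderiv_right (by simp)
  exact h1.clm_apply contDiffAt_const

/-- derivative of a determinant -/
theorem pd_det {g : (ι → ℝ) → Matrix ι ι ℝ} {x : ι → ℝ} (hg : ∀ a b, Sm (fun y => g y a b) x)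
    (c : ι) :
    pd c (fun y => (g y).det) x
      = ∑ i, ∑ a, (g x).adjugate i a * pd c (fun y => g y a i) x := by
  have h1 : ∀ i, (∑ a, (g x).adjugate i a * pd c (fun y => g y a i) x)
      = ((g x).updateCol i (fun a => pd c (fun y => g y a i) x)).det := by
    intro i
    rw [← Matrix.cramer_apply, Matrix.cramer_eq_adjugate_mulVec]
    rfl
  simp only [h1]
  have h2 : (fun y => (g y).det)
      = fun y => ∑ σ : Equiv.Perm ι, ((Equiv.Perm.sign σ : ℤ) : ℝ) * ∏ i, g y (σ i) i := by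
    funext y
    rw [Matrix.det_apply']
  rw [h2, pd_sum]
  · have h3 : ∀ σ : Equiv.Perm ι,
        pd c (fun y => ((Equiv.Perm.sign σ : ℤ) : ℝ) * ∏ i, g y (σ i) i) x
        = ∑ i, ((Equiv.Perm.sign σ : ℤ) : ℝ) *
            ((∏ j ∈ Finset.univ.erase i, g x (σ j) j) * pd c (fun y => g y (σ i) i) x) := by
      intro σ
      rw [pd_const_mul _ (Sm.prod fun i _ => hg (σ i) i)]
      unfold pd
      rw [fderiv_finset_prod (fun i _ => (hg (σ i) i).diff)]
      rw [ContinuousLinearMap.sum_apply, Finset.mul_sum]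
      refine Finset.sum_congr rfl fun i _ => ?_
      simp only [smul_apply, smul_eq_mul]
    rw [Finset.sum_congr rfl fun σ _ => h3 σ, Finset.sum_comm]
    refine Finset.sum_congr rfl fun i _ => ?_
    rw [Matrix.det_apply']
    refine Finset.sum_congr rfl fun σ _ => ?_
    congr 1
    rw [← Finset.mul_prod_erase Finset.univ _ (Finset.mem_univ i)]
    rw [Matrix.updateCol_self, mul_comm]
    congr 1
    refine Finset.prod_congr rfl fun j hj => ?_
    rw [Matrix.updateCol_ne (Finset.ne_of_mem_erase hj)]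
  · intro σ _
    exact (Sm.const _).mul (Sm.prod fun i _ => hg (σ i) i)

omit [DecidableEq ι] in
theorem Sm.det [DecidableEq ι] {g : (ι → ℝ) → Matrix ι ι ℝ} {x : ι → ℝ}
    (hg : ∀ a b, Sm (fun y => g y a b) x) : Sm (fun y => (g y).det) x := by
  have h2 : (fun y => (g y).det)
      = fun y => ∑ σ : Equiv.Perm ι, ((Equiv.Perm.sign σ : ℤ) : ℝ) * ∏ i, g y (σ i) i := by
    funext y
    rw [Matrix.det_apply']
  rw [h2]
  exact Sm.sum fun σ _ => (Sm.const _).mul (Sm.prod fun i _ => hg (σ i) i)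

theorem Sm.adj {g : (ι → ℝ) → Matrix ι ι ℝ} {x : ι → ℝ}
    (hg : ∀ a b, Sm (fun y => g y a b) x) (a b : ι) : Sm (fun y => (g y).adjugate a b) x := by
  have : (fun y => (g y).adjugate a b)
      = fun y => ((g y).updateRow b (Pi.single a 1)).det := by
    funext y
    rw [Matrix.adjugate_apply]
  rw [this]
  apply Sm.det
  intro i j
  by_cases h : i = b
  · subst h
    simp only [Matrix.updateRow_self]
    exact Sm.const _
  · simp only [Matrix.updateRow_ne h]
    exact hg i j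

theorem Sm.inv {g : (ι → ℝ) → Matrix ι ι ℝ} {x : ι → ℝ}
    (hg : ∀ a b, Sm (fun y => g y a b) x) (hd : (g x).det ≠ 0) (a b : ι) :
    Sm (fun y => (g y)⁻¹ a b) x := by
  have : (fun y => (g y)⁻¹ a b) = fun y => ((g y).det)⁻¹ * (g y).adjugate a b := by
    funext y
    rw [Matrix.inv_def, Matrix.smul_apply, Ring.inverse_eq_inv', smul_eq_mul]
  rw [this]
  exact ContDiffAt.mul (ContDiffAt.inv (Sm.det hg) hd) (Sm.adj hg a b)

end Vale.Agent.P223
end
end

section

section

set_option maxSynthPendingDepth 3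

namespace Vale.Agent.P223

open scoped Matrix ContDiff Topology
open Finset

variable {ι : Type} [Fintype ι] [DecidableEq ι]

/-- flat derivative of the metric -/
noncomputable def Nt (g : (ι → ℝ) → Matrix ι ι ℝ) (x : ι → ℝ) : Ten ι :=
  fun a b c => pd a (fun y => g y b c) x

section

variable {X : Set (ι → ℝ)} {g : (ι → ℝ) → Matrix ι ι ℝ} {x : ι → ℝ}

theorem IsMetricOn.sm (hg : IsMetricOn X g) (hX : IsOpen X) (hx : x ∈ X) (a b : ι) :
    Sm (fun y => g y a b) x := (hg.smooth a b).contDiffAt (hX.mem_nhds hx)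

theorem IsMetricOn.symm (hg : IsMetricOn X g) (hx : x ∈ X) (a b : ι) : g x a b = g x b a := by
  have := (hg.posDef x hx).isHermitian
  have h := congrFun (congrFun this b) a
  simpa using h

theorem IsMetricOn.det_pos (hg : IsMetricOn X g) (hx : x ∈ X) : 0 < (g x).det :=
  (hg.posDef x hx).det_pos

theorem IsMetricOn.inv_symm (hg : IsMetricOn X g) (hx : x ∈ X) (a b : ι) :
    (g x)⁻¹ a b = (g x)⁻¹ b a := by
  have := (hg.posDef x hx).inv.isHermitian
  have h := congrFun (congrFun this b) a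
  simpa using h

theorem IsMetricOn.mul_inv (hg : IsMetricOn X g) (hx : x ∈ X) : g x * (g x)⁻¹ = 1 :=
  Matrix.mul_nonsing_inv _ (hg.det_pos hx).ne'.isUnit

theorem IsMetricOn.inv_mul (hg : IsMetricOn X g) (hx : x ∈ X) : (g x)⁻¹ * g x = 1 :=
  Matrix.nonsing_inv_mul _ (hg.det_pos hx).ne'.isUnit

theorem IsMetricOn.sm_inv (hg : IsMetricOn X g) (hX : IsOpen X) (hx : x ∈ X) (a b : ι) :
    Sm (fun y => (g y)⁻¹ a b) x :=
  Sm.inv (fun a b => hg.sm hX hx a b) (hg.det_pos hx).ne' a b

theorem IsMetricOn.Nt_sig (hg : IsMetricOn X g) (hX : IsOpen X) (hx : x ∈ X) :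
    sig (Nt g x) = Nt g x := by
  funext a b c
  show pd a (fun y => g y c b) x = pd a (fun y => g y b c) x
  apply pd_congr
  filter_upwards [hX.mem_nhds hx] with y hy
  exact hg.symm hy c b

theorem christoffel_eq (g : (ι → ℝ) → Matrix ι ι ℝ) (x : ι → ℝ) (c a b : ι) :
    christoffel g x c a b = Gam ((g x)⁻¹) (Nt g x) c a b := rfl

theorem IsMetricOn.christoffel_symm (hg : IsMetricOn X g) (hX : IsOpen X) (hx : x ∈ X)
    (c a b : ι) : christoffel g x c a b = christoffel g x c b a := by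
  rw [christoffel_eq, christoffel_eq]
  unfold Gam
  congr 1
  refine Finset.sum_congr rfl fun d _ => ?_
  have h := congrFun (congrFun (congrFun (hg.Nt_sig hX hx) d) a) b
  have h' : Nt g x d b a = Nt g x d a b := h
  rw [h']
  ring

theorem IsMetricOn.sm_christoffel (hg : IsMetricOn X g) (hX : IsOpen X) (hx : x ∈ X)
    (c a b : ι) : Sm (fun y => christoffel g y c a b) x := by
  unfold christoffel
  refine (Sm.const _).mul (Sm.sum fun d _ => ?_)
  exact (hg.sm_inv hX hx c d).mul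
    ((((hg.sm hX hx b d).pd a).add ((hg.sm hX hx a d).pd b)).sub ((hg.sm hX hx a b).pd d))

/-- derivative of the inverse metric -/
theorem IsMetricOn.pd_inv (hg : IsMetricOn X g) (hX : IsOpen X) (hx : x ∈ X) (c a b : ι) :
    pd c (fun y => (g y)⁻¹ a b) x
      = - ∑ d, (christoffel g x a c d * (g x)⁻¹ d b + christoffel g x b c d * (g x)⁻¹ a d) := by
  set gi := (g x)⁻¹ with hgi
  have hgs : ∀ a b, gi a b = gi b a := fun a b => hg.inv_symm hx a b
  -- differentiate g⁻¹ g = 1
  have h1 : ∀ b', (∑ e, (pd c (fun y => (g y)⁻¹ a e) x * g x e b'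
      + gi a e * Nt g x c e b')) = 0 := by
    intro b'
    have e1 : pd c (fun y => ∑ e, (g y)⁻¹ a e * g y e b') x
        = ∑ e, (pd c (fun y => (g y)⁻¹ a e) x * g x e b' + gi a e * Nt g x c e b') := by
      rw [pd_sum fun e _ => (hg.sm_inv hX hx a e).mul (hg.sm hX hx e b')]
      refine Finset.sum_congr rfl fun e _ => ?_
      rw [pd_mul (hg.sm_inv hX hx a e) (hg.sm hX hx e b')]
      rfl
    rw [← e1]
    have e2 : (fun y => ∑ e, (g y)⁻¹ a e * g y e b') =ᶠ[𝓝 x] fun _ => (1 : Matrix ι ι ℝ) a b' := by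
      filter_upwards [hX.mem_nhds hx] with y hy
      have := congrFun (congrFun (hg.inv_mul hy) a) b'
      rw [Matrix.mul_apply] at this
      exact this
    rw [pd_congr e2, pd_const]
  have h2 : pd c (fun y => (g y)⁻¹ a b) x = - ∑ e, ∑ d, gi a e * Nt g x c e d * gi d b := by
    have e1 : ∑ d, (∑ e, (pd c (fun y => (g y)⁻¹ a e) x * g x e d
      + gi a e * Nt g x c e d)) * gi d b = 0 := by
      simp only [h1, zero_mul, Finset.sum_const_zero]
    have e2 : ∑ d, (∑ e, (pd c (fun y => (g y)⁻¹ a e) x * g x e d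
      + gi a e * Nt g x c e d)) * gi d b
        = (∑ e, pd c (fun y => (g y)⁻¹ a e) x * ∑ d, g x e d * gi d b)
          + ∑ e, ∑ d, gi a e * Nt g x c e d * gi d b := by
      simp only [Finset.sum_mul, Finset.mul_sum]
      rw [Finset.sum_comm]
      rw [← Finset.sum_add_distrib]
      refine Finset.sum_congr rfl fun e _ => ?_
      rw [← Finset.sum_add_distrib]
      refine Finset.sum_congr rfl fun d _ => ?_
      ring
    have e3 : ∀ e, (∑ d, g x e d * gi d b) = (1 : Matrix ι ι ℝ) e b := by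
      intro e
      rw [← hg.mul_inv hx, Matrix.mul_apply]
    rw [e2] at e1
    simp only [e3] at e1
    have e4 : (∑ e, pd c (fun y => (g y)⁻¹ a e) x * (1 : Matrix ι ι ℝ) e b)
        = pd c (fun y => (g y)⁻¹ a b) x := by
      simp only [Matrix.one_apply, mul_ite, mul_one, mul_zero, sum_ite_eq', mem_univ, ↓reduceIte]
    rw [e4] at e1
    linarith only [e1]
  rw [h2]
  congr 1
  have h3 : (∑ d, (christoffel g x a c d * gi d b + christoffel g x b c d * gi a d))
      = (∑ e, ∑ d, (1 / 2) * (gi a e * gi d b * (Nt g x c d e + Nt g x d c e - Nt g x e c d)))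
        + ∑ e, ∑ d, (1 / 2) * (gi b d * gi a e * (Nt g x c e d + Nt g x e c d - Nt g x d c e)) := by
    rw [Finset.sum_add_distrib]
    congr 1
    · rw [Finset.sum_comm]
      refine Finset.sum_congr rfl fun d _ => ?_
      rw [christoffel_eq]
      unfold Gam
      rw [Finset.mul_sum, Finset.sum_mul]
      refine Finset.sum_congr rfl fun e _ => ?_
      ring
    · refine Finset.sum_congr rfl fun e _ => ?_
      rw [christoffel_eq]
      unfold Gam
      rw [Finset.mul_sum, Finset.sum_mul]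
      refine Finset.sum_congr rfl fun d _ => ?_
      ring
  rw [h3, ← Finset.sum_add_distrib]
  refine Finset.sum_congr rfl fun e _ => ?_
  rw [← Finset.sum_add_distrib]
  refine Finset.sum_congr rfl fun d _ => ?_
  have h4 : Nt g x c d e = Nt g x c e d :=
    congrFun (congrFun (congrFun (hg.Nt_sig hX hx) c) e) d
  rw [h4, hgs b d]
  ring

/-- trace of the Christoffel symbols -/
theorem IsMetricOn.trace_christoffel (hg : IsMetricOn X g) (hX : IsOpen X) (hx : x ∈ X) (c : ι) :
    (∑ a, christoffel g x a a c) = (1 / 2) * ∑ i, ∑ a, (g x)⁻¹ i a * Nt g x c a i := by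
  set gi := (g x)⁻¹ with hgi
  have hgs : ∀ a b, gi a b = gi b a := fun a b => hg.inv_symm hx a b
  have hN : ∀ a b c, Nt g x a b c = Nt g x a c b := fun a b c =>
    congrFun (congrFun (congrFun (hg.Nt_sig hX hx) a) c) b
  have h1 : (∑ a, christoffel g x a a c)
      = (1 / 2) * ((∑ a, ∑ d, gi a d * Nt g x a c d) + (∑ a, ∑ d, gi a d * Nt g x c a d)
        - ∑ a, ∑ d, gi a d * Nt g x d a c) := by
    simp only [← Finset.sum_add_distrib, ← Finset.sum_sub_distrib]
    rw [Finset.mul_sum]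
    refine Finset.sum_congr rfl fun a _ => ?_
    rw [christoffel_eq]
    unfold Gam
    congr 1
    refine Finset.sum_congr rfl fun d _ => ?_
    ring
  have h2 : (∑ a, ∑ d, gi a d * Nt g x a c d) = ∑ a, ∑ d, gi a d * Nt g x d a c := by
    rw [Finset.sum_comm]
    refine Finset.sum_congr rfl fun a _ => Finset.sum_congr rfl fun d _ => ?_
    rw [hgs d a, hN d c a]
  rw [h1, h2]
  have h3 : (∑ a, ∑ d, gi a d * Nt g x c a d) = ∑ i, ∑ a, gi i a * Nt g x c a i := by
    refine Finset.sum_congr rfl fun a _ => Finset.sum_congr rfl fun d _ => ?_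
    rw [hN c a d]
  rw [h3]
  ring

theorem IsMetricOn.sm_dens (hg : IsMetricOn X g) (hX : IsOpen X) (hx : x ∈ X) :
    Sm (dens g) x := by
  have h1 : Sm (fun y => (g y).det) x := Sm.det fun a b => hg.sm hX hx a b
  exact ContDiffAt.sqrt h1 (hg.det_pos hx).ne'

theorem IsMetricOn.dens_pos (hg : IsMetricOn X g) (hx : x ∈ X) : 0 < dens g x :=
  Real.sqrt_pos.mpr (hg.det_pos hx)

theorem IsMetricOn.pd_dens (hg : IsMetricOn X g) (hX : IsOpen X) (hx : x ∈ X) (c : ι) :
    pd c (dens g) x = dens g x * ∑ a, christoffel g x a a c := by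
  have h1 : Sm (fun y => (g y).det) x := Sm.det fun a b => hg.sm hX hx a b
  have hd := hg.det_pos hx
  have h2 : pd c (dens g) x = (1 / (2 * Real.sqrt (g x).det)) * pd c (fun y => (g y).det) x := by
    unfold pd dens
    rw [fderiv_sqrt h1.diff hd.ne']
    simp only [one_div, mul_inv_rev, smul_apply, smul_eq_mul]
  rw [h2, pd_det (fun a b => hg.sm hX hx a b), hg.trace_christoffel hX hx]
  have h3 : ∀ i a, (g x).adjugate i a = (g x).det * (g x)⁻¹ i a := by
    intro i a
    rw [Matrix.inv_def, Matrix.smul_apply, Ring.inverse_eq_inv', smul_eq_mul]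
    (clear * - hd; field_simp)
  simp only [h3]
  have h4 : (∑ i, ∑ a, (g x).det * (g x)⁻¹ i a * pd c (fun y => g y a i) x)
      = (g x).det * ∑ i, ∑ a, (g x)⁻¹ i a * Nt g x c a i := by
    rw [Finset.mul_sum]
    refine Finset.sum_congr rfl fun i _ => ?_
    rw [Finset.mul_sum]
    refine Finset.sum_congr rfl fun a _ => ?_
    unfold Nt
    ring
  rw [h4]
  unfold dens
  have h5 : Real.sqrt (g x).det * Real.sqrt (g x).det = (g x).det := Real.mul_self_sqrt hd.le
  have h6 : 0 < Real.sqrt (g x).det := Real.sqrt_pos.mpr hd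
  field_simp
  rw [sq, h5]

end

end Vale.Agent.P223
end
end

section

section

set_option maxSynthPendingDepth 3

namespace Vale.Agent.P223

open scoped Matrix ContDiff Topology
open Finset

variable {ι : Type} [Fintype ι] [DecidableEq ι]

/-- logarithm of the ratio of volume densities -/
noncomputable def FF (g : (ι → ℝ) → Matrix ι ι ℝ) (f0 : (ι → ℝ) → ℝ) (y : ι → ℝ) : ℝ :=
  Real.log (dens g y) - f0 y

/-- trace vector of the Christoffel symbols -/
noncomputable def VV (g : (ι → ℝ) → Matrix ι ι ℝ) (c : ι) (y : ι → ℝ) : ℝ :=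
  ∑ a, ∑ b, (g y)⁻¹ a b * christoffel g y c a b

/-- the vector field whose divergence appears -/
noncomputable def WW (g : (ι → ℝ) → Matrix ι ι ℝ) (f0 : (ι → ℝ) → ℝ) (c : ι) (y : ι → ℝ) : ℝ :=
  VV g c y - ∑ d, (g y)⁻¹ c d * pd d (FF g f0) y

section

variable {X : Set (ι → ℝ)} {g : (ι → ℝ) → Matrix ι ι ℝ} {x : ι → ℝ} {f0 : (ι → ℝ) → ℝ}

theorem IsMetricOn.sm_logdens (hg : IsMetricOn X g) (hX : IsOpen X) (hx : x ∈ X) :
    Sm (fun y => Real.log (dens g y)) x :=
  ContDiffAt.log (hg.sm_dens hX hx) (hg.dens_pos hx).ne'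

theorem IsMetricOn.sm_FF (hg : IsMetricOn X g) (hX : IsOpen X) (hx : x ∈ X) (h0 : Sm f0 x) :
    Sm (FF g f0) x := (hg.sm_logdens hX hx).sub h0

theorem IsMetricOn.pd_FF (hg : IsMetricOn X g) (hX : IsOpen X) (hx : x ∈ X) (h0 : Sm f0 x)
    (c : ι) : pd c (FF g f0) x = (∑ a, christoffel g x a a c) - pd c f0 x := by
  have h1 : pd c (FF g f0) x = pd c (fun y => Real.log (dens g y)) x - pd c f0 x :=
    pd_sub (hg.sm_logdens hX hx) h0
  have h2 : pd c (fun y => Real.log (dens g y)) x = (dens g x)⁻¹ * pd c (dens g) x := by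
    unfold pd
    rw [fderiv.log (hg.sm_dens hX hx).diff (hg.dens_pos hx).ne']
    simp only [smul_apply, smul_eq_mul]
  rw [h1, h2, hg.pd_dens hX hx, ← mul_assoc, inv_mul_cancel₀ (hg.dens_pos hx).ne', one_mul]

theorem IsMetricOn.sm_VV (hg : IsMetricOn X g) (hX : IsOpen X) (hx : x ∈ X) (c : ι) :
    Sm (VV g c) x := by
  unfold VV
  exact Sm.sum fun a _ => Sm.sum fun b _ =>
    (hg.sm_inv hX hx a b).mul (hg.sm_christoffel hX hx c a b)

theorem IsMetricOn.sm_WW (hg : IsMetricOn X g) (hX : IsOpen X) (hx : x ∈ X) (h0 : Sm f0 x)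
    (c : ι) : Sm (WW g f0 c) x := by
  unfold WW
  exact (hg.sm_VV hX hx c).sub
    (Sm.sum fun d _ => (hg.sm_inv hX hx c d).mul ((hg.sm_FF hX hx h0).pd d))

theorem IsMetricOn.scal_eq (hg : IsMetricOn X g) (hX : IsOpen X) (hx : x ∈ X)
    (h0 : ∀ y ∈ X, Sm f0 y) :
    scal g x = (∑ c, (pd c (WW g f0 c) x + (∑ a, christoffel g x a a c) * WW g f0 c x))
      - (∑ c, ∑ d, (g x)⁻¹ c d * pd c (fun y => pd d f0 y) x)
      + T1 ((g x)⁻¹ : Matrix ι ι ℝ) (christoffel g x) (christoffel g x)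
      - ∑ c, pd c (FF g f0) x * VV g c x := by
  set gi := (g x)⁻¹ with hgi
  set Γ : ι → ι → ι → ℝ := christoffel g x with hΓ
  set E : ι → ι → ι → ι → ℝ := fun e c a b => pd e (fun y => christoffel g y c a b) x with hE
  set Dgi : ι → ι → ι → ℝ := fun c a b => pd c (fun y => (g y)⁻¹ a b) x with hDgi
  have hgs : ∀ a b, gi a b = gi b a := fun a b => hg.inv_symm hx a b
  have hΓs : ∀ c a b, Γ c a b = Γ c b a := fun c a b => hg.christoffel_symm hX hx c a b
  have hEs : ∀ e c a b, E e c a b = E e c b a := by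
    intro e c a b
    apply pd_congr
    filter_upwards [hX.mem_nhds hx] with y hy
    exact hg.christoffel_symm hX hy c a b
  have hD : ∀ c a b, Dgi c a b = - ∑ d, (Γ a c d * gi d b + Γ b c d * gi a d) :=
    fun c a b => hg.pd_inv hX hx c a b
  have halg := scal_difference_alg gi hgs Γ (fun _ _ _ => 0) hΓs (fun _ _ _ => rfl) E hEs Dgi hD
  simp only [sub_zero, mul_zero, Finset.sum_const_zero] at halg
  have hscal : scal g x = ∑ a, ∑ b, gi a b * (∑ c, (E c c a b - E b c a c)
        + ∑ c, ∑ d, (Γ c c d * Γ d a b - Γ c b d * Γ d a c)) := rfl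
  rw [hscal, halg]
  -- derivative of WW
  have hFF : ∀ y ∈ X, ∀ d, pd d (FF g f0) y = (∑ a, christoffel g y a a d) - pd d f0 y :=
    fun y hy d => hg.pd_FF hX hy (h0 y hy) d
  have hFF2 : ∀ c d, pd c (fun y => pd d (FF g f0) y) x
      = (∑ a, E c a a d) - pd c (fun y => pd d f0 y) x := by
    intro c d
    have e1 : (fun y => pd d (FF g f0) y) =ᶠ[𝓝 x]
        fun y => (∑ a, christoffel g y a a d) - pd d f0 y := by
      filter_upwards [hX.mem_nhds hx] with y hy
      exact hFF y hy d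
    rw [pd_congr e1, pd_sub (Sm.sum fun a _ => hg.sm_christoffel hX hx a a d) ((h0 x hx).pd d),
      pd_sum fun a _ => hg.sm_christoffel hX hx a a d]
  have hpW : ∀ c, pd c (WW g f0 c) x
      = (∑ a, ∑ b, (Dgi c a b * Γ c a b + gi a b * E c c a b))
        - ∑ d, (Dgi c c d * ((∑ a, Γ a a d) - pd d f0 x)
            + gi c d * ((∑ a, E c a a d) - pd c (fun y => pd d f0 y) x)) := by
    intro c
    have e1 : pd c (WW g f0 c) x = pd c (VV g c) x
        - pd c (fun y => ∑ d, (g y)⁻¹ c d * pd d (FF g f0) y) x :=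
      pd_sub (hg.sm_VV hX hx c)
        (Sm.sum fun d _ => (hg.sm_inv hX hx c d).mul ((hg.sm_FF hX hx (h0 x hx)).pd d))
    rw [e1]
    congr 1
    · unfold VV
      rw [pd_sum fun a _ => Sm.sum fun b _ =>
        (hg.sm_inv hX hx a b).mul (hg.sm_christoffel hX hx c a b)]
      refine Finset.sum_congr rfl fun a _ => ?_
      rw [pd_sum fun b _ => (hg.sm_inv hX hx a b).mul (hg.sm_christoffel hX hx c a b)]
      refine Finset.sum_congr rfl fun b _ => ?_
      rw [pd_mul (hg.sm_inv hX hx a b) (hg.sm_christoffel hX hx c a b)]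
    · rw [pd_sum fun d _ => (hg.sm_inv hX hx c d).mul ((hg.sm_FF hX hx (h0 x hx)).pd d)]
      refine Finset.sum_congr rfl fun d _ => ?_
      rw [pd_mul (hg.sm_inv hX hx c d) ((hg.sm_FF hX hx (h0 x hx)).pd d), hFF2 c d, hFF x hx d]
  have hWx : ∀ c, WW g f0 c x = VV g c x - ∑ d, gi c d * ((∑ a, Γ a a d) - pd d f0 x) := by
    intro c
    unfold WW
    congr 1
    refine Finset.sum_congr rfl fun d _ => ?_
    rw [hFF x hx d]
  have hV : ∀ c, VV g c x = ∑ a, ∑ b, gi a b * Γ c a b := fun c => rfl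
  -- T2 identity
  have hT2 : T2 gi Γ Γ = ∑ c, (∑ a, Γ a a c) * VV g c x := by
    unfold T2
    have e1 : ∀ c, (∑ a, Γ a a c) * VV g c x
        = ∑ e, ∑ a, ∑ b, gi a b * (Γ e e c * Γ c a b) := by
      intro c
      rw [hV, Finset.sum_mul]
      refine Finset.sum_congr rfl fun e _ => ?_
      rw [Finset.mul_sum]
      refine Finset.sum_congr rfl fun a _ => ?_
      rw [Finset.mul_sum]
      refine Finset.sum_congr rfl fun b _ => ?_
      ring
    simp only [e1]
    -- source f(a,b,c,d) = gi a b * (Γ c c d * Γ d a b); target: sum c e a b of gi a b * (Γ e e c * Γ c a b)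
    rw [s23, s12, s34, s23, s12]
  -- divergence of the inverse metric
  have hdiv : ∀ d, (∑ c, Dgi c c d) = - (∑ e, (∑ a, Γ a a e) * gi e d) - VV g d x := by
    intro d
    have e1 : (∑ c, Dgi c c d) = - (∑ c, ∑ e, Γ c c e * gi e d) - ∑ c, ∑ e, Γ d c e * gi c e := by
      rw [← Finset.sum_neg_distrib, ← Finset.sum_sub_distrib]
      refine Finset.sum_congr rfl fun c _ => ?_
      rw [hD, Finset.sum_add_distrib]
      ring
    rw [e1]
    congr 1
    · congr 1
      rw [Finset.sum_comm]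
      refine Finset.sum_congr rfl fun e _ => ?_
      rw [Finset.sum_mul]
    · rw [hV]
      refine Finset.sum_congr rfl fun c _ => Finset.sum_congr rfl fun e _ => ?_
      ring
  -- final bookkeeping
  have hfin : (∑ c, (pd c (WW g f0 c) x + (∑ a, Γ a a c) * WW g f0 c x))
      = (∑ c, ((∑ a, ∑ b, (Dgi c a b * Γ c a b + gi a b * E c c a b))
          - (∑ d, (Dgi c c d * (∑ a, Γ a a d) + gi c d * ∑ a, E c a a d))
          + (∑ a, Γ a a c) * ((∑ a, ∑ b, gi a b * Γ c a b) - ∑ d, gi c d * ∑ a, Γ a a d)))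
        + (∑ c, ∑ d, Dgi c c d * pd d f0 x)
        + (∑ c, ∑ d, gi c d * pd c (fun y => pd d f0 y) x)
        + ∑ c, (∑ a, Γ a a c) * ∑ d, gi c d * pd d f0 x := by
    simp only [← Finset.sum_add_distrib]
    refine Finset.sum_congr rfl fun c _ => ?_
    rw [hpW, hWx, hV]
    have e1 : (∑ d, (Dgi c c d * ((∑ a, Γ a a d) - pd d f0 x)
            + gi c d * ((∑ a, E c a a d) - pd c (fun y => pd d f0 y) x)))
        = (∑ d, (Dgi c c d * (∑ a, Γ a a d) + gi c d * ∑ a, E c a a d))
          - (∑ d, (Dgi c c d * pd d f0 x)) - ∑ d, gi c d * pd c (fun y => pd d f0 y) x := by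
      simp only [← Finset.sum_sub_distrib]
      refine Finset.sum_congr rfl fun d _ => ?_
      ring
    have e2 : (∑ d, gi c d * ((∑ a, Γ a a d) - pd d f0 x))
        = (∑ d, gi c d * ∑ a, Γ a a d) - ∑ d, gi c d * pd d f0 x := by
      simp only [← Finset.sum_sub_distrib]
      refine Finset.sum_congr rfl fun d _ => ?_
      ring
    rw [e1, e2, Finset.sum_add_distrib]
    ring
  have hd1 : (∑ c, ∑ d, Dgi c c d * pd d f0 x)
      = - (∑ c, (∑ a, Γ a a c) * ∑ d, gi c d * pd d f0 x) - ∑ c, VV g c x * pd c f0 x := by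
    rw [Finset.sum_comm]
    have e1 : ∀ d, (∑ c, Dgi c c d * pd d f0 x)
        = - (∑ e, (∑ a, Γ a a e) * gi e d) * pd d f0 x - VV g d x * pd d f0 x := by
      intro d
      rw [← Finset.sum_mul, hdiv]
      ring
    simp only [e1]
    rw [Finset.sum_sub_distrib]
    congr 1
    rw [← Finset.sum_neg_distrib]
    have e2 : ∀ c, -((∑ a, Γ a a c) * ∑ d, gi c d * pd d f0 x)
        = ∑ d, -((∑ a, Γ a a c) * gi c d * pd d f0 x) := by
      intro c
      rw [Finset.mul_sum, ← Finset.sum_neg_distrib]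
      refine Finset.sum_congr rfl fun d _ => ?_
      ring
    simp only [e2]
    rw [Finset.sum_comm]
    refine Finset.sum_congr rfl fun d _ => ?_
    rw [neg_mul, Finset.sum_mul, ← Finset.sum_neg_distrib]
  have hlast : (∑ c, pd c (FF g f0) x * VV g c x)
      = (∑ c, (∑ a, Γ a a c) * VV g c x) - ∑ c, VV g c x * pd c f0 x := by
    simp only [← Finset.sum_sub_distrib]
    refine Finset.sum_congr rfl fun c _ => ?_
    rw [hFF x hx c]
    ring
  have hT1 : T1 gi (fun c a b => Γ c a b) (fun c a b => Γ c a b) = T1 gi Γ Γ := rfl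
  rw [hfin, hd1, hlast, hT2, hT1]
  ring

end

end Vale.Agent.P223
end
end

section

section

set_option maxSynthPendingDepth 3

namespace Vale.Agent.P223

open scoped Matrix ContDiff Topology
open Finset

variable {ι : Type} [Fintype ι] [DecidableEq ι]

def cyc (T : Ten ι) : Ten ι := fun a b c => T b c a

omit [DecidableEq ι] in
theorem R1_cyc (M : Matrix ι ι ℝ) (T : Ten ι) : R1 M (cyc T) = cyc (R3 M T) := rfl
omit [DecidableEq ι] in
theorem R2_cyc (M : Matrix ι ι ℝ) (T : Ten ι) : R2 M (cyc T) = cyc (R1 M T) := rfl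
omit [DecidableEq ι] in
theorem R3_cyc (M : Matrix ι ι ℝ) (T : Ten ι) : R3 M (cyc T) = cyc (R2 M T) := rfl
omit [DecidableEq ι] in
theorem R1_kap (M : Matrix ι ι ℝ) (T : Ten ι) : R1 M (kap T) = kap (R2 M T) := rfl
omit [DecidableEq ι] in
theorem R2_kap (M : Matrix ι ι ℝ) (T : Ten ι) : R2 M (kap T) = kap (R3 M T) := rfl
omit [DecidableEq ι] in
theorem R3_kap (M : Matrix ι ι ℝ) (T : Ten ι) : R3 M (kap T) = kap (R1 M T) := rfl

omit [DecidableEq ι] in
theorem R1_tau (M : Matrix ι ι ℝ) (T : Ten ι) : R1 M (tau T) = tau (R2 M T) := rfl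
omit [DecidableEq ι] in
theorem R3_tau (M : Matrix ι ι ℝ) (T : Ten ι) : R3 M (tau T) = tau (R3 M T) := rfl

omit [DecidableEq ι] in
theorem R2_add (M : Matrix ι ι ℝ) (S T : Ten ι) : R2 M (S + T) = R2 M S + R2 M T := by
  funext a b c
  simp only [R2, Pi.add_apply, mul_add, Finset.sum_add_distrib]
omit [DecidableEq ι] in
theorem R3_add (M : Matrix ι ι ℝ) (S T : Ten ι) : R3 M (S + T) = R3 M S + R3 M T := by
  funext a b c
  simp only [R3, Pi.add_apply, mul_add, Finset.sum_add_distrib]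
omit [DecidableEq ι] in
theorem R1_add (M : Matrix ι ι ℝ) (S T : Ten ι) : R1 M (S + T) = R1 M S + R1 M T := by
  funext a b c
  simp only [R1, Pi.add_apply, mul_add, Finset.sum_add_distrib]
omit [DecidableEq ι] in
theorem R1_sub (M : Matrix ι ι ℝ) (S T : Ten ι) : R1 M (S - T) = R1 M S - R1 M T := by
  funext a b c
  simp only [R1, Pi.sub_apply, mul_sub, Finset.sum_sub_distrib]
omit [DecidableEq ι] in
theorem R3_sub (M : Matrix ι ι ℝ) (S T : Ten ι) : R3 M (S - T) = R3 M S - R3 M T := by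
  funext a b c
  simp only [R3, Pi.sub_apply, mul_sub, Finset.sum_sub_distrib]
omit [DecidableEq ι] in
theorem R1_smul (M : Matrix ι ι ℝ) (r : ℝ) (T : Ten ι) : R1 M (r • T) = r • R1 M T := by
  funext a b c
  simp only [R1, Pi.smul_apply, smul_eq_mul, Finset.mul_sum]
  refine Finset.sum_congr rfl fun d _ => ?_
  ring
omit [DecidableEq ι] in
theorem R3_smul (M : Matrix ι ι ℝ) (r : ℝ) (T : Ten ι) : R3 M (r • T) = r • R3 M T := by
  funext a b c
  simp only [R3, Pi.smul_apply, smul_eq_mul, Finset.mul_sum]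
  refine Finset.sum_congr rfl fun d _ => ?_
  ring

theorem Jt_mul (J : Matrix ι ι ℝ) (hJ : J * J = -1) : Jᵀ * Jᵀ = -1 := by
  rw [← Matrix.transpose_mul, hJ, Matrix.transpose_neg, Matrix.transpose_one]

theorem R3_eq_neg_R2 (J : Matrix ι ι ℝ) (hJ : J * J = -1) (N : Ten ι)
    (hinv : R2 Jᵀ (R3 Jᵀ N) = N) : R3 Jᵀ N = - R2 Jᵀ N := by
  have h : R2 Jᵀ (R2 Jᵀ (R3 Jᵀ N)) = R2 Jᵀ N := by rw [hinv]
  rw [R2_R2, Jt_mul J hJ, R2_neg, R2_one] at h
  rw [← h, neg_neg]

/-- second form of the Kähler identity -/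
theorem kahler_B (J : Matrix ι ι ℝ) (hJ : J * J = -1) (N : Ten ι)
    (hinv : R2 Jᵀ (R3 Jᵀ N) = N)
    (hK : R2 Jᵀ N + cyc (R2 Jᵀ N) + kap (R2 Jᵀ N) = 0) :
    R2 Jᵀ N - cyc (R1 Jᵀ N) + kap (R1 Jᵀ N) = 0 := by
  have h := congrArg (fun T => R2 Jᵀ (R3 Jᵀ T)) hK
  simp only [R3_add, R2_add] at h
  have hz : R2 Jᵀ (R3 Jᵀ (0 : Ten ι)) = 0 := by
    funext a b c
    simp only [R2, Matrix.transpose_apply, R3, Pi.zero_apply, mul_zero, sum_const_zero]
  rw [hz] at h
  have e1 : R2 Jᵀ (R3 Jᵀ (R2 Jᵀ N)) = R2 Jᵀ N := by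
    rw [← R2_R3, hinv]
  have e2 : R2 Jᵀ (R3 Jᵀ (cyc (R2 Jᵀ N))) = - cyc (R1 Jᵀ N) := by
    rw [R3_cyc, R2_cyc, R2_R2, Jt_mul J hJ, R2_neg, R2_one, R1_neg']
    rfl
  have e3 : R2 Jᵀ (R3 Jᵀ (kap (R2 Jᵀ N))) = kap (R1 Jᵀ N) := by
    rw [R3_kap, R2_kap, ← R1_R3, ← R2_R3, hinv]
  rw [e1, e2, e3] at h
  rw [← h]
  abel

theorem Cl_J (J : Matrix ι ι ℝ) (hJ : J * J = -1) (N : Ten ι)
    (hinv : R2 Jᵀ (R3 Jᵀ N) = N)
    (hK : R2 Jᵀ N + cyc (R2 Jᵀ N) + kap (R2 Jᵀ N) = 0) :
    R1 Jᵀ (Cl N) = - R3 Jᵀ (Cl N) := by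
  have hB := kahler_B J hJ N hinv hK
  have h3 := R3_eq_neg_R2 J hJ N hinv
  unfold Cl
  rw [R1_smul, R3_smul, R1_add, R3_add, R1_sub, R3_sub, R1_tau, R3_tau, R1_kap, R3_kap, h3]
  funext a b c
  have hA' := congrFun (congrFun (congrFun hK a) b) c
  have hB' := congrFun (congrFun (congrFun hB b) c) a
  simp only [Pi.add_apply, Pi.sub_apply, Pi.smul_apply, Pi.neg_apply, Pi.zero_apply, smul_eq_mul,
    cyc, kap, tau] at hA' hB' ⊢
  linarith

/-- The Christoffel symbols of a Kähler metric are complex bilinear. -/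
theorem Gam_J (gi J : Matrix ι ι ℝ) (hJ : J * J = -1) (hJg : J * gi * Jᵀ = gi) (N : Ten ι)
    (hinv : R2 Jᵀ (R3 Jᵀ N) = N)
    (hK : R2 Jᵀ N + cyc (R2 Jᵀ N) + kap (R2 Jᵀ N) = 0) (c a b : ι) :
    (∑ d, J d a * Gam gi N c d b) = ∑ e, J c e * Gam gi N e a b := by
  have hgJ : gi * Jᵀ = - (J * gi) := by
    have : J * (J * gi * Jᵀ) = J * gi := by rw [hJg]
    rw [Matrix.mul_assoc, ← Matrix.mul_assoc J J, hJ, neg_mul, one_mul] at this
    rw [← this, neg_neg]
  have h1 : (∑ d, J d a * Gam gi N c d b) = R1 Jᵀ (R3 gi (Cl N)) a b c := by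
    unfold R1
    refine Finset.sum_congr rfl fun d _ => ?_
    rw [Gam_eq]
    rfl
  have h2 : (∑ e, J c e * Gam gi N e a b) = R3 J (R3 gi (Cl N)) a b c := by
    conv_rhs => unfold R3
    refine Finset.sum_congr rfl fun d _ => ?_
    rw [Gam_eq]
    rfl
  rw [h1, h2, R1_R3, Cl_J J hJ N hinv hK, R3_neg', R3_R3, hgJ, R3_neg, R3_R3]
  simp

end Vale.Agent.P223
end
end

section

section

set_option maxSynthPendingDepth 3

namespace Vale.Agent.P223

open scoped Matrix ContDiff Topology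
open Finset

variable {ι : Type} [Fintype ι] [DecidableEq ι]

/-- pairing of the inverse metric with a bilinear form -/
noncomputable def tr2 (gi A : Matrix ι ι ℝ) : ℝ := ∑ a, ∑ b, gi a b * A a b

omit [DecidableEq ι] in
theorem tr2_eq (gi A : Matrix ι ι ℝ) : tr2 gi A = (gi * Aᵀ).trace := by
  unfold tr2 Matrix.trace
  refine Finset.sum_congr rfl fun a _ => ?_
  rw [Matrix.diag_apply, Matrix.mul_apply]
  rfl

omit [DecidableEq ι] in
theorem tr2_conj (gi J A : Matrix ι ι ℝ) (hJg : J * gi * Jᵀ = gi) :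
    tr2 gi (Jᵀ * A * J) = tr2 gi A := by
  rw [tr2_eq, tr2_eq]
  conv_rhs => rw [← hJg]
  rw [Matrix.transpose_mul, Matrix.transpose_mul, Matrix.transpose_transpose]
  rw [Matrix.mul_assoc J gi, Matrix.mul_assoc J, Matrix.trace_mul_comm J]
  simp only [Matrix.mul_assoc]

omit [DecidableEq ι] in
theorem tr2_anti (gi J A : Matrix ι ι ℝ) (hJg : J * gi * Jᵀ = gi) (hA : Jᵀ * A * J = - A) :
    tr2 gi A = 0 := by
  have h := tr2_conj gi J A hJg
  rw [hA] at h
  have h2 : tr2 gi (-A) = - tr2 gi A := by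
    unfold tr2
    simp only [Matrix.neg_apply, mul_neg, Finset.sum_neg_distrib]
  linarith only [h, h2]

/-- matrix form of the symmetric complex bilinearity -/
theorem conj_anti (J : Matrix ι ι ℝ) (hJ : J * J = -1) (Γ : ι → Matrix ι ι ℝ)
    (hs : ∀ c a b, Γ c a b = Γ c b a)
    (hG : ∀ c a b, (∑ d, J d a * Γ c d b) = ∑ e, J c e * Γ e a b) (c : ι) :
    Jᵀ * Γ c * J = - Γ c := by
  ext a b
  have h1 : (Jᵀ * Γ c * J) a b = ∑ e, (∑ d, J d a * Γ c d e) * J e b := by
    rw [Matrix.mul_apply]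
    refine Finset.sum_congr rfl fun e _ => ?_
    rw [Matrix.mul_apply]
    rfl
  rw [h1]
  simp only [hG]
  have h2 : (∑ e, (∑ f, J c f * Γ f a e) * J e b) = ∑ f, J c f * ∑ e, J e b * Γ f e a := by
    simp only [Finset.sum_mul, Finset.mul_sum]
    rw [Finset.sum_comm]
    refine Finset.sum_congr rfl fun f _ => Finset.sum_congr rfl fun e _ => ?_
    rw [hs f a e]
    ring
  rw [h2]
  simp only [hG]
  have h3 : (∑ f, J c f * ∑ e, J f e * Γ e b a) = ∑ e, (J * J) c e * Γ e b a := by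
    simp only [Finset.mul_sum, Matrix.mul_apply, Finset.sum_mul]
    rw [Finset.sum_comm]
    refine Finset.sum_congr rfl fun f _ => Finset.sum_congr rfl fun e _ => ?_
    ring
  rw [h3, hJ]
  simp only [Matrix.neg_apply, neg_mul, Finset.sum_neg_distrib, Matrix.one_apply, ite_mul,
    one_mul, zero_mul, Finset.sum_ite_eq, Finset.mem_univ, if_true]
  rw [hs c b a]

/-- the quadratic term -/
noncomputable def QQ (Γ : ι → Matrix ι ι ℝ) : Matrix ι ι ℝ :=
  Matrix.of fun a b => ∑ c, ∑ d, Γ c b d * Γ d a c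

theorem quad_anti (J : Matrix ι ι ℝ) (hJ : J * J = -1) (Γ : ι → Matrix ι ι ℝ)
    (hs : ∀ c a b, Γ c a b = Γ c b a)
    (hG : ∀ c a b, (∑ d, J d a * Γ c d b) = ∑ e, J c e * Γ e a b) :
    Jᵀ * QQ Γ * J
      = - QQ Γ := by
  ext a b
  have hG' : ∀ c b d, (∑ b', J b' b * Γ c b' d) = ∑ e, J e d * Γ c b e := by
    intro c b d
    rw [hG]
    have := hG c d b
    rw [← show (∑ e, J c e * Γ e d b) = ∑ e, J c e * Γ e b d from
      Finset.sum_congr rfl fun e _ => by rw [hs e d b], ← this]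
    refine Finset.sum_congr rfl fun e _ => ?_
    rw [hs c e b]
  have h1 : (Jᵀ * QQ Γ * J) a b
      = ∑ c, ∑ d, (∑ b', J b' b * Γ c b' d) * (∑ a', J a' a * Γ d a' c) := by
    rw [Matrix.mul_apply]
    have : ∀ b', (Jᵀ * QQ Γ) a b' * J b' b
        = ∑ a', ∑ c, ∑ d, J b' b * Γ c b' d * (J a' a * Γ d a' c) := by
      intro b'
      rw [Matrix.mul_apply, Finset.sum_mul]
      refine Finset.sum_congr rfl fun a' _ => ?_
      have hq : QQ Γ a' b' = ∑ c, ∑ d, Γ c b' d * Γ d a' c := rfl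
      rw [hq, Finset.mul_sum, Finset.sum_mul]
      refine Finset.sum_congr rfl fun c _ => ?_
      rw [Finset.mul_sum, Finset.sum_mul]
      refine Finset.sum_congr rfl fun d _ => ?_
      rw [Matrix.transpose_apply]
      ring
    rw [Finset.sum_congr rfl fun b' _ => this b']
    have e2 : ∀ c d, (∑ b', J b' b * Γ c b' d) * (∑ a', J a' a * Γ d a' c)
        = ∑ b', ∑ a', J b' b * Γ c b' d * (J a' a * Γ d a' c) := by
      intro c d
      rw [Finset.sum_mul_sum]
    simp only [e2]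
    rw [s23, s12, s34, s23]
  rw [h1]
  have h2 : ∀ c d, (∑ b', J b' b * Γ c b' d) * (∑ a', J a' a * Γ d a' c)
      = (∑ e, J e d * Γ c b e) * (∑ f, J d f * Γ f a c) := by
    intro c d
    rw [hG' c b d, hG d a c]
  simp only [h2]
  have h3 : ∀ c, (∑ d, (∑ e, J e d * Γ c b e) * (∑ f, J d f * Γ f a c))
      = ∑ e, ∑ f, (J * J) e f * (Γ c b e * Γ f a c) := by
    intro c
    have : ∀ d, (∑ e, J e d * Γ c b e) * (∑ f, J d f * Γ f a c)
        = ∑ e, ∑ f, J e d * J d f * (Γ c b e * Γ f a c) := by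
      intro d
      rw [Finset.sum_mul_sum]
      refine Finset.sum_congr rfl fun e _ => Finset.sum_congr rfl fun f _ => ?_
      ring
    simp only [this]
    rw [Finset.sum_comm]
    refine Finset.sum_congr rfl fun e _ => ?_
    rw [Finset.sum_comm]
    refine Finset.sum_congr rfl fun f _ => ?_
    rw [Matrix.mul_apply, Finset.sum_mul]
  simp only [h3, hJ]
  simp only [Matrix.neg_apply, neg_mul, Finset.sum_neg_distrib, Matrix.one_apply, ite_mul,
    one_mul, zero_mul, Finset.sum_ite_eq, Finset.mem_univ, if_true]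
  rfl

end Vale.Agent.P223
end
end

section

section

set_option maxSynthPendingDepth 3

namespace Vale.Agent.P223

open scoped Matrix ContDiff Topology
open Finset

variable {ι : Type} [Fintype ι] [DecidableEq ι]

section

variable {X : Set (ι → ℝ)} {g g0 : (ι → ℝ) → Matrix ι ι ℝ} {x : ι → ℝ} {J : Matrix ι ι ℝ}

theorem inv_J (hJ : J * J = -1) (G : Matrix ι ι ℝ) (hG : IsUnit G.det)
    (hJG : Jᵀ * G * J = G) : J * G⁻¹ * Jᵀ = G⁻¹ := by
  have h1 : G * (J * G⁻¹ * Jᵀ) = 1 := by
    have hGJ : G * J = - (Jᵀ * G) := by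
      have : Jᵀ * (Jᵀ * G * J) = Jᵀ * G := by rw [hJG]
      rw [← Matrix.mul_assoc, ← Matrix.mul_assoc, Jt_mul J hJ, neg_mul, one_mul, neg_mul] at this
      rw [← this, neg_neg]
    calc G * (J * G⁻¹ * Jᵀ) = (G * J) * G⁻¹ * Jᵀ := by simp only [Matrix.mul_assoc]
      _ = - (Jᵀ * (G * G⁻¹) * Jᵀ) := by rw [hGJ]; simp only [Matrix.mul_assoc, neg_mul]
      _ = 1 := by rw [Matrix.mul_nonsing_inv _ hG, mul_one, Jt_mul J hJ, neg_neg]
  calc J * G⁻¹ * Jᵀ = G⁻¹ * (G * (J * G⁻¹ * Jᵀ)) := by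
        rw [← Matrix.mul_assoc G⁻¹, Matrix.nonsing_inv_mul _ hG, one_mul]
    _ = G⁻¹ := by rw [h1, mul_one]

theorem IsMetricOn.J_inv (hg : IsMetricOn X g) (hx : x ∈ X) (hJ : J * J = -1)
    (hH : ∀ x ∈ X, Jᵀ * g x * J = g x) : J * (g x)⁻¹ * Jᵀ = (g x)⁻¹ :=
  inv_J hJ _ (hg.det_pos hx).ne'.isUnit (hH x hx)

theorem IsMetricOn.Nt_J (hg : IsMetricOn X g) (hX : IsOpen X) (hx : x ∈ X)
    (hH : ∀ x ∈ X, Jᵀ * g x * J = g x) : R2 Jᵀ (R3 Jᵀ (Nt g x)) = Nt g x := by
  funext a b c
  have h1 : R2 Jᵀ (R3 Jᵀ (Nt g x)) a b c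
      = pd a (fun y => ∑ d, J d b * ∑ e, J e c * g y d e) x := by
    rw [pd_sum fun d _ => (Sm.const _).mul (Sm.sum fun e _ => (Sm.const _).mul (hg.sm hX hx d e))]
    unfold R2
    refine Finset.sum_congr rfl fun d _ => ?_
    rw [pd_const_mul _ (Sm.sum fun e _ => (Sm.const _).mul (hg.sm hX hx d e))]
    rw [pd_sum fun e _ => (Sm.const _).mul (hg.sm hX hx d e)]
    unfold R3
    rw [Matrix.transpose_apply]
    congr 1
    refine Finset.sum_congr rfl fun e _ => ?_
    rw [pd_const_mul _ (hg.sm hX hx d e)]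
    rfl
  rw [h1]
  unfold Nt
  apply pd_congr
  filter_upwards [hX.mem_nhds hx] with y hy
  conv_rhs => rw [← hH y hy]
  rw [Matrix.mul_assoc, Matrix.mul_apply]
  refine Finset.sum_congr rfl fun d _ => ?_
  rw [Matrix.transpose_apply, Matrix.mul_apply]
  congr 1
  refine Finset.sum_congr rfl fun e _ => ?_
  ring

theorem IsMetricOn.Nt_K (hg : IsMetricOn X g) (hX : IsOpen X) (hx : x ∈ X)
    (hK : ∀ x ∈ X, ∀ a b c, pd a (fun y => (Jᵀ * g y) b c) x + pd b (fun y => (Jᵀ * g y) c a) x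
      + pd c (fun y => (Jᵀ * g y) a b) x = 0) :
    R2 Jᵀ (Nt g x) + cyc (R2 Jᵀ (Nt g x)) + kap (R2 Jᵀ (Nt g x)) = 0 := by
  have h1 : ∀ a b c, pd a (fun y => (Jᵀ * g y) b c) x = R2 Jᵀ (Nt g x) a b c := by
    intro a b c
    have : (fun y => (Jᵀ * g y) b c) = fun y => ∑ d, J d b * g y d c := by
      funext y
      rw [Matrix.mul_apply]
      rfl
    rw [this, pd_sum fun d _ => (Sm.const _).mul (hg.sm hX hx d c)]
    unfold R2
    refine Finset.sum_congr rfl fun d _ => ?_
    rw [pd_const_mul _ (hg.sm hX hx d c)]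
    rfl
  funext a b c
  have := hK x hx a b c
  rw [h1, h1, h1] at this
  exact this

theorem IsMetricOn.christoffel_J (hg : IsMetricOn X g) (hX : IsOpen X) (hx : x ∈ X)
    (hJ : J * J = -1) (hH : ∀ x ∈ X, Jᵀ * g x * J = g x)
    (hK : ∀ x ∈ X, ∀ a b c, pd a (fun y => (Jᵀ * g y) b c) x + pd b (fun y => (Jᵀ * g y) c a) x
      + pd c (fun y => (Jᵀ * g y) a b) x = 0) (c a b : ι) :
    (∑ d, J d a * christoffel g x c d b) = ∑ e, J c e * christoffel g x e a b := by
  simp only [christoffel_eq]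
  exact Gam_J _ J hJ (hg.J_inv hx hJ hH) _ (hg.Nt_J hX hx hH) (hg.Nt_K hX hx hK) c a b

theorem IsMetricOn.pd_logdens (hg : IsMetricOn X g) (hX : IsOpen X) (hx : x ∈ X) (c : ι) :
    pd c (fun y => Real.log (dens g y)) x = ∑ a, christoffel g x a a c := by
  have h2 : pd c (fun y => Real.log (dens g y)) x = (dens g x)⁻¹ * pd c (dens g) x := by
    unfold pd
    rw [fderiv.log (hg.sm_dens hX hx).diff (hg.dens_pos hx).ne']
    simp only [smul_apply, smul_eq_mul]
  rw [h2, hg.pd_dens hX hx, ← mul_assoc, inv_mul_cancel₀ (hg.dens_pos hx).ne', one_mul]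

/-- For a Kähler metric `g0` and a Hermitian metric `g`, the trace of the Ricci form. -/
theorem hess_trace (hg : IsMetricOn X g) (hg0 : IsMetricOn X g0) (hX : IsOpen X) (hx : x ∈ X)
    (hJ : J * J = -1) (hH : ∀ x ∈ X, Jᵀ * g x * J = g x) (hH0 : ∀ x ∈ X, Jᵀ * g0 x * J = g0 x)
    (hK : ∀ x ∈ X, ∀ a b c, pd a (fun y => (Jᵀ * g0 y) b c) x + pd b (fun y => (Jᵀ * g0 y) c a) x
      + pd c (fun y => (Jᵀ * g0 y) a b) x = 0) :
    (∑ c, ∑ d, (g x)⁻¹ c d * pd c (fun y => pd d (fun z => Real.log (dens g0 z)) y) x)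
      = - ∑ c, ∑ d, (g x)⁻¹ c d * ricci g0 x c d := by
  set gi := (g x)⁻¹ with hgi
  have hJg : J * gi * Jᵀ = gi := hg.J_inv hx hJ hH
  have hgs : ∀ a b, gi a b = gi b a := fun a b => hg.inv_symm hx a b
  -- Christoffel matrices
  set Γ : (ι → ℝ) → ι → Matrix ι ι ℝ := fun y c => Matrix.of fun a b => christoffel g0 y c a b
    with hΓ
  have hΓa : ∀ y c a b, Γ y c a b = christoffel g0 y c a b := fun _ _ _ _ => rfl
  have hs : ∀ y ∈ X, ∀ c a b, Γ y c a b = Γ y c b a := fun y hy c a b =>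
    hg0.christoffel_symm hX hy c a b
  have hG : ∀ y ∈ X, ∀ c a b, (∑ d, J d a * Γ y c d b) = ∑ e, J c e * Γ y e a b :=
    fun y hy c a b => hg0.christoffel_J hX hy hJ hH0 hK c a b
  have hanti : ∀ y ∈ X, ∀ c, Jᵀ * Γ y c * J = - Γ y c := fun y hy c =>
    conj_anti J hJ (Γ y) (hs y hy) (hG y hy) c
  -- derivative
  set E : ι → ι → Matrix ι ι ℝ := fun e c => Matrix.of fun a b =>
    pd e (fun y => christoffel g0 y c a b) x with hE
  have hEanti : ∀ e c, Jᵀ * E e c * J = - E e c := by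
    intro e c
    ext a b
    have h1 : (Jᵀ * E e c * J) a b
        = pd e (fun y => ∑ b', J b' b * ∑ a', J a' a * christoffel g0 y c a' b') x := by
      rw [pd_sum fun b' _ => (Sm.const _).mul
        (Sm.sum fun a' _ => (Sm.const _).mul (hg0.sm_christoffel hX hx c a' b'))]
      rw [Matrix.mul_apply]
      refine Finset.sum_congr rfl fun b' _ => ?_
      rw [pd_const_mul _ (Sm.sum fun a' _ => (Sm.const _).mul (hg0.sm_christoffel hX hx c a' b')),
        pd_sum fun a' _ => (Sm.const _).mul (hg0.sm_christoffel hX hx c a' b')]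
      rw [Matrix.mul_apply, mul_comm]
      congr 1
      refine Finset.sum_congr rfl fun a' _ => ?_
      rw [pd_const_mul _ (hg0.sm_christoffel hX hx c a' b')]
      rfl
    rw [h1]
    have h2 : (- E e c) a b = pd e (fun y => (-1) * christoffel g0 y c a b) x := by
      rw [pd_const_mul _ (hg0.sm_christoffel hX hx c a b)]
      simp [hE]
    rw [h2]
    apply pd_congr
    filter_upwards [hX.mem_nhds hx] with y hy
    have h3 := congrFun (congrFun (hanti y hy c) a) b
    rw [Matrix.mul_apply] at h3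
    rw [Matrix.neg_apply] at h3
    have h4 : (∑ b', (Jᵀ * Γ y c) a b' * J b' b)
        = ∑ b', J b' b * ∑ a', J a' a * christoffel g0 y c a' b' := by
      refine Finset.sum_congr rfl fun b' _ => ?_
      rw [Matrix.mul_apply, mul_comm]
      rfl
    rw [← h4, h3, hΓa]
    ring
  -- second derivatives of the log density
  have hhess : ∀ c d, pd c (fun y => pd d (fun z => Real.log (dens g0 z)) y) x = ∑ a, E c a a d := by
    intro c d
    have e1 : (fun y => pd d (fun z => Real.log (dens g0 z)) y) =ᶠ[𝓝 x]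
        fun y => ∑ a, christoffel g0 y a a d := by
      filter_upwards [hX.mem_nhds hx] with y hy
      exact hg0.pd_logdens hX hy d
    rw [pd_congr e1, pd_sum fun a _ => hg0.sm_christoffel hX hx a a d]
    rfl
  have hEs : ∀ e c a b, E e c a b = E e c b a := by
    intro e c a b
    apply pd_congr
    filter_upwards [hX.mem_nhds hx] with y hy
    exact hg0.christoffel_symm hX hy c a b
  have hric : ∀ a b, ricci g0 x a b = (∑ c, E c c a b) - (∑ c, E b c a c)
      + (∑ d, (∑ c, Γ x c c d) * Γ x d a b) - QQ (Γ x) a b := by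
    intro a b
    have : ricci g0 x a b = ∑ c, (E c c a b - E b c a c)
      + ∑ c, ∑ d, (Γ x c c d * Γ x d a b - Γ x c b d * Γ x d a c) := rfl
    rw [this]
    have hq : QQ (Γ x) a b = ∑ c, ∑ d, Γ x c b d * Γ x d a c := rfl
    rw [hq]
    simp only [Finset.sum_sub_distrib]
    have e1 : (∑ c, ∑ d, Γ x c c d * Γ x d a b) = ∑ d, (∑ c, Γ x c c d) * Γ x d a b := by
      rw [Finset.sum_comm]
      refine Finset.sum_congr rfl fun d _ => ?_
      rw [Finset.sum_mul]
    rw [e1]
    ring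
  -- traces of the four terms
  have t1 : (∑ a, ∑ b, gi a b * ∑ c, E c c a b) = 0 := by
    have : (∑ a, ∑ b, gi a b * ∑ c, E c c a b) = ∑ c, tr2 gi (E c c) := by
      unfold tr2
      have e1 : (∑ a, ∑ b, gi a b * ∑ c, E c c a b) = ∑ a, ∑ b, ∑ c, gi a b * E c c a b := by
        refine Finset.sum_congr rfl fun a _ => Finset.sum_congr rfl fun b _ => ?_
        rw [Finset.mul_sum]
      rw [e1, sum3_rot]
    rw [this]
    exact Finset.sum_eq_zero fun c _ => tr2_anti gi J _ hJg (hEanti c c)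
  have t2 : (∑ a, ∑ b, gi a b * ∑ d, (∑ c, Γ x c c d) * Γ x d a b) = 0 := by
    have : (∑ a, ∑ b, gi a b * ∑ d, (∑ c, Γ x c c d) * Γ x d a b)
        = ∑ d, (∑ c, Γ x c c d) * tr2 gi (Γ x d) := by
      unfold tr2
      have e1 : (∑ a, ∑ b, gi a b * ∑ d, (∑ c, Γ x c c d) * Γ x d a b)
          = ∑ a, ∑ b, ∑ d, (∑ c, Γ x c c d) * (gi a b * Γ x d a b) := by
        refine Finset.sum_congr rfl fun a _ => Finset.sum_congr rfl fun b _ => ?_
        rw [Finset.mul_sum]
        refine Finset.sum_congr rfl fun d _ => ?_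
        ring
      rw [e1, sum3_rot]
      refine Finset.sum_congr rfl fun d _ => ?_
      rw [Finset.mul_sum]
      refine Finset.sum_congr rfl fun a _ => ?_
      rw [Finset.mul_sum]
    rw [this]
    refine Finset.sum_eq_zero fun d _ => ?_
    rw [tr2_anti gi J _ hJg (hanti x hx d), mul_zero]
  have t3 : (∑ a, ∑ b, gi a b * QQ (Γ x) a b) = 0 :=
    tr2_anti gi J _ hJg (quad_anti J hJ (Γ x) (hs x hx) (hG x hx))
  have t4 : (∑ a, ∑ b, gi a b * ∑ c, E b c a c) = ∑ c, ∑ d, gi c d * ∑ a, E c a a d := by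
    rw [Finset.sum_comm]
    refine Finset.sum_congr rfl fun b _ => Finset.sum_congr rfl fun a _ => ?_
    rw [hgs a b]
    congr 1
    refine Finset.sum_congr rfl fun c _ => ?_
    rw [hEs b c a c]
  have hfin : (∑ a, ∑ b, gi a b * ricci g0 x a b)
      = (∑ a, ∑ b, gi a b * ∑ c, E c c a b) - (∑ a, ∑ b, gi a b * ∑ c, E b c a c)
        + (∑ a, ∑ b, gi a b * ∑ d, (∑ c, Γ x c c d) * Γ x d a b)
        - ∑ a, ∑ b, gi a b * QQ (Γ x) a b := by
    simp only [← Finset.sum_sub_distrib, ← Finset.sum_add_distrib]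
    refine Finset.sum_congr rfl fun a _ => Finset.sum_congr rfl fun b _ => ?_
    rw [hric]
    ring
  rw [hfin, t1, t2, t3, t4]
  simp only [hhess]
  ring

end

end Vale.Agent.P223
end
end

section

section

set_option maxSynthPendingDepth 3

namespace Vale.Agent.P223

open scoped Matrix
open Finset

variable {ι : Type} [Fintype ι] [DecidableEq ι]

theorem amgm_matrix [Nonempty ι] (P : Matrix ι ι ℝ) (hP : P.PosDef) :
    (Fintype.card ι : ℝ) * P.det ^ ((1 : ℝ) / (Fintype.card ι : ℝ)) ≤ P.trace := by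
  have hn : (0 : ℝ) < (Fintype.card ι : ℝ) := by exact_mod_cast Fintype.card_pos
  have hH := hP.isHermitian
  have h1 : P.det = ∏ i, hH.eigenvalues i := by
    have := hH.det_eq_prod_eigenvalues
    simpa only [Real.ringHom_apply] using this
  have h2 : P.trace = ∑ i, hH.eigenvalues i := by
    have := hH.trace_eq_sum_eigenvalues
    simpa only [Real.ringHom_apply] using this
  have h3 := Real.geom_mean_le_arith_mean Finset.univ (fun _ : ι => (1 : ℝ)) hH.eigenvalues
    (fun _ _ => zero_le_one) (by simpa only [sum_const, card_univ, nsmul_eq_mul, mul_one, Nat.cast_pos] using hn) (fun i _ => (hP.eigenvalues_pos i).le)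
  simp only [Real.rpow_one, Finset.sum_const, Finset.card_univ, nsmul_eq_mul, mul_one,
    one_mul] at h3
  rw [h1, h2, one_div]
  rw [le_div_iff₀ hn] at h3
  linarith

/-- A positive definite matrix factors. -/
theorem exists_factor (A : Matrix ι ι ℝ) (hA : A.PosDef) :
    ∃ B : Matrix ι ι ℝ, A = Bᵀ * B ∧ B.det ≠ 0 := by
  open scoped MatrixOrder in
  have h0 : 0 ≤ A := hA.posSemidef.nonneg
  have h1 : CFC.sqrt A * CFC.sqrt A = A := CFC.sqrt_mul_sqrt_self A h0
  have h2 : (CFC.sqrt A).PosSemidef := Matrix.nonneg_iff_posSemidef.mp (CFC.sqrt_nonneg A)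
  have h3 : (CFC.sqrt A)ᵀ = CFC.sqrt A := by
    have := h2.isHermitian
    simpa [Matrix.IsHermitian] using this
  refine ⟨CFC.sqrt A, by rw [h3, h1], fun h => ?_⟩
  have h4 : A.det = 0 := by rw [← h1, Matrix.det_mul, h, zero_mul]
  exact hA.det_pos.ne' h4

end Vale.Agent.P223
end
end

section

section

set_option maxSynthPendingDepth 3

namespace Vale.Agent.P223

open scoped Matrix ContDiff Topology
open Finset

variable {ι : Type} [Fintype ι] [DecidableEq ι]

/-- the conformal exponent `(n-2)/n` -/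
noncomputable def kk (ι : Type) [Fintype ι] : ℝ :=
  ((Fintype.card ι : ℝ) - 2) / (Fintype.card ι : ℝ)

/-- the vector density whose divergence appears -/
noncomputable def ZZ (g : (ι → ℝ) → Matrix ι ι ℝ) (f0 : (ι → ℝ) → ℝ) (c : ι) (y : ι → ℝ) : ℝ :=
  dens g y * Real.exp (-(kk ι * FF g f0 y)) * WW g f0 c y

section

variable {X : Set (ι → ℝ)} {g g0 : (ι → ℝ) → Matrix ι ι ℝ} {x : ι → ℝ} {J : Matrix ι ι ℝ}
  {f0 : (ι → ℝ) → ℝ}

theorem IsMetricOn.sm_exp (hg : IsMetricOn X g) (hX : IsOpen X) (hx : x ∈ X) (h0 : Sm f0 x) :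
    Sm (fun y => Real.exp (-(kk ι * FF g f0 y))) x :=
  ContDiffAt.exp (((Sm.const _).mul (hg.sm_FF hX hx h0)).neg)

theorem IsMetricOn.sm_ZZ (hg : IsMetricOn X g) (hX : IsOpen X) (hx : x ∈ X) (h0 : Sm f0 x)
    (c : ι) : Sm (ZZ g f0 c) x :=
  ((hg.sm_dens hX hx).mul (hg.sm_exp hX hx h0)).mul (hg.sm_WW hX hx h0 c)

theorem IsMetricOn.pd_exp (hg : IsMetricOn X g) (hX : IsOpen X) (hx : x ∈ X) (h0 : Sm f0 x)
    (c : ι) : pd c (fun y => Real.exp (-(kk ι * FF g f0 y))) x
      = Real.exp (-(kk ι * FF g f0 x)) * (-(kk ι * pd c (FF g f0) x)) := by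
  have h1 : pd c (fun y => -(kk ι * FF g f0 y)) x = -(kk ι * pd c (FF g f0) x) := by
    have : (fun y => -(kk ι * FF g f0 y)) = fun y => (-(kk ι)) * FF g f0 y := by
      funext y; ring
    rw [this, pd_const_mul _ (hg.sm_FF hX hx h0)]
    ring
  rw [← h1]
  unfold pd
  have hd : DifferentiableAt ℝ (fun y => -(kk ι * FF g f0 y)) x :=
    (((Sm.const _).mul (hg.sm_FF hX hx h0)).neg).differentiableAt (by simp)
  rw [fderiv_exp hd]
  simp only [fderiv_fun_neg, smul_neg, neg_apply, smul_apply, smul_eq_mul, mul_neg]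

theorem IsMetricOn.div_ZZ (hg : IsMetricOn X g) (hX : IsOpen X) (hx : x ∈ X)
    (h0 : Sm f0 x) :
    (∑ c, pd c (ZZ g f0 c) x) = dens g x * Real.exp (-(kk ι * FF g f0 x)) *
      ((∑ c, (pd c (WW g f0 c) x + (∑ a, christoffel g x a a c) * WW g f0 c x))
        - kk ι * ∑ c, pd c (FF g f0) x * WW g f0 c x) := by
  have h1 : ∀ c, pd c (ZZ g f0 c) x = dens g x * Real.exp (-(kk ι * FF g f0 x)) *
      ((pd c (WW g f0 c) x + (∑ a, christoffel g x a a c) * WW g f0 c x)
        - kk ι * (pd c (FF g f0) x * WW g f0 c x)) := by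
    intro c
    unfold ZZ
    rw [pd_mul ((hg.sm_dens hX hx).mul (hg.sm_exp hX hx h0)) (hg.sm_WW hX hx h0 c),
      pd_mul (hg.sm_dens hX hx) (hg.sm_exp hX hx h0), hg.pd_exp hX hx h0,
      show pd c (fun y => dens g y) x = pd c (dens g) x from rfl, hg.pd_dens hX hx]
    have : pd c (fun y => WW g f0 c y) x = pd c (WW g f0 c) x := rfl
    rw [this]
    ring
  simp only [h1]
  rw [← Finset.mul_sum, Finset.sum_sub_distrib, ← Finset.mul_sum]

theorem IsMetricOn.local_identity (hg : IsMetricOn X g) (hX : IsOpen X) (hx : x ∈ X)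
    (h0 : ∀ y ∈ X, Sm f0 y) :
    dens g x * Real.exp (-(kk ι * FF g f0 x)) * scal g x
      = (∑ c, pd c (ZZ g f0 c) x)
        + dens g x * Real.exp (-(kk ι * FF g f0 x)) *
          (T1 ((g x)⁻¹ : Matrix ι ι ℝ) (christoffel g x) (christoffel g x)
            - (1 - kk ι) * (∑ c, pd c (FF g f0) x * VV g c x)
            - kk ι * (∑ a, ∑ b, (g x)⁻¹ a b * pd a (FF g f0) x * pd b (FF g f0) x)
            - ∑ c, ∑ d, (g x)⁻¹ c d * pd c (fun y => pd d f0 y) x) := by
  rw [hg.div_ZZ hX hx (h0 x hx), hg.scal_eq hX hx h0]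
  have h1 : (∑ c, pd c (FF g f0) x * WW g f0 c x)
      = (∑ c, pd c (FF g f0) x * VV g c x)
        - ∑ a, ∑ b, (g x)⁻¹ a b * pd a (FF g f0) x * pd b (FF g f0) x := by
    rw [← Finset.sum_sub_distrib]
    refine Finset.sum_congr rfl fun c _ => ?_
    unfold WW
    rw [mul_sub, Finset.mul_sum]
    congr 1
    refine Finset.sum_congr rfl fun d _ => ?_
    ring
  rw [h1]
  ring

/-- The local inequality, general weight. -/
theorem local_ineq0 (hg : IsMetricOn X g) (hX : IsOpen X) (hx : x ∈ X)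
    (hJ : J * J = -1) (hH : ∀ x ∈ X, Jᵀ * g x * J = g x)
    (hn : 2 ≤ Fintype.card ι) (h0 : ∀ y ∈ X, Sm f0 y) :
    dens g x * Real.exp (-(kk ι * FF g f0 x)) * scal g x
      ≤ (∑ c, pd c (ZZ g f0 c) x)
        - dens g x * Real.exp (-(kk ι * FF g f0 x)) *
          ∑ c, ∑ d, (g x)⁻¹ c d * pd c (fun y => pd d f0 y) x := by
  rw [hg.local_identity hX hx h0]
  have hn2 : (2 : ℝ) ≤ (Fintype.card ι : ℝ) := by exact_mod_cast hn
  have hnpos : (0 : ℝ) < (Fintype.card ι : ℝ) := by linarith only [hn2]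
  set n : ℝ := (Fintype.card ι : ℝ) with hn'
  have hkk : 1 - kk ι = 2 / n := by
    unfold kk
    field_simp
    ring
  set e : ℝ := Real.exp (-(kk ι * FF g f0 x)) with he
  have hepos : 0 < e := Real.exp_pos _
  have hdpos := hg.dens_pos hx
  obtain ⟨B, hB, hBdet⟩ := exists_factor ((g x)⁻¹) (hg.posDef x hx).inv
  have hpw := pointwise_ineq (g x) ((g x)⁻¹) J B hB (hg.mul_inv hx) hJ (hH x hx)
    (hg.J_inv hx hJ hH) (Nt g x) (hg.Nt_sig hX hx) (hg.Nt_J hX hx hH)
    (fun c => pd c (FF g f0) x) hn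
  have hpw' : T1 ((g x)⁻¹ : Matrix ι ι ℝ) (christoffel g x) (christoffel g x)
            - (1 - kk ι) * (∑ c, pd c (FF g f0) x * VV g c x)
            - kk ι * (∑ a, ∑ b, (g x)⁻¹ a b * pd a (FF g f0) x * pd b (FF g f0) x) ≤ 0 := by
    rw [hkk]
    exact hpw
  have hde : 0 ≤ dens g x * e := by (clear * - hdpos; positivity)
  have := mul_le_mul_of_nonneg_left hpw' hde
  rw [mul_zero] at this
  linarith only [this]

/-- The trace of the Ricci form and the arithmetic-geometric mean inequality. -/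
theorem trace_ineq (hg : IsMetricOn X g) (hx : x ∈ X) {gz : Matrix ι ι ℝ} (hgz : gz.PosDef)
    (hn : 2 ≤ Fintype.card ι) (lam eta : ℝ) (hlam : 0 ≤ lam) (R : ι → ι → ℝ)
    (hRic : ∀ v : ι → ℝ, ∑ a, ∑ b, v a * v b * R a b
      ≤ -lam * (∑ a, ∑ b, v a * v b * gz a b) + eta * ∑ a, ∑ b, v a * v b * g x a b) :
    (Fintype.card ι : ℝ) * lam * (gz.det / (g x).det) ^ ((1 : ℝ) / (Fintype.card ι : ℝ))
        - (Fintype.card ι : ℝ) * eta
      ≤ - ∑ c, ∑ d, (g x)⁻¹ c d * R c d := by
  have : Nonempty ι := Fintype.card_pos_iff.mp (by omega)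
  obtain ⟨B, hB, hBdet⟩ := exists_factor ((g x)⁻¹) (hg.posDef x hx).inv
  have hgi : ∀ a b, (g x)⁻¹ a b = ∑ i, B i a * B i b := by
    intro a b
    rw [hB, Matrix.mul_apply]
    rfl
  have h1 : ∀ A : ι → ι → ℝ, (∑ c, ∑ d, (g x)⁻¹ c d * A c d)
      = ∑ i, ∑ c, ∑ d, B i c * B i d * A c d := by
    intro A
    have : ∀ c d, (g x)⁻¹ c d * A c d = ∑ i, B i c * B i d * A c d := by
      intro c d
      rw [hgi, Finset.sum_mul]
    simp only [this]
    rw [sum3_rot]
  have htr : (∑ c, ∑ d, (g x)⁻¹ c d * R c d)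
      ≤ -lam * (∑ c, ∑ d, (g x)⁻¹ c d * gz c d) + eta * ∑ c, ∑ d, (g x)⁻¹ c d * g x c d := by
    rw [h1 (fun c d => R c d), h1 (fun c d => gz c d), h1 (fun c d => g x c d), Finset.mul_sum,
      Finset.mul_sum, ← Finset.sum_add_distrib]
    exact Finset.sum_le_sum fun i _ => hRic (B i)
  have hgg : (∑ c, ∑ d, (g x)⁻¹ c d * g x c d) = (Fintype.card ι : ℝ) := by
    have e1 : ∀ c, (∑ d, (g x)⁻¹ c d * g x c d) = 1 := by
      intro c
      have e2 := congrFun (congrFun (hg.inv_mul hx) c) c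
      rw [Matrix.mul_apply, Matrix.one_apply_eq] at e2
      rw [← e2]
      exact Finset.sum_congr rfl fun d _ => by rw [hg.symm hx c d]
    simp only [e1, Finset.sum_const, Finset.card_univ, nsmul_eq_mul, mul_one]
  have hP : (B * gz * Bᵀ).PosDef := by
    have hc := hgz.mul_mul_conjTranspose_same (B := B)
      (Matrix.vecMul_injective_of_isUnit (Matrix.isUnit_iff_isUnit_det _ |>.mpr hBdet.isUnit))
    simpa using hc
  have ham := amgm_matrix _ hP
  have hgzs : ∀ a b, gz a b = gz b a := by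
    intro a b
    have h := congrFun (congrFun hgz.isHermitian b) a
    simpa using h
  have htrP : (B * gz * Bᵀ).trace = ∑ c, ∑ d, (g x)⁻¹ c d * gz c d := by
    rw [Matrix.trace_mul_comm, ← Matrix.mul_assoc, ← hB]
    unfold Matrix.trace
    refine Finset.sum_congr rfl fun a _ => ?_
    rw [Matrix.diag_apply, Matrix.mul_apply]
    refine Finset.sum_congr rfl fun b _ => ?_
    rw [hgzs b a]
  have hdetP : (B * gz * Bᵀ).det = gz.det / (g x).det := by
    rw [Matrix.det_mul, Matrix.det_mul, Matrix.det_transpose]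
    have h1 : B.det * B.det = ((g x).det)⁻¹ := by
      have : ((g x)⁻¹).det = B.det * B.det := by
        conv_lhs => rw [hB]
        rw [Matrix.det_mul, Matrix.det_transpose]
      rw [← this, Matrix.det_nonsing_inv, Ring.inverse_eq_inv']
    calc B.det * gz.det * B.det = gz.det * (B.det * B.det) := by ring
      _ = gz.det / (g x).det := by rw [h1]; rfl
  rw [htrP, hdetP] at ham
  rw [hgg] at htr
  have := mul_le_mul_of_nonneg_left ham hlam
  linarith only [htr, this]

end

end Vale.Agent.P223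
end
end

section

section

set_option maxSynthPendingDepth 3

namespace Vale.Agent.P223

open scoped Matrix ContDiff Topology
open Finset

variable {ι : Type} [Fintype ι] [DecidableEq ι]

section

variable {φ : (ι → ℝ) → (ι → ℝ)} {x : ι → ℝ}

omit [DecidableEq ι] in
theorem sm_comp_coord (hφ : ContDiffAt ℝ ∞ φ x) (c : ι) : Sm (fun z => φ z c) x :=
  (contDiffAt_pi.mp hφ) c

theorem fderiv_single (hφ : ContDiffAt ℝ ∞ φ x) (a c : ι) :
    fderiv ℝ φ x (Pi.single a 1) c = jac φ x c a := by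
  have hd : DifferentiableAt ℝ φ x := hφ.differentiableAt (by simp)
  unfold jac pd
  rw [Matrix.of_apply]
  have h1 : fderiv ℝ (fun z => φ z c) x
      = (ContinuousLinearMap.proj c).comp (fderiv ℝ φ x) := by
    have := ((ContinuousLinearMap.proj (R := ℝ) (φ := fun _ : ι => ℝ) c).hasFDerivAt
      (x := φ x)).comp x hd.hasFDerivAt
    exact this.fderiv
  rw [h1]
  rfl

theorem pd_comp {h : (ι → ℝ) → ℝ} (hφ : ContDiffAt ℝ ∞ φ x)
    (hh : DifferentiableAt ℝ h (φ x)) (a : ι) :
    pd a (fun y => h (φ y)) x = ∑ e, pd e h (φ x) * jac φ x e a := by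
  have hd : DifferentiableAt ℝ φ x := hφ.differentiableAt (by simp)
  have h1 : fderiv ℝ (fun y => h (φ y)) x = (fderiv ℝ h (φ x)).comp (fderiv ℝ φ x) :=
    fderiv_comp x hh hd
  have h2 : pd a (fun y => h (φ y)) x = fderiv ℝ h (φ x) (fderiv ℝ φ x (Pi.single a 1)) := by
    unfold pd
    rw [h1]
    rfl
  have h3 : fderiv ℝ φ x (Pi.single a 1) = ∑ e, jac φ x e a • (Pi.single e (1 : ℝ) : ι → ℝ) := by
    funext c
    rw [fderiv_single hφ, Finset.sum_apply]
    simp only [Pi.smul_apply, Pi.single_apply, smul_eq_mul, mul_ite, mul_one, mul_zero, sum_ite_eq, mem_univ, ↓reduceIte]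
  rw [h2, h3, map_sum]
  refine Finset.sum_congr rfl fun e _ => ?_
  rw [map_smul, smul_eq_mul, mul_comm]
  rfl

omit [DecidableEq ι] in
theorem sm_comp {h : (ι → ℝ) → ℝ} (hφ : ContDiffAt ℝ ∞ φ x)
    (hh : Sm h (φ x)) : Sm (fun y => h (φ y)) x := ContDiffAt.comp x hh hφ

theorem sm_jac (hφ : ContDiffAt ℝ ∞ φ x) (c a : ι) : Sm (fun y => jac φ y c a) x :=
  (sm_comp_coord hφ c).pd a

theorem pd_comm {h : (ι → ℝ) → ℝ} (hh : Sm h x) (a b : ι) :
    pd a (fun y => pd b h y) x = pd b (fun y => pd a h y) x := by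
  have h2 : ContDiffAt ℝ 2 h x := hh.of_le (WithTop.coe_le_coe.2 le_top)
  have hs : IsSymmSndFDerivAt ℝ h x := h2.isSymmSndFDerivAt (by simp)
  have hd : DifferentiableAt ℝ (fderiv ℝ h) x := by
    have : ContDiffAt ℝ 1 (fderiv ℝ h) x := h2.fderiv_right (by norm_num)
    exact this.differentiableAt (by simp)
  have h3 : ∀ a b, pd a (fun y => pd b h y) x
      = fderiv ℝ (fderiv ℝ h) x (Pi.single a 1) (Pi.single b 1) := by
    intro a b
    unfold pd
    have : fderiv ℝ (fun y => fderiv ℝ h y (Pi.single b 1)) x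
        = (fderiv ℝ (fderiv ℝ h) x).flip (Pi.single b 1) := by
      have := fderiv_clm_apply hd (differentiableAt_const (Pi.single b (1:ℝ)) (x := x))
      rw [this]
      simp only [fderiv_fun_const, Pi.zero_apply, ContinuousLinearMap.comp_zero, zero_add]
    rw [this]
    rfl
  rw [h3, h3]
  exact hs _ _

/-- second derivatives of the components -/
noncomputable def hes (φ : (ι → ℝ) → (ι → ℝ)) (x : ι → ℝ) (d a b : ι) : ℝ :=
  pd a (fun y => jac φ y d b) x

theorem hes_symm (hφ : ContDiffAt ℝ ∞ φ x) (d a b : ι) : hes φ x d a b = hes φ x d b a :=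
  pd_comm (sm_comp_coord hφ d) a b

/-- rearranged Hessian tensor -/
noncomputable def Hr (φ : (ι → ℝ) → (ι → ℝ)) (x : ι → ℝ) : Ten ι := fun a b e => hes φ x e a b

end

section

variable {φ : (ι → ℝ) → (ι → ℝ)} {x : ι → ℝ} {X X' : Set (ι → ℝ)}
  {g g' : (ι → ℝ) → Matrix ι ι ℝ}

/-- transformation law for the first derivatives of the metric -/
theorem Nt_trans (hg' : IsMetricOn X' g') (hX' : IsOpen X') (hx' : φ x ∈ X')
    (hφ : ContDiffAt ℝ ∞ φ x)
    (hc : ∀ᶠ y in 𝓝 x, g y = (jac φ y)ᵀ * g' (φ y) * jac φ y) :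
    Nt g x = R3 ((jac φ x)ᵀ * g' (φ x)) (Hr φ x) + sig (R3 ((jac φ x)ᵀ * g' (φ x)) (Hr φ x))
      + R1 (jac φ x)ᵀ (R2 (jac φ x)ᵀ (R3 (jac φ x)ᵀ (Nt g' (φ x)))) := by
  funext a b c
  have h1 : Nt g x a b c = pd a (fun y => ∑ e, ∑ f, (jac φ y e b * g' (φ y) e f) * jac φ y f c) x := by
    unfold Nt
    apply pd_congr
    filter_upwards [hc] with y hy
    rw [hy, Matrix.mul_assoc, Matrix.mul_apply]
    refine Finset.sum_congr rfl fun e _ => ?_
    rw [Matrix.mul_apply, Finset.mul_sum]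
    refine Finset.sum_congr rfl fun f _ => ?_
    rw [Matrix.transpose_apply]
    ring
  have sg : ∀ e f, Sm (fun y => g' (φ y) e f) x := fun e f =>
    sm_comp (h := fun z => g' z e f) hφ (hg'.sm hX' hx' e f)
  have h2 : Nt g x a b c = ∑ e, ∑ f, ((hes φ x e a b * g' (φ x) e f
      + jac φ x e b * ∑ h, Nt g' (φ x) h e f * jac φ x h a) * jac φ x f c
      + jac φ x e b * g' (φ x) e f * hes φ x f a c) := by
    rw [h1, pd_sum fun e _ => Sm.sum fun f _ => ((sm_jac hφ e b).mul (sg e f)).mul (sm_jac hφ f c)]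
    refine Finset.sum_congr rfl fun e _ => ?_
    rw [pd_sum fun f _ => ((sm_jac hφ e b).mul (sg e f)).mul (sm_jac hφ f c)]
    refine Finset.sum_congr rfl fun f _ => ?_
    rw [pd_mul ((sm_jac hφ e b).mul (sg e f)) (sm_jac hφ f c), pd_mul (sm_jac hφ e b) (sg e f)]
    rw [pd_comp (h := fun z => g' z e f) hφ (hg'.sm hX' hx' e f).diff a]
    rfl
  rw [h2]
  have h3 : (R3 ((jac φ x)ᵀ * g' (φ x)) (Hr φ x)) a b c
      = ∑ e, ∑ f, hes φ x e a b * g' (φ x) e f * jac φ x f c := by
    unfold R3 Hr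
    refine Finset.sum_congr rfl fun e _ => ?_
    rw [Matrix.mul_apply, Finset.sum_mul]
    refine Finset.sum_congr rfl fun f _ => ?_
    rw [Matrix.transpose_apply, hg'.symm hx' f e]
    ring
  have h4 : (sig (R3 ((jac φ x)ᵀ * g' (φ x)) (Hr φ x))) a b c
      = ∑ e, ∑ f, jac φ x e b * g' (φ x) e f * hes φ x f a c := by
    unfold sig R3 Hr
    rw [Finset.sum_comm]
    refine Finset.sum_congr rfl fun f _ => ?_
    rw [Matrix.mul_apply, Finset.sum_mul]
    refine Finset.sum_congr rfl fun e _ => ?_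
    rw [Matrix.transpose_apply]
  have h5 : (R1 (jac φ x)ᵀ (R2 (jac φ x)ᵀ (R3 (jac φ x)ᵀ (Nt g' (φ x))))) a b c
      = ∑ e, ∑ f, (jac φ x e b * ∑ h, Nt g' (φ x) h e f * jac φ x h a) * jac φ x f c := by
    unfold R1 R2 R3
    simp only [Finset.mul_sum, Finset.sum_mul, Matrix.transpose_apply]
    rw [Finset.sum_comm]
    refine Finset.sum_congr rfl fun e _ => ?_
    rw [Finset.sum_comm]
    refine Finset.sum_congr rfl fun f _ => Finset.sum_congr rfl fun h _ => ?_
    ring
  simp only [Pi.add_apply]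
  rw [h3, h4, h5]
  simp only [← Finset.sum_add_distrib]
  refine Finset.sum_congr rfl fun e _ => Finset.sum_congr rfl fun f _ => ?_
  ring

omit [DecidableEq ι] in
theorem R2_sub (M : Matrix ι ι ℝ) (S T : Ten ι) : R2 M (S - T) = R2 M S - R2 M T := by
  funext a b c
  simp only [R2, Pi.sub_apply, mul_sub, Finset.sum_sub_distrib]

omit [DecidableEq ι] in
theorem R2_smul (M : Matrix ι ι ℝ) (r : ℝ) (T : Ten ι) : R2 M (r • T) = r • R2 M T := by
  funext a b c
  simp only [R2, Pi.smul_apply, smul_eq_mul, Finset.mul_sum]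
  refine Finset.sum_congr rfl fun d _ => ?_
  ring

omit [DecidableEq ι] in
theorem tau_R123 (A : Matrix ι ι ℝ) (N : Ten ι) :
    tau (R1 A (R2 A (R3 A N))) = R1 A (R2 A (R3 A (tau N))) := by
  rw [tau_R1, tau_R2, tau_R3, ← R1_R2]

omit [DecidableEq ι] in
theorem kap_R123 (A : Matrix ι ι ℝ) (N : Ten ι) :
    kap (R1 A (R2 A (R3 A N))) = R1 A (R2 A (R3 A (kap N))) := by
  rw [← R3_kap, ← R1_kap, ← R2_kap, ← R1_R3, ← R2_R3]

omit [DecidableEq ι] in
theorem Cl_R123 (A : Matrix ι ι ℝ) (N : Ten ι) :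
    Cl (R1 A (R2 A (R3 A N))) = R1 A (R2 A (R3 A (Cl N))) := by
  unfold Cl
  rw [tau_R123, kap_R123]
  simp only [R1_smul, R2_smul, R3_smul, R1_add, R2_add, R3_add, R1_sub, R2_sub, R3_sub]

omit [DecidableEq ι] in
theorem Cl_trans (M A : Matrix ι ι ℝ) (H N : Ten ι) (hH : tau H = H) :
    Cl (R3 M H + sig (R3 M H) + R1 A (R2 A (R3 A N)))
      = R3 M H + R1 A (R2 A (R3 A (Cl N))) := by
  have hK : ∀ a b c, R3 M H a b c = R3 M H b a c := by
    intro a b c
    have : tau (R3 M H) = R3 M (tau H) := rfl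
    rw [hH] at this
    exact congrFun (congrFun (congrFun this b) a) c
  rw [← Cl_R123]
  set T := R1 A (R2 A (R3 A N)) with hT
  set K := R3 M H with hKd
  funext a b c
  simp only [Cl, Pi.add_apply, Pi.smul_apply, Pi.sub_apply, smul_eq_mul, tau, kap, sig]
  rw [hK b a c, hK c a b, hK c b a]
  ring

/-- the inverse metric -/
theorem inv_trans (hg : IsMetricOn X g) (hx : x ∈ X)
    (hc : g x = (jac φ x)ᵀ * g' (φ x) * jac φ x) :
    jac φ x * (g x)⁻¹ * (jac φ x)ᵀ = (g' (φ x))⁻¹ := by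
  set A := jac φ x with hA
  have hdet : A.det ≠ 0 := by
    intro h0
    have := hg.det_pos hx
    rw [hc, Matrix.det_mul, h0, mul_zero] at this
    exact lt_irrefl _ this
  have hAu : IsUnit A.det := hdet.isUnit
  have hAt : IsUnit (Aᵀ).det := by rw [Matrix.det_transpose]; exact hAu
  rw [hc, Matrix.mul_inv_rev, Matrix.mul_inv_rev]
  calc A * (A⁻¹ * ((g' (φ x))⁻¹ * (Aᵀ)⁻¹)) * Aᵀ
      = (A * A⁻¹) * (g' (φ x))⁻¹ * ((Aᵀ)⁻¹ * Aᵀ) := by simp only [Matrix.mul_assoc]
    _ = (g' (φ x))⁻¹ := by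
      rw [Matrix.mul_nonsing_inv _ hAu, Matrix.nonsing_inv_mul _ hAt, one_mul, mul_one]

/-- transformation law for the Christoffel symbols -/
theorem christoffel_trans (hg : IsMetricOn X g) (hx : x ∈ X) (hg' : IsMetricOn X' g')
    (hX' : IsOpen X') (hx' : φ x ∈ X') (hφ : ContDiffAt ℝ ∞ φ x)
    (hc : ∀ᶠ y in 𝓝 x, g y = (jac φ y)ᵀ * g' (φ y) * jac φ y) (d a b : ι) :
    (∑ c, jac φ x d c * christoffel g x c a b)
      = (∑ e, ∑ f, jac φ x e a * jac φ x f b * christoffel g' (φ x) d e f) + hes φ x d a b := by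
  set A := jac φ x with hA
  have hcx : g x = Aᵀ * g' (φ x) * A := hc.self_of_nhds
  have hinv := inv_trans hg hx hcx
  have hN := Nt_trans hg' hX' hx' hφ hc
  have hH : tau (Hr φ x) = Hr φ x := by
    funext a b e
    exact hes_symm hφ e b a
  have hCl : Cl (Nt g x) = R3 (Aᵀ * g' (φ x)) (Hr φ x)
      + R1 Aᵀ (R2 Aᵀ (R3 Aᵀ (Cl (Nt g' (φ x))))) := by
    rw [hN]
    exact Cl_trans _ _ _ _ hH
  have h1 : (∑ c, A d c * christoffel g x c a b) = R3 A (R3 ((g x)⁻¹) (Cl (Nt g x))) a b d := by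
    conv_rhs => unfold R3
    refine Finset.sum_congr rfl fun c _ => ?_
    rw [christoffel_eq, Gam_eq]
    rfl
  rw [h1, hCl, R3_R3, R3_add, R3_R3]
  have e1 : A * (g x)⁻¹ * (Aᵀ * g' (φ x)) = 1 := by
    rw [← Matrix.mul_assoc, hinv]
    exact hg'.inv_mul hx'
  rw [e1, R3_one]
  have e2 : R3 (A * (g x)⁻¹) (R1 Aᵀ (R2 Aᵀ (R3 Aᵀ (Cl (Nt g' (φ x))))))
      = R1 Aᵀ (R2 Aᵀ (R3 ((g' (φ x))⁻¹) (Cl (Nt g' (φ x))))) := by
    rw [← R1_R3, ← R2_R3, R3_R3, hinv]
  rw [e2]
  simp only [Pi.add_apply]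
  rw [add_comm]
  congr 1
  · unfold R1 R2
    simp only [Finset.mul_sum, Matrix.transpose_apply]
    refine Finset.sum_congr rfl fun e _ => Finset.sum_congr rfl fun f _ => ?_
    rw [christoffel_eq, Gam_eq]
    ring

theorem hes_J {J : Matrix ι ι ℝ} (hφ : ContDiffAt ℝ ∞ φ x)
    (hJφ : ∀ᶠ y in 𝓝 x, jac φ y * J = J * jac φ y) (d a b : ι) :
    (∑ e, J e a * hes φ x d e b) = ∑ e, J d e * hes φ x e a b := by
  have h1 : (∑ e, J e a * hes φ x d e b) = pd b (fun y => (jac φ y * J) d a) x := by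
    have : (fun y => (jac φ y * J) d a) = fun y => ∑ e, J e a * jac φ y d e := by
      funext y
      rw [Matrix.mul_apply]
      exact Finset.sum_congr rfl fun e _ => mul_comm _ _
    rw [this, pd_sum fun e _ => (Sm.const _).mul (sm_jac hφ d e)]
    refine Finset.sum_congr rfl fun e _ => ?_
    rw [pd_const_mul _ (sm_jac hφ d e), hes_symm hφ d e b]
    rfl
  have h2 : (∑ e, J d e * hes φ x e a b) = pd b (fun y => (J * jac φ y) d a) x := by
    have : (fun y => (J * jac φ y) d a) = fun y => ∑ e, J d e * jac φ y e a := by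
      funext y
      rw [Matrix.mul_apply]
    rw [this, pd_sum fun e _ => (Sm.const _).mul (sm_jac hφ e a)]
    refine Finset.sum_congr rfl fun e _ => ?_
    rw [pd_const_mul _ (sm_jac hφ e a), hes_symm hφ e a b]
    rfl
  rw [h1, h2]
  apply pd_congr
  filter_upwards [hJφ] with y hy
  rw [hy]

/-- the Hessian of a holomorphic map has no trace against a Hermitian form -/
theorem hes_trace {J P : Matrix ι ι ℝ} (hJ : J * J = -1) (hP : J * P * Jᵀ = P)
    (hφ : ContDiffAt ℝ ∞ φ x)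
    (hJφ : ∀ᶠ y in 𝓝 x, jac φ y * J = J * jac φ y) (d : ι) :
    (∑ a, ∑ b, P a b * hes φ x d a b) = 0 :=
  tr2_anti P J (Matrix.of (hes φ x d)) hP
    (conj_anti J hJ (fun d => Matrix.of (hes φ x d)) (fun c a b => hes_symm hφ c a b)
      (fun c a b => hes_J hφ hJφ c a b) d)

/-- transformation law for the vector field `WW` under holomorphic coordinate changes -/
theorem WW_trans {J : Matrix ι ι ℝ} {f0 f0' : (ι → ℝ) → ℝ} (hg : IsMetricOn X g)
    (hx : x ∈ X) (hg' : IsMetricOn X' g')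
    (hX' : IsOpen X') (hx' : φ x ∈ X') (hφ : ContDiffAt ℝ ∞ φ x)
    (hc : ∀ᶠ y in 𝓝 x, g y = (jac φ y)ᵀ * g' (φ y) * jac φ y)
    (hJ : J * J = -1) (hH : ∀ x ∈ X, Jᵀ * g x * J = g x)
    (hJφ : ∀ᶠ y in 𝓝 x, jac φ y * J = J * jac φ y)
    (h0' : Sm f0' (φ x))
    (hF : ∀ᶠ y in 𝓝 x, FF g f0 y = FF g' f0' (φ y)) (d : ι) :
    (∑ c, jac φ x d c * WW g f0 c x) = WW g' f0' d (φ x) := by
  set A := jac φ x with hA
  have hcx : g x = Aᵀ * g' (φ x) * A := hc.self_of_nhds
  have hinv := inv_trans hg hx hcx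
  have hgi : ∀ e f, (g' (φ x))⁻¹ e f = ∑ a, ∑ b, A e a * (g x)⁻¹ a b * A f b := by
    intro e f
    rw [← hinv, Matrix.mul_apply, Finset.sum_comm]
    refine Finset.sum_congr rfl fun b _ => ?_
    rw [Matrix.mul_apply, Finset.sum_mul]
    rfl
  have hV : (∑ c, A d c * VV g c x) = VV g' d (φ x) := by
    have e1 : (∑ c, A d c * VV g c x) = ∑ a, ∑ b, (g x)⁻¹ a b * ∑ c, A d c * christoffel g x c a b := by
      unfold VV
      simp only [Finset.mul_sum]
      rw [← sum3_rot]
      refine Finset.sum_congr rfl fun a _ => Finset.sum_congr rfl fun b _ =>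
        Finset.sum_congr rfl fun c _ => ?_
      ring
    have hct : ∀ a b, (∑ c, A d c * christoffel g x c a b)
        = (∑ e, ∑ f, A e a * A f b * christoffel g' (φ x) d e f) + hes φ x d a b :=
      fun a b => christoffel_trans hg hx hg' hX' hx' hφ hc d a b
    rw [e1]
    simp only [hct]
    have e2 : (∑ a, ∑ b, (g x)⁻¹ a b * ((∑ e, ∑ f, A e a * A f b
          * christoffel g' (φ x) d e f) + hes φ x d a b))
        = (∑ a, ∑ b, (g x)⁻¹ a b * (∑ e, ∑ f, A e a * A f b
          * christoffel g' (φ x) d e f)) + ∑ a, ∑ b, (g x)⁻¹ a b * hes φ x d a b := by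
      simp only [← Finset.sum_add_distrib]
      refine Finset.sum_congr rfl fun a _ => Finset.sum_congr rfl fun b _ => ?_
      ring
    rw [e2, hes_trace hJ (hg.J_inv hx hJ hH) hφ hJφ d, add_zero]
    unfold VV
    simp only [hgi, Finset.sum_mul, Finset.mul_sum]
    -- lhs: a b e f ; rhs : e f a b
    rw [s23, s12, s34, s23]
    refine Finset.sum_congr rfl fun e _ => Finset.sum_congr rfl fun f _ =>
      Finset.sum_congr rfl fun a _ => Finset.sum_congr rfl fun b _ => ?_
    ring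
  have hdF : DifferentiableAt ℝ (FF g' f0') (φ x) := (hg'.sm_FF hX' hx' h0').diff
  have hFx : ∀ b, pd b (FF g f0) x = ∑ e, pd e (FF g' f0') (φ x) * A e b := by
    intro b
    rw [pd_congr hF, pd_comp hφ hdF b]
  unfold WW
  simp only [mul_sub, Finset.sum_sub_distrib]
  rw [hV]
  congr 1
  have hgA : ∀ e, (∑ a, ∑ b, A d a * ((g x)⁻¹ a b * A e b)) = (g' (φ x))⁻¹ d e := by
    intro e
    rw [hgi]
    refine Finset.sum_congr rfl fun a _ => Finset.sum_congr rfl fun b _ => ?_
    ring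
  simp only [← hgA, hFx]
  have e3 : (∑ c, A d c * ∑ b, (g x)⁻¹ c b * ∑ e, pd e (FF g' f0') (φ x) * A e b)
      = ∑ c, ∑ b, ∑ e, A d c * ((g x)⁻¹ c b * A e b) * pd e (FF g' f0') (φ x) := by
    refine Finset.sum_congr rfl fun c _ => ?_
    rw [Finset.mul_sum]
    refine Finset.sum_congr rfl fun b _ => ?_
    rw [Finset.mul_sum, Finset.mul_sum]
    refine Finset.sum_congr rfl fun e _ => ?_
    ring
  have e4 : (∑ e, (∑ a, ∑ b, A d a * ((g x)⁻¹ a b * A e b)) * pd e (FF g' f0') (φ x))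
      = ∑ e, ∑ c, ∑ b, A d c * ((g x)⁻¹ c b * A e b) * pd e (FF g' f0') (φ x) := by
    refine Finset.sum_congr rfl fun e _ => ?_
    rw [Finset.sum_mul]
    refine Finset.sum_congr rfl fun c _ => ?_
    rw [Finset.sum_mul]
  rw [e3, e4, sum3_rot]

end

end Vale.Agent.P223
end
end

section

section

set_option maxSynthPendingDepth 3

namespace Vale.Agent.P223

open scoped Matrix ContDiff Topology
open Finset

variable {ι : Type} [Fintype ι] [DecidableEq ι]

/-- entrywise partial derivative -/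
noncomputable def pdM (a : ι) (P : (ι → ℝ) → Matrix ι ι ℝ) (x : ι → ℝ) : Matrix ι ι ℝ :=
  Matrix.of fun i j => pd a (fun y => P y i j) x

section
variable {P Q : (ι → ℝ) → Matrix ι ι ℝ} {x : ι → ℝ} {a : ι}

/-- smooth matrix function at a point -/
abbrev SmM (P : (ι → ℝ) → Matrix ι ι ℝ) (x : ι → ℝ) : Prop := ∀ i j, Sm (fun y => P y i j) x

omit [DecidableEq ι] in
theorem SmM.mul (hP : SmM P x) (hQ : SmM Q x) : SmM (fun y => P y * Q y) x := by
  intro i j
  have : (fun y => (P y * Q y) i j) = fun y => ∑ k, P y i k * Q y k j := by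
    funext y; rw [Matrix.mul_apply]
  rw [this]
  exact Sm.sum fun k _ => (hP i k).mul (hQ k j)

theorem pdM_mul (hP : SmM P x) (hQ : SmM Q x) :
    pdM a (fun y => P y * Q y) x = pdM a P x * Q x + P x * pdM a Q x := by
  ext i j
  have : (fun y => (P y * Q y) i j) = fun y => ∑ k, P y i k * Q y k j := by
    funext y; rw [Matrix.mul_apply]
  simp only [pdM, Matrix.mul_apply, Matrix.of_apply, Matrix.add_apply]
  rw [show (fun y => ∑ k, P y i k * Q y k j) = fun y => ∑ k, P y i k * Q y k j from rfl,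
    pd_sum fun k _ => (hP i k).mul (hQ k j), ← Finset.sum_add_distrib]
  refine Finset.sum_congr rfl fun k _ => ?_
  rw [pd_mul (hP i k) (hQ k j)]

theorem pdM_add (hP : SmM P x) (hQ : SmM Q x) :
    pdM a (fun y => P y + Q y) x = pdM a P x + pdM a Q x := by
  ext i j
  simp only [pdM, Matrix.of_apply, Matrix.add_apply]
  rw [pd_add (hP i j) (hQ i j)]

theorem pdM_congr (h : ∀ᶠ y in 𝓝 x, P y = Q y) : pdM a P x = pdM a Q x := by
  ext i j
  simp only [pdM, Matrix.of_apply]
  apply pd_congr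
  filter_upwards [h] with y hy
  rw [hy]

end

/-- connection matrix -/
noncomputable def om (g : (ι → ℝ) → Matrix ι ι ℝ) (a : ι) (y : ι → ℝ) : Matrix ι ι ℝ :=
  Matrix.of fun d c => christoffel g y d a c

/-- curvature matrix -/
noncomputable def Om (w : ι → (ι → ℝ) → Matrix ι ι ℝ) (x : ι → ℝ) (a b : ι) : Matrix ι ι ℝ :=
  pdM a (w b) x - pdM b (w a) x + w a x * w b x - w b x * w a x

section
variable {φ : (ι → ℝ) → (ι → ℝ)} {x : ι → ℝ} {X X' : Set (ι → ℝ)}
  {g g' : (ι → ℝ) → Matrix ι ι ℝ}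

theorem IsMetricOn.ricci_eq (hg : IsMetricOn X g) (hX : IsOpen X) (hx : x ∈ X) (a b : ι) :
    ricci g x a b = ∑ c, Om (om g) x c b c a := by
  have hs : ∀ c a b, christoffel g x c a b = christoffel g x c b a :=
    fun c a b => hg.christoffel_symm hX hx c a b
  have hE : ∀ e c a b, pd e (fun y => christoffel g y c a b) x
      = pd e (fun y => christoffel g y c b a) x := by
    intro e c a b
    apply pd_congr
    filter_upwards [hX.mem_nhds hx] with y hy
    exact hg.christoffel_symm hX hy c a b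
  unfold ricci
  rw [← Finset.sum_add_distrib]
  refine Finset.sum_congr rfl fun c _ => ?_
  unfold Om
  simp only [Matrix.sub_apply, Matrix.add_apply, Matrix.mul_apply, pdM, Matrix.of_apply, om]
  rw [Finset.sum_sub_distrib, hE c c a b, hE b c a c]
  have e1 : (∑ d, christoffel g x c c d * christoffel g x d a b)
      = ∑ d, christoffel g x c c d * christoffel g x d b a :=
    Finset.sum_congr rfl fun d _ => by rw [hs d a b]
  have e2 : (∑ d, christoffel g x c b d * christoffel g x d a c)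
      = ∑ d, christoffel g x c b d * christoffel g x d c a :=
    Finset.sum_congr rfl fun d _ => by rw [hs d a c]
  rw [e1, e2]
  ring

/-- gauge transformation of the curvature -/
theorem gauge (A : (ι → ℝ) → Matrix ι ι ℝ) (w w' : ι → (ι → ℝ) → Matrix ι ι ℝ)
    (hA : SmM A x) (hA2 : ∀ a, SmM (fun y => pdM a A y) x)
    (hA3 : ∀ a b, pdM a (fun y => pdM b A y) x = pdM b (fun y => pdM a A y) x)
    (hw : ∀ a, SmM (w a) x) (hw' : ∀ a, SmM (w' a) x)
    (hC : ∀ a, ∀ᶠ y in 𝓝 x, A y * w a y = w' a y * A y + pdM a A y) (a b : ι) :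
    A x * Om w x a b = Om w' x a b * A x := by
  have hd : ∀ a b, pdM a A x * w b x + A x * pdM a (w b) x
      = pdM a (w' b) x * A x + w' b x * pdM a A x + pdM a (fun y => pdM b A y) x := by
    intro a b
    rw [← pdM_mul hA (hw b), ← pdM_mul (hw' b) hA,
      ← pdM_add ((hw' b).mul hA) (hA2 b)]
    exact pdM_congr (hC b)
  have hx : ∀ a, A x * w a x = w' a x * A x + pdM a A x := fun a => (hC a).self_of_nhds
  have h1 := hd a b
  have h2 := hd b a
  rw [hA3 b a] at h2
  have e1 : A x * pdM a (w b) x = pdM a (w' b) x * A x + w' b x * pdM a A x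
      + pdM a (fun y => pdM b A y) x - pdM a A x * w b x := by
    rw [← h1]; abel
  have e2 : A x * pdM b (w a) x = pdM b (w' a) x * A x + w' a x * pdM b A x
      + pdM a (fun y => pdM b A y) x - pdM b A x * w a x := by
    rw [← h2]; abel
  unfold Om
  have e3 : A x * (w a x * w b x) = w' a x * (w' b x * A x + pdM b A x) + pdM a A x * w b x := by
    rw [← Matrix.mul_assoc, hx a, add_mul, Matrix.mul_assoc, hx b]
  have e4 : A x * (w b x * w a x) = w' b x * (w' a x * A x + pdM a A x) + pdM b A x * w a x := by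
    rw [← Matrix.mul_assoc, hx b, add_mul, Matrix.mul_assoc, hx a]
  rw [mul_sub, mul_add, mul_sub, e1, e2, e3, e4]
  noncomm_ring

/-- pulled back connection matrix -/
noncomputable def omp (φ : (ι → ℝ) → (ι → ℝ)) (g' : (ι → ℝ) → Matrix ι ι ℝ) (a : ι)
    (y : ι → ℝ) : Matrix ι ι ℝ := ∑ p, jac φ y p a • om g' p (φ y)

/-- data of a coordinate change relating two metrics on an open set `U` -/
structure Chg (U X X' : Set (ι → ℝ)) (φ : (ι → ℝ) → (ι → ℝ))
    (g g' : (ι → ℝ) → Matrix ι ι ℝ) : Prop where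
  isOpen : IsOpen U
  sub : U ⊆ X
  maps : ∀ y ∈ U, φ y ∈ X'
  smooth : ∀ y ∈ U, ContDiffAt ℝ ∞ φ y
  compat : ∀ y ∈ U, g y = (jac φ y)ᵀ * g' (φ y) * jac φ y

variable {U : Set (ι → ℝ)}

theorem Chg.ev (h : Chg U X X' φ g g') (hx : x ∈ U) :
    ∀ᶠ y in 𝓝 x, g y = (jac φ y)ᵀ * g' (φ y) * jac φ y := by
  filter_upwards [h.isOpen.mem_nhds hx] with y hy
  exact h.compat y hy

theorem sm_omp (hg' : IsMetricOn X' g') (hX' : IsOpen X') (h : Chg U X X' φ g g') (hx : x ∈ U)
    (a : ι) : SmM (omp φ g' a) x := by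
  intro i j
  have : (fun y => omp φ g' a y i j) = fun y => ∑ p, jac φ y p a * christoffel g' (φ y) i p j := by
    funext y
    unfold omp
    rw [Matrix.sum_apply]
    rfl
  rw [this]
  exact Sm.sum fun p _ => (sm_jac (h.smooth x hx) p a).mul
    (sm_comp (h := fun z => christoffel g' z i p j) (h.smooth x hx)
      (hg'.sm_christoffel hX' (h.maps x hx) i p j))

theorem Om_omp (hg' : IsMetricOn X' g') (hX' : IsOpen X') (h : Chg U X X' φ g g') (hx : x ∈ U)
    (a b : ι) : Om (omp φ g') x a b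
      = ∑ p, ∑ q, (jac φ x p a * jac φ x q b) • Om (om g') (φ x) p q := by
  have hφ := h.smooth x hx
  have hx' := h.maps x hx
  have hsm : ∀ i p j, Sm (fun z => christoffel g' z i p j) (φ x) := fun i p j =>
    hg'.sm_christoffel hX' hx' i p j
  -- derivative of the pulled back connection
  have h1 : ∀ a b, pdM a (omp φ g' b) x
      = (∑ q, hes φ x q a b • om g' q (φ x))
        + ∑ p, ∑ q, (jac φ x p a * jac φ x q b) • pdM p (om g' q) (φ x) := by
    intro a b
    ext i j
    have e1 : (fun y => omp φ g' b y i j)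
        = fun y => ∑ q, jac φ y q b * christoffel g' (φ y) i q j := by
      funext y
      unfold omp
      rw [Matrix.sum_apply]
      rfl
    have e2 : pdM a (omp φ g' b) x i j = pd a (fun y => omp φ g' b y i j) x := rfl
    rw [e2, e1, pd_sum fun q _ => (sm_jac hφ q b).mul
      (sm_comp (h := fun z => christoffel g' z i q j) hφ (hsm i q j))]
    have e3 : ∀ q, pd a (fun y => jac φ y q b * christoffel g' (φ y) i q j) x
        = hes φ x q a b * christoffel g' (φ x) i q j
          + ∑ p, (jac φ x p a * jac φ x q b) * pd p (fun z => christoffel g' z i q j) (φ x) := by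
      intro q
      rw [pd_mul (sm_jac hφ q b) (sm_comp (h := fun z => christoffel g' z i q j) hφ (hsm i q j)),
        pd_comp (h := fun z => christoffel g' z i q j) hφ (hsm i q j).diff, Finset.mul_sum]
      congr 1
      refine Finset.sum_congr rfl fun p _ => ?_
      ring
    rw [Finset.sum_congr rfl fun q _ => e3 q, Finset.sum_add_distrib, Matrix.add_apply,
      Matrix.sum_apply, Matrix.sum_apply]
    congr 1
    rw [Finset.sum_comm]
    refine Finset.sum_congr rfl fun p _ => ?_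
    rw [Matrix.sum_apply]
    rfl
  have h2 : ∀ a b, omp φ g' a x * omp φ g' b x
      = ∑ p, ∑ q, (jac φ x p a * jac φ x q b) • (om g' p (φ x) * om g' q (φ x)) := by
    intro a b
    unfold omp
    rw [Finset.sum_mul]
    refine Finset.sum_congr rfl fun p _ => ?_
    rw [Finset.mul_sum]
    refine Finset.sum_congr rfl fun q _ => ?_
    rw [smul_mul_smul_comm]
  unfold Om
  rw [h1 a b, h1 b a, h2 a b, h2 b a]
  have e1 : (∑ q, hes φ x q b a • om g' q (φ x)) = ∑ q, hes φ x q a b • om g' q (φ x) :=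
    Finset.sum_congr rfl fun q _ => by rw [hes_symm hφ q b a]
  have e2 : (∑ p, ∑ q, (jac φ x p b * jac φ x q a) • pdM p (om g' q) (φ x))
      = ∑ p, ∑ q, (jac φ x p a * jac φ x q b) • pdM q (om g' p) (φ x) := by
    rw [Finset.sum_comm]
    refine Finset.sum_congr rfl fun p _ => Finset.sum_congr rfl fun q _ => ?_
    rw [mul_comm]
  have e3 : (∑ p, ∑ q, (jac φ x p b * jac φ x q a) • (om g' p (φ x) * om g' q (φ x)))
      = ∑ p, ∑ q, (jac φ x p a * jac φ x q b) • (om g' q (φ x) * om g' p (φ x)) := by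
    rw [Finset.sum_comm]
    refine Finset.sum_congr rfl fun p _ => Finset.sum_congr rfl fun q _ => ?_
    rw [mul_comm]
  rw [e1, e2, e3]
  simp only [smul_sub, smul_add, Finset.sum_sub_distrib, Finset.sum_add_distrib]
  abel

theorem Om_trans (hg : IsMetricOn X g) (hX : IsOpen X) (hg' : IsMetricOn X' g')
    (hX' : IsOpen X') (h : Chg U X X' φ g g') (hx : x ∈ U) (a b : ι) :
    jac φ x * Om (om g) x a b
      = (∑ p, ∑ q, (jac φ x p a * jac φ x q b) • Om (om g') (φ x) p q) * jac φ x := by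
  rw [← Om_omp hg' hX' h hx a b]
  have hj : ∀ y ∈ U, SmM (fun z => jac φ z) y := fun y hy i j => sm_jac (h.smooth y hy) i j
  have hpj : ∀ a, ∀ y ∈ U, SmM (fun z => pdM a (jac φ) z) y := fun a y hy i j =>
    (sm_jac (h.smooth y hy) i j).pd a
  refine gauge (jac φ) (om g) (omp φ g') (hj x hx) (fun a => hpj a x hx) ?_ ?_ ?_ ?_ a b
  · intro a b
    ext i j
    exact pd_comm (sm_jac (h.smooth x hx) i j) a b
  · intro a i j
    exact hg.sm_christoffel hX (h.sub hx) i a j
  · intro a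
    exact sm_omp hg' hX' h hx a
  · intro a
    filter_upwards [h.isOpen.mem_nhds hx] with y hy
    ext d c
    have := christoffel_trans hg (h.sub hy) hg' hX' (h.maps y hy) (h.smooth y hy) (h.ev hy) d a c
    rw [Matrix.mul_apply, Matrix.add_apply, Matrix.mul_apply]
    have e1 : (∑ k, jac φ y d k * om g a y k c) = ∑ k, jac φ y d k * christoffel g y k a c := rfl
    rw [e1, this]
    congr 1
    · rw [Finset.sum_comm]
      refine Finset.sum_congr rfl fun f _ => ?_
      unfold omp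
      rw [Matrix.sum_apply, Finset.sum_mul]
      refine Finset.sum_congr rfl fun e _ => ?_
      rw [Matrix.smul_apply, smul_eq_mul]
      have : om g' e (φ y) d f = christoffel g' (φ y) d e f := rfl
      rw [this]
      ring

/-- transformation law of the Ricci tensor -/
theorem ricci_trans (hg : IsMetricOn X g) (hX : IsOpen X) (hg' : IsMetricOn X' g')
    (hX' : IsOpen X') (h : Chg U X X' φ g g') (hx : x ∈ U) (a b : ι) :
    ricci g x a b = ∑ q, ∑ r, jac φ x q b * jac φ x r a * ricci g' (φ x) r q := by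
  set A := jac φ x with hA
  have hdet : A.det ≠ 0 := by
    intro h0
    have := hg.det_pos (h.sub hx)
    rw [h.compat x hx, Matrix.det_mul, ← hA, h0, mul_zero] at this
    exact lt_irrefl _ this
  have hAu : IsUnit A.det := hdet.isUnit
  rw [hg.ricci_eq hX (h.sub hx)]
  have h1 : ∀ c, Om (om g) x c b
      = ∑ p, ∑ q, (A p c * A q b) • (A⁻¹ * Om (om g') (φ x) p q * A) := by
    intro c
    have := Om_trans hg hX hg' hX' h hx c b
    have h2 : Om (om g) x c b = A⁻¹ * (A * Om (om g) x c b) := by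
      rw [← Matrix.mul_assoc, Matrix.nonsing_inv_mul _ hAu, one_mul]
    rw [h2, this, ← Matrix.mul_assoc, Finset.mul_sum, Finset.sum_mul]
    refine Finset.sum_congr rfl fun p _ => ?_
    rw [Finset.mul_sum, Finset.sum_mul]
    refine Finset.sum_congr rfl fun q _ => ?_
    rw [Matrix.mul_smul, Matrix.smul_mul]
  simp only [h1, Matrix.sum_apply, Matrix.smul_apply, smul_eq_mul]
  simp only [hg'.ricci_eq hX' (h.maps x hx)]
  -- ∑ c p q, A p c * A q b * (A⁻¹ * O p q * A) c a
  have h3 : ∀ p q, (∑ c, A p c * (A⁻¹ * Om (om g') (φ x) p q * A) c a)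
      = ∑ r, Om (om g') (φ x) p q p r * A r a := by
    intro p q
    have e1 : (∑ c, A p c * (A⁻¹ * Om (om g') (φ x) p q * A) c a)
        = (A * (A⁻¹ * Om (om g') (φ x) p q * A)) p a := by rw [Matrix.mul_apply]
    have e2 : A * (A⁻¹ * Om (om g') (φ x) p q * A) = Om (om g') (φ x) p q * A := by
      rw [← Matrix.mul_assoc, ← Matrix.mul_assoc, Matrix.mul_nonsing_inv _ hAu, one_mul]
    rw [e1, e2, Matrix.mul_apply]
  have h4 : (∑ c, ∑ p, ∑ q, A p c * A q b * (A⁻¹ * Om (om g') (φ x) p q * A) c a)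
      = ∑ q, ∑ p, A q b * ∑ c, A p c * (A⁻¹ * Om (om g') (φ x) p q * A) c a := by
    rw [sum3_rot]
    refine Finset.sum_congr rfl fun q _ => ?_
    rw [Finset.sum_comm]
    refine Finset.sum_congr rfl fun p _ => ?_
    rw [Finset.mul_sum]
    refine Finset.sum_congr rfl fun c _ => ?_
    ring
  rw [h4]
  refine Finset.sum_congr rfl fun q _ => ?_
  simp only [h3, Finset.mul_sum]
  rw [Finset.sum_comm]
  refine Finset.sum_congr rfl fun r _ => Finset.sum_congr rfl fun p _ => ?_
  ring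

/-- invariance of the scalar curvature -/
theorem scal_trans (hg : IsMetricOn X g) (hX : IsOpen X) (hg' : IsMetricOn X' g')
    (hX' : IsOpen X') (h : Chg U X X' φ g g') (hx : x ∈ U) :
    scal g x = scal g' (φ x) := by
  have hinv := inv_trans hg (h.sub hx) (h.compat x hx)
  unfold scal
  have hgi : ∀ r q, (g' (φ x))⁻¹ r q
      = ∑ a, ∑ b, jac φ x r a * (g x)⁻¹ a b * jac φ x q b := by
    intro e f
    rw [← hinv, Matrix.mul_apply, Finset.sum_comm]
    refine Finset.sum_congr rfl fun b _ => ?_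
    rw [Matrix.mul_apply, Finset.sum_mul]
    rfl
  have e1 : (∑ a, ∑ b, (g x)⁻¹ a b * ricci g x a b)
      = ∑ a, ∑ b, ∑ q, ∑ r, (jac φ x r a * (g x)⁻¹ a b * jac φ x q b) * ricci g' (φ x) r q := by
    refine Finset.sum_congr rfl fun a _ => Finset.sum_congr rfl fun b _ => ?_
    rw [ricci_trans hg hX hg' hX' h hx, Finset.mul_sum]
    refine Finset.sum_congr rfl fun q _ => ?_
    rw [Finset.mul_sum]
    refine Finset.sum_congr rfl fun r _ => ?_
    ring
  have e2 : (∑ r, ∑ q, (g' (φ x))⁻¹ r q * ricci g' (φ x) r q)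
      = ∑ r, ∑ q, ∑ a, ∑ b, (jac φ x r a * (g x)⁻¹ a b * jac φ x q b) * ricci g' (φ x) r q := by
    refine Finset.sum_congr rfl fun r _ => Finset.sum_congr rfl fun q _ => ?_
    rw [hgi, Finset.sum_mul]
    refine Finset.sum_congr rfl fun a _ => ?_
    rw [Finset.sum_mul]
  rw [e1, e2]
  -- a b q r → r q a b
  rw [s34]
  rw [s23, s12, s34, s23]

end

end Vale.Agent.P223
end
end

section

section

set_option maxSynthPendingDepth 3

namespace Vale.Agent.P223

open scoped Matrix ContDiff Topology Manifold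
open Finset MeasureTheory

variable {ι : Type} [Fintype ι] [DecidableEq ι]

section

variable {M : Type} [TopologicalSpace M] [ChartedSpace (ι → ℝ) M]

omit [DecidableEq ι] in
theorem trans_smooth [IsManifold 𝓘(ℝ, ι → ℝ) ∞ M] {e e' : OpenPartialHomeomorph M (ι → ℝ)}
    (he : e ∈ atlas (ι → ℝ) M) (he' : e' ∈ atlas (ι → ℝ) M) :
    ContDiffOn ℝ ∞ (e.symm.trans e') (e.symm.trans e').source := by
  have h := (contDiffGroupoid ∞ 𝓘(ℝ, ι → ℝ)).compatible he he'
  exact contMDiffOn_iff_contDiffOn.mp (contMDiffOn_of_mem_contDiffGroupoid h)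

omit [DecidableEq ι] in
theorem trans_smoothAt [IsManifold 𝓘(ℝ, ι → ℝ) ∞ M] {e e' : OpenPartialHomeomorph M (ι → ℝ)}
    (he : e ∈ atlas (ι → ℝ) M) (he' : e' ∈ atlas (ι → ℝ) M) {x : ι → ℝ}
    (hx : x ∈ (e.symm.trans e').source) : ContDiffAt ℝ ∞ (e.symm.trans e') x :=
  (trans_smooth he he').contDiffAt ((e.symm.trans e').open_source.mem_nhds hx)

theorem RMetric.chg (g : RMetric ι M) [IsManifold 𝓘(ℝ, ι → ℝ) ∞ M]
    {e e' : OpenPartialHomeomorph M (ι → ℝ)}
    (he : e ∈ atlas (ι → ℝ) M) (he' : e' ∈ atlas (ι → ℝ) M) :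
    Chg (e.symm.trans e').source e.target e'.target (e.symm.trans e') (g.mat e) (g.mat e') where
  isOpen := (e.symm.trans e').open_source
  sub := by
    intro x hx
    rw [OpenPartialHomeomorph.trans_source] at hx
    exact hx.1
  maps := by
    intro x hx
    have h1 := (e.symm.trans e').map_source hx
    rw [OpenPartialHomeomorph.trans_target] at h1
    exact h1.1
  smooth := fun y hy => trans_smoothAt he he' hy
  compat := fun y hy => g.compat e he e' he' y hy

omit [Fintype ι] [DecidableEq ι] [ChartedSpace (ι → ℝ) M] in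
theorem mem_trans_source {e e' : OpenPartialHomeomorph M (ι → ℝ)} {p : M}
    (hp : p ∈ e.source) (hp' : p ∈ e'.source) : e p ∈ (e.symm.trans e').source := by
  rw [OpenPartialHomeomorph.trans_source]
  refine ⟨e.map_source hp, ?_⟩
  simp only [Set.mem_preimage]
  rw [e.left_inv hp]
  exact hp'

omit [Fintype ι] [DecidableEq ι] [ChartedSpace (ι → ℝ) M] in
theorem trans_apply_coe {e e' : OpenPartialHomeomorph M (ι → ℝ)} {p : M}
    (hp : p ∈ e.source) : (e.symm.trans e') (e p) = e' p := by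
  rw [OpenPartialHomeomorph.coe_trans, Function.comp_apply, e.left_inv hp]

theorem RMetric.scalar_eq (g : RMetric ι M) [IsManifold 𝓘(ℝ, ι → ℝ) ∞ M]
    {e : OpenPartialHomeomorph M (ι → ℝ)} (he : e ∈ atlas (ι → ℝ) M) {p : M} (hp : p ∈ e.source) :
    g.scalar p = scal (g.mat e) (e p) := by
  have hc := chart_mem_atlas (ι → ℝ) p
  have hpc := mem_chart_source (ι → ℝ) p
  have h := g.chg he hc
  have hx : e p ∈ (e.symm.trans (chartAt (ι → ℝ) p)).source := mem_trans_source hp hpc
  have := scal_trans (g.isMetric e he) e.open_target (g.isMetric _ hc)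
    (chartAt (ι → ℝ) p).open_target h hx
  rw [trans_apply_coe hp] at this
  exact this.symm

/-- a finite smooth partition of unity subordinate to charts -/
structure PU (ι : Type) [Fintype ι] (M : Type) [TopologicalSpace M]
    [ChartedSpace (ι → ℝ) M] where
  s : Finset M
  χ : M → M → ℝ
  nonneg : ∀ j p, 0 ≤ χ j p
  supp : ∀ j, tsupport (χ j) ⊆ (chartAt (ι → ℝ) j).source
  cont : ∀ j, Continuous (χ j)
  smooth : ∀ j, ∀ e ∈ atlas (ι → ℝ) M, ContDiffOn ℝ ∞ (fun x => χ j (e.symm x)) e.target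
  sum_eq : ∀ p, ∑ j ∈ s, χ j p = 1

theorem exists_PU (ι : Type) [Fintype ι] (M : Type) [TopologicalSpace M]
    [ChartedSpace (ι → ℝ) M] [IsManifold 𝓘(ℝ, ι → ℝ) ∞ M] [CompactSpace M] [T2Space M] :
    Nonempty (PU ι M) := by
  obtain ⟨f, hf⟩ := SmoothPartitionOfUnity.exists_isSubordinate 𝓘(ℝ, ι → ℝ)
    (isClosed_univ (X := M)) (fun p : M => (chartAt (ι → ℝ) p).source)
    (fun p => (chartAt (ι → ℝ) p).open_source)
    (fun p _ => Set.mem_iUnion.mpr ⟨p, mem_chart_source (ι → ℝ) p⟩)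
  have hfin : {i | (Function.support (f i) ∩ Set.univ).Nonempty}.Finite :=
    f.locallyFinite.finite_nonempty_inter_compact isCompact_univ
  have hfin' : {i | (Function.support (f i)).Nonempty}.Finite := by
    simpa only [Function.support_nonempty_iff, ne_eq, Set.inter_univ] using hfin
  refine ⟨⟨hfin'.toFinset, fun j p => f j p, fun j p => f.nonneg j p, fun j => hf j,
    fun j => (f j).contMDiff.continuous, ?_, ?_⟩⟩
  · intro j e he
    have h1 : ContMDiff 𝓘(ℝ, ι → ℝ) 𝓘(ℝ, ℝ) ∞ (f j) := (f j).contMDiff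
    have h2 : ContMDiffOn 𝓘(ℝ, ι → ℝ) 𝓘(ℝ, ι → ℝ) ∞ e.symm e.target :=
      contMDiffOn_symm_of_mem_maximalAtlas (IsManifold.subset_maximalAtlas he)
    exact contMDiffOn_iff_contDiffOn.mp (h1.comp_contMDiffOn h2)
  · intro p
    rw [← f.sum_eq_one (Set.mem_univ p)]
    rw [finsum_eq_sum_of_support_subset]
    intro j hj
    rw [Set.Finite.coe_toFinset]
    exact ⟨p, hj⟩

end

end Vale.Agent.P223
end
end

section

section

set_option maxSynthPendingDepth 3

namespace Vale.Agent.P223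

open scoped Matrix ContDiff Topology Manifold
open Finset MeasureTheory

variable {ι : Type} [Fintype ι] [DecidableEq ι]

section

variable {M : Type} [TopologicalSpace M] [ChartedSpace (ι → ℝ) M] [MeasurableSpace M]

theorem dens_continuousOn (g : RMetric ι M) {e : OpenPartialHomeomorph M (ι → ℝ)}
    (he : e ∈ atlas (ι → ℝ) M) : ContinuousOn (dens (g.mat e)) e.target := fun x hx =>
  ((g.isMetric e he).sm_dens e.open_target hx).continuousAt.continuousWithinAt

/-- the coordinate measure -/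
noncomputable def nu (g : RMetric ι M) (e : OpenPartialHomeomorph M (ι → ℝ)) :
    Measure (ι → ℝ) :=
  (volume.restrict e.target).withDensity (fun x => ENNReal.ofReal (dens (g.mat e) x))

variable [BorelSpace M]

theorem aemeas_symm (g : RMetric ι M) (e : OpenPartialHomeomorph M (ι → ℝ)) :
    AEMeasurable e.symm (nu g e) := by
  have h1 : AEMeasurable e.symm (volume.restrict e.target) :=
    e.continuousOn_symm.aemeasurable e.open_target.measurableSet
  exact h1.mono_ac (withDensity_absolutelyContinuous _ _)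

theorem IsVol.restrict_eq {g : RMetric ι M} {μ : Measure M} (hμ : IsVol g μ)
    {e : OpenPartialHomeomorph M (ι → ℝ)} (he : e ∈ atlas (ι → ℝ) M) :
    μ.restrict e.source = (nu g e).map e.symm := by
  ext A hA
  rw [Measure.restrict_apply hA, Measure.map_apply_of_aemeasurable (aemeas_symm g e) hA]
  rw [hμ e he (A ∩ e.source) (hA.inter e.open_source.measurableSet) Set.inter_subset_right]
  unfold nu
  rw [withDensity_apply', Measure.restrict_restrict' e.open_target.measurableSet]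
  have : e '' (A ∩ e.source) = e.symm ⁻¹' A ∩ e.target := by
    ext x
    constructor
    · rintro ⟨p, ⟨hpA, hpe⟩, rfl⟩
      refine ⟨?_, e.map_source hpe⟩
      simp only [Set.mem_preimage]
      rw [e.left_inv hpe]
      exact hpA
    · rintro ⟨h1, h2⟩
      exact ⟨e.symm x, ⟨h1, e.map_target h2⟩, e.right_inv h2⟩
  rw [this]

theorem IsVol.setLIntegral {g : RMetric ι M} {μ : Measure M} (hμ : IsVol g μ)
    {e : OpenPartialHomeomorph M (ι → ℝ)} (he : e ∈ atlas (ι → ℝ) M) {F : M → ENNReal}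
    (hF : Measurable F) :
    ∫⁻ p in e.source, F p ∂μ
      = ∫⁻ x in e.target, ENNReal.ofReal (dens (g.mat e) x) * F (e.symm x) := by
  rw [hμ.restrict_eq he, lintegral_map' hF.aemeasurable (aemeas_symm g e)]
  unfold nu
  have hm : AEMeasurable (fun x => ENNReal.ofReal (dens (g.mat e) x))
      (volume.restrict e.target) :=
    ((dens_continuousOn g he).aemeasurable e.open_target.measurableSet).ennreal_ofReal
  have hm2 : AEMeasurable (fun x => F (e.symm x)) (volume.restrict e.target) :=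
    hF.comp_aemeasurable (e.continuousOn_symm.aemeasurable e.open_target.measurableSet)
  rw [lintegral_withDensity_eq_lintegral_mul₀ hm hm2]
  rfl

theorem IsVol.setIntegral {g : RMetric ι M} {μ : Measure M} (hμ : IsVol g μ)
    {e : OpenPartialHomeomorph M (ι → ℝ)} (he : e ∈ atlas (ι → ℝ) M) {F : M → ℝ}
    (hF : Continuous F) :
    ∫ p in e.source, F p ∂μ = ∫ x in e.target, dens (g.mat e) x * F (e.symm x) := by
  rw [hμ.restrict_eq he, integral_map (aemeas_symm g e) hF.aestronglyMeasurable]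
  unfold nu
  have hm : AEMeasurable (fun x => ENNReal.ofReal (dens (g.mat e) x))
      (volume.restrict e.target) :=
    ((dens_continuousOn g he).aemeasurable e.open_target.measurableSet).ennreal_ofReal
  rw [integral_withDensity_eq_integral_toReal_smul₀ hm
    (Filter.Eventually.of_forall fun x => ENNReal.ofReal_lt_top)]
  refine setIntegral_congr_fun e.open_target.measurableSet fun x hx => ?_
  simp only [smul_eq_mul]
  rw [ENNReal.toReal_ofReal ((g.isMetric e he).dens_pos hx).le]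

theorem IsVol.compact_lt_top {g : RMetric ι M} {μ : Measure M} (hμ : IsVol g μ)
    {e : OpenPartialHomeomorph M (ι → ℝ)} (he : e ∈ atlas (ι → ℝ) M) {K : Set M}
    (hK : IsCompact K) (hKm : MeasurableSet K) (hKe : K ⊆ e.source) : μ K < ⊤ := by
  rw [hμ e he K hKm hKe]
  have hc : IsCompact (e '' K) := hK.image_of_continuousOn (e.continuousOn.mono hKe)
  have hsub : e '' K ⊆ e.target := by
    rintro _ ⟨p, hp, rfl⟩
    exact e.map_source (hKe hp)
  have hi : IntegrableOn (dens (g.mat e)) (e '' K) :=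
    ((dens_continuousOn g he).mono hsub).integrableOn_compact hc
  have := hi.2
  have h2 : (∫⁻ x in e '' K, ENNReal.ofReal (dens (g.mat e) x))
      ≤ ∫⁻ x in e '' K, ‖dens (g.mat e) x‖ₑ := by
    refine lintegral_mono fun x => ?_
    exact Real.ofReal_le_enorm _
  exact lt_of_le_of_lt h2 this

theorem IsVol.isFiniteMeasure {g : RMetric ι M} {μ : Measure M} (hμ : IsVol g μ)
    [IsManifold 𝓘(ℝ, ι → ℝ) ∞ M] [CompactSpace M] [T2Space M] : IsFiniteMeasure μ := by
  obtain ⟨P⟩ := exists_PU ι M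
  refine ⟨?_⟩
  have hsub : (Set.univ : Set M) ⊆ ⋃ j ∈ P.s, tsupport (P.χ j) := by
    intro p _
    have h1 := P.sum_eq p
    by_contra hcon
    have h2 : ∀ j ∈ P.s, P.χ j p = 0 := by
      intro j hj
      by_contra hne
      apply hcon
      exact Set.mem_iUnion₂.mpr ⟨j, hj, subset_tsupport _ hne⟩
    rw [Finset.sum_eq_zero h2] at h1
    exact zero_ne_one h1
  calc μ Set.univ ≤ μ (⋃ j ∈ P.s, tsupport (P.χ j)) := measure_mono hsub
    _ ≤ ∑ j ∈ P.s, μ (tsupport (P.χ j)) := measure_biUnion_finset_le _ _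
    _ < ⊤ := by
      refine ENNReal.sum_lt_top.mpr fun j _ => ?_
      exact hμ.compact_lt_top (chart_mem_atlas _ j) (isClosed_tsupport _).isCompact
        (isClosed_tsupport _).measurableSet (P.supp j)

end

/-- products of compactly supported functions with functions continuous near the support -/
theorem cs_mul {T : Set (ι → ℝ)} {f G : (ι → ℝ) → ℝ} (hf : Continuous f)
    (hcs : HasCompactSupport f) (hT : IsOpen T) (hsub : tsupport f ⊆ T) (hG : ContinuousOn G T) :
    Continuous (fun x => f x * G x) ∧ HasCompactSupport (fun x => f x * G x) := by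
  refine ⟨?_, hcs.mul_right⟩
  rw [continuous_iff_continuousAt]
  intro x
  by_cases hx : x ∈ T
  · exact hf.continuousAt.mul (hG.continuousAt (hT.mem_nhds hx))
  · have hx' : x ∈ (tsupport f)ᶜ := fun h => hx (hsub h)
    have hev : (fun y => f y * G y) =ᶠ[𝓝 x] fun _ => 0 := by
      filter_upwards [(isClosed_tsupport f).isOpen_compl.mem_nhds hx'] with y hy
      rw [image_eq_zero_of_notMem_tsupport hy, zero_mul]
    exact (continuousAt_const (y := (0:ℝ))).congr hev.symm

theorem cs_integrable {T : Set (ι → ℝ)} {f G : (ι → ℝ) → ℝ} (hf : Continuous f)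
    (hcs : HasCompactSupport f) (hT : IsOpen T) (hsub : tsupport f ⊆ T) (hG : ContinuousOn G T) :
    Integrable (fun x => f x * G x) := by
  obtain ⟨h1, h2⟩ := cs_mul hf hcs hT hsub hG
  exact h1.integrable_of_hasCompactSupport h2

end Vale.Agent.P223
end
end

section

section

set_option maxSynthPendingDepth 3

namespace Vale.Agent.P223

open scoped Matrix ContDiff Topology Manifold
open Finset MeasureTheory

variable {ι : Type} [Fintype ι] [DecidableEq ι]

section
variable {X : Set (ι → ℝ)} {g : (ι → ℝ) → Matrix ι ι ℝ} {x : ι → ℝ}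

theorem IsMetricOn.sm_ricci (hg : IsMetricOn X g) (hX : IsOpen X) (hx : x ∈ X) (a b : ι) :
    Sm (fun y => ricci g y a b) x := by
  unfold ricci
  exact (Sm.sum fun c _ => ((hg.sm_christoffel hX hx c a b).pd c).sub
    ((hg.sm_christoffel hX hx c a c).pd b)).add
    (Sm.sum fun c _ => Sm.sum fun d _ =>
      ((hg.sm_christoffel hX hx c c d).mul (hg.sm_christoffel hX hx d a b)).sub
      ((hg.sm_christoffel hX hx c b d).mul (hg.sm_christoffel hX hx d a c)))

theorem IsMetricOn.sm_scal (hg : IsMetricOn X g) (hX : IsOpen X) (hx : x ∈ X) :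
    Sm (scal g) x := by
  unfold scal
  exact Sm.sum fun a _ => Sm.sum fun b _ => (hg.sm_inv hX hx a b).mul (hg.sm_ricci hX hx a b)

end

section
variable {M : Type} [TopologicalSpace M] [ChartedSpace (ι → ℝ) M]

omit [Fintype ι] [DecidableEq ι] in
theorem continuous_of_charts {F : M → ℝ}
    (h : ∀ e ∈ atlas (ι → ℝ) M, ContinuousOn (fun x => F (e.symm x)) e.target) :
    Continuous F := by
  rw [continuous_iff_continuousAt]
  intro p
  set e := chartAt (ι → ℝ) p with he
  have hp : p ∈ e.source := mem_chart_source _ p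
  have h1 : ContinuousAt (fun x => F (e.symm x)) (e p) :=
    (h e (chart_mem_atlas _ p)).continuousAt (e.open_target.mem_nhds (e.map_source hp))
  have h2 : ContinuousAt (fun q => F (e.symm (e q))) p :=
    ContinuousAt.comp (f := e) (g := fun x => F (e.symm x)) h1 (e.continuousAt hp)
  refine h2.congr ?_
  filter_upwards [e.open_source.mem_nhds hp] with q hq
  rw [e.left_inv hq]

theorem RMetric.continuous_scalar (g : RMetric ι M) [IsManifold 𝓘(ℝ, ι → ℝ) ∞ M] :
    Continuous g.scalar := by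
  refine continuous_of_charts (ι := ι) fun e he => ?_
  intro x hx
  have h1 : ContinuousAt (scal (g.mat e)) x :=
    ((g.isMetric e he).sm_scal e.open_target hx).continuousAt
  refine ContinuousAt.continuousWithinAt ?_
  refine h1.congr ?_
  filter_upwards [e.open_target.mem_nhds hx] with y hy
  rw [g.scalar_eq he (e.map_target hy), e.right_inv hy]

omit [Fintype ι] [DecidableEq ι] [ChartedSpace (ι → ℝ) M] in
/-- gluing a function given in a chart by zero -/
theorem glue_continuous (e : OpenPartialHomeomorph M (ι → ℝ)) {K : Set M} (hK : IsClosed K)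
    (hKe : K ⊆ e.source) {G : (ι → ℝ) → ℝ} (hG : ContinuousOn G e.target)
    (h0 : ∀ p ∈ e.source, p ∉ K → G (e p) = 0) :
    Continuous (fun p => open Classical in if p ∈ e.source then G (e p) else 0) := by
  classical
  rw [continuous_iff_continuousAt]
  intro p
  by_cases hp : p ∈ e.source
  · have h1 : ContinuousAt (fun q => G (e q)) p :=
      ContinuousAt.comp (f := e) (g := G)
        (hG.continuousAt (e.open_target.mem_nhds (e.map_source hp))) (e.continuousAt hp)
    refine h1.congr ?_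
    filter_upwards [e.open_source.mem_nhds hp] with q hq
    rw [if_pos hq]
  · have hp' : p ∈ Kᶜ := fun h => hp (hKe h)
    refine (continuousAt_const (y := (0:ℝ))).congr ?_
    filter_upwards [hK.isOpen_compl.mem_nhds hp'] with q hq
    by_cases hqe : q ∈ e.source
    · rw [if_pos hqe, h0 q hqe hq]
    · rw [if_neg hqe]

/-- the coordinate expression of a function, extended by zero -/
noncomputable def ext0 (e : OpenPartialHomeomorph M (ι → ℝ)) (χ : M → ℝ) (x : ι → ℝ) : ℝ :=
  open Classical in if x ∈ e.target then χ (e.symm x) else 0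

omit [Fintype ι] [DecidableEq ι] [ChartedSpace (ι → ℝ) M] in
theorem ext0_of_mem (e : OpenPartialHomeomorph M (ι → ℝ)) (χ : M → ℝ) {x : ι → ℝ}
    (hx : x ∈ e.target) : ext0 e χ x = χ (e.symm x) := by
  unfold ext0; rw [if_pos hx]

omit [Fintype ι] [DecidableEq ι] [ChartedSpace (ι → ℝ) M] in
theorem ext0_of_notMem (e : OpenPartialHomeomorph M (ι → ℝ)) (χ : M → ℝ) {x : ι → ℝ}
    (hx : x ∉ e.target) : ext0 e χ x = 0 := by
  unfold ext0; rw [if_neg hx]

theorem tsupport_ext0 [CompactSpace M] (e : OpenPartialHomeomorph M (ι → ℝ)) {χ : M → ℝ}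
    (hχ : tsupport χ ⊆ e.source) :
    IsCompact (e '' tsupport χ) ∧ tsupport (ext0 e χ) ⊆ e '' tsupport χ ∧
      e '' tsupport χ ⊆ e.target := by
  have hc : IsCompact (e '' tsupport χ) :=
    (isClosed_tsupport χ).isCompact.image_of_continuousOn (e.continuousOn.mono hχ)
  refine ⟨hc, ?_, ?_⟩
  · refine closure_minimal ?_ hc.isClosed
    intro x hx
    by_cases hxt : x ∈ e.target
    · have h1 : χ (e.symm x) ≠ 0 := by
        rw [← ext0_of_mem e χ hxt]
        exact hx
      exact ⟨e.symm x, subset_tsupport _ h1, e.right_inv hxt⟩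
    · exact absurd (ext0_of_notMem e χ hxt) hx
  · rintro _ ⟨p, hp, rfl⟩
    exact e.map_source (hχ hp)

theorem ext0_cs [CompactSpace M] (e : OpenPartialHomeomorph M (ι → ℝ)) {χ : M → ℝ}
    (hχ : tsupport χ ⊆ e.source) : HasCompactSupport (ext0 e χ) := by
  obtain ⟨h1, h2, h3⟩ := tsupport_ext0 e hχ
  exact h1.of_isClosed_subset (isClosed_tsupport _) h2

theorem ext0_smooth [CompactSpace M] (e : OpenPartialHomeomorph M (ι → ℝ)) {χ : M → ℝ}
    (hχ : tsupport χ ⊆ e.source) (hs : ContDiffOn ℝ ∞ (fun x => χ (e.symm x)) e.target) :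
    ContDiff ℝ ∞ (ext0 e χ) := by
  obtain ⟨h1, h2, h3⟩ := tsupport_ext0 e hχ
  rw [contDiff_iff_contDiffAt]
  intro x
  by_cases hx : x ∈ e.target
  · have h4 : ContDiffAt ℝ ∞ (fun x => χ (e.symm x)) x :=
      hs.contDiffAt (e.open_target.mem_nhds hx)
    refine h4.congr_of_eventuallyEq ?_
    filter_upwards [e.open_target.mem_nhds hx] with y hy
    rw [ext0_of_mem e χ hy]
  · have hx' : x ∈ (tsupport (ext0 e χ))ᶜ := fun h => hx (h3 (h2 h))
    refine (contDiffAt_const (c := (0:ℝ))).congr_of_eventuallyEq ?_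
    filter_upwards [(isClosed_tsupport _).isOpen_compl.mem_nhds hx'] with y hy
    exact image_eq_zero_of_notMem_tsupport hy

end

/-- integration by parts for the divergence -/
theorem integral_div {T : Set (ι → ℝ)} (hT : IsOpen T) {f : (ι → ℝ) → ℝ} (hf : ContDiff ℝ ∞ f)
    (hcs : HasCompactSupport f) (hsub : tsupport f ⊆ T) {Z : ι → (ι → ℝ) → ℝ}
    (hZ : ∀ c, ∀ x ∈ T, Sm (Z c) x) :
    ∫ x, f x * ∑ c, pd c (Z c) x = - ∫ x, ∑ c, pd c f x * Z c x := by
  have hpf : ∀ c, Continuous (fun x => pd c f x) := by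
    intro c
    unfold pd
    exact (hf.continuous_fderiv (by simp)).clm_apply continuous_const
  have hpfs : ∀ c, tsupport (fun x => pd c f x) ⊆ tsupport f := by
    intro c
    refine (closure_minimal ?_ (isClosed_tsupport f))
    intro x hx
    by_contra hcon
    apply hx
    have : f =ᶠ[𝓝 x] fun _ => 0 := by
      filter_upwards [(isClosed_tsupport f).isOpen_compl.mem_nhds hcon] with y hy
      exact image_eq_zero_of_notMem_tsupport hy
    show pd c f x = 0
    rw [pd_congr this, pd_const]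
  have hpfc : ∀ c, HasCompactSupport (fun x => pd c f x) := fun c =>
    hcs.isCompact.of_isClosed_subset (isClosed_tsupport _) (hpfs c)
  have hZc : ∀ c, ContinuousOn (Z c) T := fun c x hx => (hZ c x hx).continuousAt.continuousWithinAt
  have hpZc : ∀ c, ContinuousOn (fun x => pd c (Z c) x) T := fun c x hx =>
    ((hZ c x hx).pd c).continuousAt.continuousWithinAt
  have i1 : ∀ c, Integrable (fun x => f x * pd c (Z c) x) := fun c =>
    cs_integrable hf.continuous hcs hT hsub (hpZc c)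
  have i2 : ∀ c, Integrable (fun x => pd c f x * Z c x) := fun c =>
    cs_integrable (hpf c) (hpfc c) hT ((hpfs c).trans hsub) (hZc c)
  have i3 : ∀ c, Integrable (fun x => f x * Z c x) := fun c =>
    cs_integrable hf.continuous hcs hT hsub (hZc c)
  have key : ∀ c, ∫ x, f x * pd c (Z c) x = - ∫ x, pd c f x * Z c x := by
    intro c
    refine integral_mul_fderiv_eq_neg_fderiv_mul_of_integrable (i2 c) (i1 c) (i3 c) ?_ ?_
    · intro x _
      exact hf.differentiable (by simp) x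
    · intro x hx
      exact (hZ c x (hsub hx)).diff
  simp only [Finset.mul_sum]
  rw [integral_finsetSum _ fun c _ => i1 c, integral_finsetSum _ fun c _ => i2 c]
  rw [← Finset.sum_neg_distrib]
  exact Finset.sum_congr rfl fun c _ => key c

end Vale.Agent.P223
end
end

section

section

set_option maxSynthPendingDepth 3

namespace Vale.Agent.P223

open scoped Matrix ContDiff Topology Manifold
open Finset MeasureTheory

variable {ι : Type} [Fintype ι] [DecidableEq ι]

section

variable {M : Type} [TopologicalSpace M] [ChartedSpace (ι → ℝ) M] [MeasurableSpace M]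
  [BorelSpace M] [IsManifold 𝓘(ℝ, ι → ℝ) ∞ M] [CompactSpace M] [T2Space M]

/-- the vector field paired with the differential of a cutoff function -/
noncomputable def YY (g : RMetric ι M)
    (f0 : OpenPartialHomeomorph M (ι → ℝ) → (ι → ℝ) → ℝ) (Φ : M → ℝ)
    (e : OpenPartialHomeomorph M (ι → ℝ)) (χ : M → ℝ) (p : M) : ℝ :=
  open Classical in if p ∈ e.source then
    Real.exp (-(kk ι * Φ (e.symm (e p)))) *
      ∑ c, pd c (ext0 e χ) (e p) * WW (g.mat e) (f0 e) c (e p) else 0

theorem pd_ext0_zero (e : OpenPartialHomeomorph M (ι → ℝ)) {χ : M → ℝ}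
    (hχ : tsupport χ ⊆ e.source) (c : ι) {x : ι → ℝ} (hx : x ∉ e '' tsupport χ) :
    pd c (ext0 e χ) x = 0 := by
  obtain ⟨h1, h2, h3⟩ := tsupport_ext0 e hχ
  have : ext0 e χ =ᶠ[𝓝 x] fun _ => 0 := by
    filter_upwards [(isClosed_tsupport (ext0 e χ)).isOpen_compl.mem_nhds (fun h => hx (h2 h))]
      with y hy
    exact image_eq_zero_of_notMem_tsupport hy
  rw [pd_congr this, pd_const]

section chart

variable {g : RMetric ι M} {μ : Measure M} {J : Matrix ι ι ℝ}
  {f0 : OpenPartialHomeomorph M (ι → ℝ) → (ι → ℝ) → ℝ} {Φ : M → ℝ}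
  {e : OpenPartialHomeomorph M (ι → ℝ)} {χ : M → ℝ}

theorem Phi_continuous (h0 : ∀ e ∈ atlas (ι → ℝ) M, ∀ x ∈ e.target, Sm (f0 e) x)
    (hΦ : ∀ e ∈ atlas (ι → ℝ) M, ∀ p ∈ e.source, FF (g.mat e) (f0 e) (e p) = Φ p) :
    Continuous Φ := by
  refine continuous_of_charts (ι := ι) fun e he => ?_
  intro x hx
  refine ContinuousAt.continuousWithinAt ?_
  refine ((g.isMetric e he).sm_FF e.open_target hx (h0 e he x hx)).continuousAt.congr ?_
  filter_upwards [e.open_target.mem_nhds hx] with y hy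
  rw [← hΦ e he _ (e.map_target hy), e.right_inv hy]

theorem YY_continuous (h0 : ∀ e ∈ atlas (ι → ℝ) M, ∀ x ∈ e.target, Sm (f0 e) x)
    (hΦ : ∀ e ∈ atlas (ι → ℝ) M, ∀ p ∈ e.source, FF (g.mat e) (f0 e) (e p) = Φ p)
    (he : e ∈ atlas (ι → ℝ) M) (hχ : tsupport χ ⊆ e.source)
    (hs : ContDiffOn ℝ ∞ (fun x => χ (e.symm x)) e.target) :
    Continuous (YY g f0 Φ e χ) := by
  have hΦc := Phi_continuous h0 hΦ
  have hE := ext0_smooth e hχ hs
  refine glue_continuous e (isClosed_tsupport χ) hχ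
    (G := fun x => Real.exp (-(kk ι * Φ (e.symm x))) *
      ∑ c, pd c (ext0 e χ) x * WW (g.mat e) (f0 e) c x) ?_ ?_
  · refine ContinuousOn.mul ?_ ?_
    · exact Real.continuous_exp.comp_continuousOn
        (continuousOn_const.mul (hΦc.comp_continuousOn e.continuousOn_symm)).neg
    · refine continuousOn_finsetSum _ fun c _ => ?_
      refine ContinuousOn.mul ?_ ?_
      · have : Continuous (fun x => pd c (ext0 e χ) x) := by
          unfold pd
          exact (hE.continuous_fderiv (by simp)).clm_apply continuous_const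
        exact this.continuousOn
      · intro x hx
        exact ((g.isMetric e he).sm_WW e.open_target hx (h0 e he x hx) c).continuousAt.continuousWithinAt
  · intro p hp hpK
    have hx : e p ∉ e '' tsupport χ := by
      rintro ⟨q, hq, hqe⟩
      have : q = p := e.injOn (hχ hq) hp hqe
      exact hpK (this ▸ hq)
    have : ∀ c, pd c (ext0 e χ) (e p) = 0 := fun c => pd_ext0_zero e hχ c hx
    simp only [this, zero_mul, Finset.sum_const_zero, mul_zero]

/-- the inequality in one chart -/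
theorem chart_ineq (hμ : IsVol g μ) (hJ : J * J = -1)
    (hH : ∀ e ∈ atlas (ι → ℝ) M, ∀ x ∈ e.target, Jᵀ * g.mat e x * J = g.mat e x)
    (hn : 2 ≤ Fintype.card ι)
    (h0 : ∀ e ∈ atlas (ι → ℝ) M, ∀ x ∈ e.target, Sm (f0 e) x)
    (hΦ : ∀ e ∈ atlas (ι → ℝ) M, ∀ p ∈ e.source, FF (g.mat e) (f0 e) (e p) = Φ p)
    (he : e ∈ atlas (ι → ℝ) M) (hχ : tsupport χ ⊆ e.source) (hχ0 : ∀ p, 0 ≤ χ p)
    (hχc : Continuous χ)
    (hs : ContDiffOn ℝ ∞ (fun x => χ (e.symm x)) e.target)
    {H : M → ℝ} (hHc : Continuous H)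
    (hHl : ∀ p ∈ tsupport χ, H p ≤ ∑ c, ∑ d, (g.mat e (e p))⁻¹ c d *
      pd c (fun y => pd d (f0 e) y) (e p)) :
    ∫ p, χ p * (Real.exp (-(kk ι * Φ p)) * (g.scalar p + H p)) ∂μ
      ≤ - ∫ p, YY g f0 Φ e χ p ∂μ := by
  obtain ⟨hc1, hc2, hc3⟩ := tsupport_ext0 e hχ
  have hE := ext0_smooth e hχ hs
  have hEcs := ext0_cs e hχ
  have hEsub : tsupport (ext0 e χ) ⊆ e.target := hc2.trans hc3
  have hΦc := Phi_continuous h0 hΦ
  have hSc := g.continuous_scalar
  have hg := g.isMetric e he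
  have hρc : Continuous (fun p => Real.exp (-(kk ι * Φ p)) * (g.scalar p + H p)) :=
    (Real.continuous_exp.comp (continuous_const.mul hΦc).neg).mul (hSc.add hHc)
  -- left hand side in the chart
  set G1 : (ι → ℝ) → ℝ := fun x => dens (g.mat e) x * (Real.exp (-(kk ι * Φ (e.symm x)))
    * (g.scalar (e.symm x) + H (e.symm x))) with hG1
  have hG1c : ContinuousOn G1 e.target :=
    (dens_continuousOn g he).mul (hρc.comp_continuousOn e.continuousOn_symm)
  have hL : ∫ p, χ p * (Real.exp (-(kk ι * Φ p)) * (g.scalar p + H p)) ∂μ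
      = ∫ x, ext0 e χ x * G1 x := by
    have e1 : ∫ p, χ p * (Real.exp (-(kk ι * Φ p)) * (g.scalar p + H p)) ∂μ
        = ∫ p in e.source, χ p * (Real.exp (-(kk ι * Φ p)) * (g.scalar p + H p)) ∂μ := by
      symm
      refine setIntegral_eq_integral_of_forall_compl_eq_zero fun p hp => ?_
      have : χ p = 0 := image_eq_zero_of_notMem_tsupport fun h => hp (hχ h)
      rw [this, zero_mul]
    have e0 := hμ.setIntegral he
      (F := fun p => χ p * (Real.exp (-(kk ι * Φ p)) * (g.scalar p + H p))) (hχc.mul hρc)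
    rw [e1, e0]
    have e2 : ∫ x, ext0 e χ x * G1 x = ∫ x in e.target, ext0 e χ x * G1 x := by
      symm
      refine setIntegral_eq_integral_of_forall_compl_eq_zero fun x hx => ?_
      rw [ext0_of_notMem e χ hx, zero_mul]
    rw [e2]
    refine setIntegral_congr_fun e.open_target.measurableSet fun x hx => ?_
    simp only [hG1]
    rw [ext0_of_mem e χ hx]
    ring
  -- the divergence term
  have hZs : ∀ c, ∀ x ∈ e.target, Sm (ZZ (g.mat e) (f0 e) c) x := fun c x hx =>
    hg.sm_ZZ e.open_target hx (h0 e he x hx) c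
  have hdiv := integral_div e.open_target hE hEcs hEsub hZs
  have hle : ∫ x, ext0 e χ x * G1 x
      ≤ ∫ x, ext0 e χ x * ∑ c, pd c (ZZ (g.mat e) (f0 e) c) x := by
    refine integral_mono (cs_integrable hE.continuous hEcs e.open_target hEsub hG1c)
      (cs_integrable hE.continuous hEcs e.open_target hEsub ?_) ?_
    · refine continuousOn_finsetSum _ fun c _ => ?_
      intro x hx
      exact ((hZs c x hx).pd c).continuousAt.continuousWithinAt
    · intro x
      simp only
      by_cases hx : x ∈ e '' tsupport χ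
      · obtain ⟨p, hp, rfl⟩ := hx
        have hpe := hχ hp
        have hxt := e.map_source hpe
        rw [ext0_of_mem e χ hxt]
        refine mul_le_mul_of_nonneg_left ?_ (hχ0 _)
        have hloc := local_ineq0 hg e.open_target hxt hJ (hH e he) hn (h0 e he)
        rw [hΦ e he p hpe] at hloc
        simp only [hG1]
        rw [e.left_inv hpe, g.scalar_eq he hpe]
        have hHp := hHl p hp
        have hde : 0 ≤ dens (g.mat e) (e p) * Real.exp (-(kk ι * Φ p)) :=
          mul_nonneg (hg.dens_pos hxt).le (Real.exp_pos _).le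
        have := mul_le_mul_of_nonneg_left hHp hde
        linarith
      · have : ext0 e χ x = 0 :=
          image_eq_zero_of_notMem_tsupport fun h => hx (hc2 h)
        rw [this, zero_mul, zero_mul]
  -- the boundary term
  have hYc := YY_continuous (χ := χ) h0 hΦ he hχ hs
  have hY : ∫ p, YY g f0 Φ e χ p ∂μ
      = ∫ x, ∑ c, pd c (ext0 e χ) x * ZZ (g.mat e) (f0 e) c x := by
    have e1 : ∫ p, YY g f0 Φ e χ p ∂μ = ∫ p in e.source, YY g f0 Φ e χ p ∂μ := by
      symm
      refine setIntegral_eq_integral_of_forall_compl_eq_zero fun p hp => ?_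
      unfold YY
      rw [if_neg hp]
    rw [e1, hμ.setIntegral he hYc]
    have e2 : ∫ x, ∑ c, pd c (ext0 e χ) x * ZZ (g.mat e) (f0 e) c x
        = ∫ x in e.target, ∑ c, pd c (ext0 e χ) x * ZZ (g.mat e) (f0 e) c x := by
      symm
      refine setIntegral_eq_integral_of_forall_compl_eq_zero fun x hx => ?_
      have : ∀ c, pd c (ext0 e χ) x = 0 := fun c => pd_ext0_zero e hχ c fun h => hx (hc3 h)
      simp only [this, zero_mul, Finset.sum_const_zero]
    rw [e2]
    refine setIntegral_congr_fun e.open_target.measurableSet fun x hx => ?_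
    unfold YY
    rw [if_pos (e.map_target hx), e.right_inv hx, Finset.mul_sum, Finset.mul_sum]
    refine Finset.sum_congr rfl fun c _ => ?_
    unfold ZZ
    rw [← hΦ e he _ (e.map_target hx), e.right_inv hx]
    ring
  rw [hL, hY]
  linarith only [hdiv, hle]

end chart

section global

variable {g : RMetric ι M} {μ : Measure M} {J : Matrix ι ι ℝ}
  {f0 : OpenPartialHomeomorph M (ι → ℝ) → (ι → ℝ) → ℝ} {Φ : M → ℝ}

/-- the pairing of the differential of a function with the vector field is chart independent -/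
theorem YY_eq (hJ : J * J = -1) (hol : HoloAtlas J M)
    (hH : ∀ e ∈ atlas (ι → ℝ) M, ∀ x ∈ e.target, Jᵀ * g.mat e x * J = g.mat e x)
    (h0 : ∀ e ∈ atlas (ι → ℝ) M, ∀ x ∈ e.target, Sm (f0 e) x)
    (hΦ : ∀ e ∈ atlas (ι → ℝ) M, ∀ p ∈ e.source, FF (g.mat e) (f0 e) (e p) = Φ p)
    {e e' : OpenPartialHomeomorph M (ι → ℝ)} (he : e ∈ atlas (ι → ℝ) M)
    (he' : e' ∈ atlas (ι → ℝ) M) {χ : M → ℝ} (hχ : tsupport χ ⊆ e'.source)
    (hs : ContDiffOn ℝ ∞ (fun x => χ (e'.symm x)) e'.target) {p : M} (hp : p ∈ e.source) :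
    YY g f0 Φ e' χ p = Real.exp (-(kk ι * Φ p)) *
      ∑ c, pd c (fun x => χ (e.symm x)) (e p) * WW (g.mat e) (f0 e) c (e p) := by
  unfold YY
  by_cases hp' : p ∈ e'.source
  · rw [if_pos hp', e'.left_inv hp']
    congr 1
    set φ := e.symm.trans e' with hφd
    have hx : e p ∈ φ.source := mem_trans_source hp hp'
    have hφx : φ (e p) = e' p := trans_apply_coe hp
    have hchg := g.chg he he'
    have hφs := trans_smoothAt he he' hx
    have hE := ext0_smooth e' hχ hs
    -- the function in the first chart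
    have h1 : ∀ c, pd c (fun x => χ (e.symm x)) (e p)
        = ∑ d, pd d (ext0 e' χ) (e' p) * jac φ (e p) d c := by
      intro c
      have hev : (fun x => χ (e.symm x)) =ᶠ[𝓝 (e p)] fun y => ext0 e' χ (φ y) := by
        filter_upwards [φ.open_source.mem_nhds hx] with y hy
        have hy' : y ∈ e.target ∧ e.symm y ∈ e'.source := by
          have := hy
          rw [hφd, OpenPartialHomeomorph.trans_source] at this
          exact this
        have hφy : φ y = e' (e.symm y) := rfl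
        rw [hφy, ext0_of_mem e' χ (e'.map_source hy'.2), e'.left_inv hy'.2]
      rw [pd_congr hev]
      have := pd_comp (φ := φ) (h := ext0 e' χ) hφs (hE.differentiable (by simp) _) c
      rw [this, hφx]
    have h2 : ∀ d, (∑ c, jac φ (e p) d c * WW (g.mat e) (f0 e) c (e p))
        = WW (g.mat e') (f0 e') d (e' p) := by
      intro d
      have := WW_trans (f0 := f0 e) (f0' := f0 e') (g.isMetric e he) (hchg.sub hx)
        (g.isMetric e' he') e'.open_target (hchg.maps _ hx) hφs (hchg.ev hx) hJ (hH e he)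
        ?_ (h0 e' he' _ (hchg.maps _ hx)) ?_ d
      · rw [this, hφx]
      · filter_upwards [φ.open_source.mem_nhds hx] with y hy
        exact hol e he e' he' y hy
      · filter_upwards [φ.open_source.mem_nhds hx] with y hy
        have hy' : y ∈ e.target ∧ e.symm y ∈ e'.source := by
          have := hy
          rw [hφd, OpenPartialHomeomorph.trans_source] at this
          exact this
        have e1 := hΦ e he (e.symm y) (e.map_target hy'.1)
        have e2 := hΦ e' he' (e.symm y) hy'.2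
        rw [e.right_inv hy'.1] at e1
        rw [e1, ← e2]
        rfl
    simp only [← h2, h1, Finset.mul_sum, Finset.sum_mul]
    rw [Finset.sum_comm]
    refine Finset.sum_congr rfl fun c _ => Finset.sum_congr rfl fun d _ => ?_
    ring
  · rw [if_neg hp']
    have h1 : ∀ c, pd c (fun x => χ (e.symm x)) (e p) = 0 := by
      intro c
      have hev : (fun x => χ (e.symm x)) =ᶠ[𝓝 (e p)] fun _ => 0 := by
        have hopen : IsOpen (e.target ∩ e.symm ⁻¹' (tsupport χ)ᶜ) :=
          e.symm.isOpen_inter_preimage (isClosed_tsupport χ).isOpen_compl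
        have hmem : e p ∈ e.target ∩ e.symm ⁻¹' (tsupport χ)ᶜ := by
          refine ⟨e.map_source hp, ?_⟩
          simp only [Set.mem_preimage]
          rw [e.left_inv hp]
          exact fun h => hp' (hχ h)
        filter_upwards [hopen.mem_nhds hmem] with y hy
        exact image_eq_zero_of_notMem_tsupport hy.2
      rw [pd_congr hev, pd_const]
    simp only [h1, zero_mul, Finset.sum_const_zero, mul_zero]

theorem analysis (P : PU ι M) (hμ : IsVol g μ) (hJ : J * J = -1) (hol : HoloAtlas J M)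
    (hH : ∀ e ∈ atlas (ι → ℝ) M, ∀ x ∈ e.target, Jᵀ * g.mat e x * J = g.mat e x)
    (hn : 2 ≤ Fintype.card ι)
    (h0 : ∀ e ∈ atlas (ι → ℝ) M, ∀ x ∈ e.target, Sm (f0 e) x)
    (hΦ : ∀ e ∈ atlas (ι → ℝ) M, ∀ p ∈ e.source, FF (g.mat e) (f0 e) (e p) = Φ p)
    {H : M → ℝ} (hHc : Continuous H)
    (hHl : ∀ j ∈ P.s, ∀ p ∈ tsupport (P.χ j), H p ≤ ∑ c, ∑ d,
      (g.mat (chartAt (ι → ℝ) j) (chartAt (ι → ℝ) j p))⁻¹ c d *
      pd c (fun y => pd d (f0 (chartAt (ι → ℝ) j)) y) (chartAt (ι → ℝ) j p)) :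
    ∫ p, Real.exp (-(kk ι * Φ p)) * (g.scalar p + H p) ∂μ ≤ 0 := by
  haveI : IsFiniteMeasure μ := hμ.isFiniteMeasure
  have hΦc := Phi_continuous h0 hΦ
  have hρc : Continuous (fun p => Real.exp (-(kk ι * Φ p)) * (g.scalar p + H p)) :=
    (Real.continuous_exp.comp (continuous_const.mul hΦc).neg).mul (g.continuous_scalar.add hHc)
  have hint : ∀ {F : M → ℝ}, Continuous F → Integrable F μ := fun hF =>
    hF.integrable_of_hasCompactSupport (HasCompactSupport.of_compactSpace _)
  have h1 : ∫ p, Real.exp (-(kk ι * Φ p)) * (g.scalar p + H p) ∂μ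
      = ∑ j ∈ P.s, ∫ p, P.χ j p * (Real.exp (-(kk ι * Φ p)) * (g.scalar p + H p)) ∂μ := by
    have e0 : ∀ j, Integrable (fun p => P.χ j p *
        (Real.exp (-(kk ι * Φ p)) * (g.scalar p + H p))) μ := fun j => hint ((P.cont j).mul hρc)
    rw [← integral_finsetSum _ fun j _ => e0 j]
    refine integral_congr_ae (Filter.Eventually.of_forall fun p => ?_)
    simp only
    rw [← Finset.sum_mul, P.sum_eq p, one_mul]
  have h2 : ∀ j ∈ P.s, ∫ p, P.χ j p * (Real.exp (-(kk ι * Φ p)) * (g.scalar p + H p)) ∂μ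
      ≤ - ∫ p, YY g f0 Φ (chartAt (ι → ℝ) j) (P.χ j) p ∂μ := fun j hj =>
    chart_ineq hμ hJ hH hn h0 hΦ (chart_mem_atlas _ j) (P.supp j) (P.nonneg j) (P.cont j)
      (P.smooth j _ (chart_mem_atlas _ j)) hHc (hHl j hj)
  have h3 : ∑ j ∈ P.s, ∫ p, YY g f0 Φ (chartAt (ι → ℝ) j) (P.χ j) p ∂μ = 0 := by
    rw [← integral_finsetSum _ fun j _ => hint (YY_continuous h0 hΦ (chart_mem_atlas _ j)
      (P.supp j) (P.smooth j _ (chart_mem_atlas _ j)))]
    have : ∀ p, ∑ j ∈ P.s, YY g f0 Φ (chartAt (ι → ℝ) j) (P.χ j) p = 0 := by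
      intro p
      set e := chartAt (ι → ℝ) p with he
      have hea : e ∈ atlas (ι → ℝ) M := chart_mem_atlas _ p
      have hp : p ∈ e.source := mem_chart_source _ p
      have e1 : ∀ j, YY g f0 Φ (chartAt (ι → ℝ) j) (P.χ j) p
          = Real.exp (-(kk ι * Φ p)) * ∑ c, pd c (fun x => P.χ j (e.symm x)) (e p)
            * WW (g.mat e) (f0 e) c (e p) := fun j =>
        YY_eq hJ hol hH h0 hΦ hea (chart_mem_atlas _ j) (P.supp j)
          (P.smooth j _ (chart_mem_atlas _ j)) hp
      simp only [e1]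
      rw [← Finset.mul_sum, Finset.sum_comm]
      have e2 : ∀ c, ∑ j ∈ P.s, pd c (fun x => P.χ j (e.symm x)) (e p)
            * WW (g.mat e) (f0 e) c (e p) = 0 := by
        intro c
        rw [← Finset.sum_mul]
        have e3 : ∑ j ∈ P.s, pd c (fun x => P.χ j (e.symm x)) (e p) = 0 := by
          rw [← pd_sum fun j _ => (P.smooth j e hea).contDiffAt
            (e.open_target.mem_nhds (e.map_source hp))]
          have : (fun y => ∑ j ∈ P.s, P.χ j (e.symm y)) = fun _ => 1 := by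
            funext y
            exact P.sum_eq _
          rw [this, pd_const]
        rw [e3, zero_mul]
      rw [Finset.sum_congr rfl fun c _ => e2 c, Finset.sum_const_zero, mul_zero]
    simp only [this, integral_zero]
  rw [h1]
  calc ∑ j ∈ P.s, ∫ p, P.χ j p * (Real.exp (-(kk ι * Φ p)) * (g.scalar p + H p)) ∂μ
      ≤ ∑ j ∈ P.s, - ∫ p, YY g f0 Φ (chartAt (ι → ℝ) j) (P.χ j) p ∂μ := Finset.sum_le_sum h2
    _ = 0 := by rw [Finset.sum_neg_distrib, h3, neg_zero]

end global

end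

end Vale.Agent.P223
end
end

section

section

set_option maxSynthPendingDepth 3

namespace Vale.Agent.P223

open MeasureTheory

/-- From the weighted integral inequality to the scale invariant one. -/
theorem holder_step {M : Type} [MeasurableSpace M] (μ : Measure M) [IsFiniteMeasure μ]
    (n : ℝ) (hn : 2 < n) (lam eta : ℝ) (hlam : 0 ≤ lam) (heta : 0 ≤ eta)
    (q S : M → ℝ) (hq : ∀ p, 0 ≤ q p) (hqm : Measurable q) (hSm : Measurable S)
    (hqi : Integrable q μ)
    (hqS : Integrable (fun p => q p ^ ((n - 2) / n) * S p) μ)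
    (hqk : Integrable (fun p => q p ^ ((n - 2) / n)) μ)
    (hmain : ∫ p, (q p ^ ((n - 2) / n) * S p + n * lam * q p - n * eta * q p ^ ((n - 2) / n)) ∂μ ≤ 0) :
    ENNReal.ofReal ((n * lam) ^ (n / 2)) * ∫⁻ p, ENNReal.ofReal (q p) ∂μ
      ≤ ∫⁻ p, ENNReal.ofReal ((max 0 (-S p) + n * eta) ^ (n / 2)) ∂μ := by
  have hn0 : 0 < n := by linarith only [hn]
  set κ : ℝ := (n - 2) / n with hκ
  have hκ0 : 0 < κ := by
    rw [hκ]; apply div_pos <;> linarith only [hn]
  set T : M → ℝ := fun p => max 0 (-S p) + n * eta with hT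
  have hT0 : ∀ p, 0 ≤ T p := fun p => add_nonneg (le_max_left _ _) (by (clear * - hn heta; positivity))
  have hTm : Measurable T := ((measurable_const.max hSm.neg)).add measurable_const
  set A : ENNReal := ∫⁻ p, ENNReal.ofReal (q p) ∂μ with hA
  set B : ENNReal := ∫⁻ p, ENNReal.ofReal (T p ^ (n / 2)) ∂μ with hB
  have hAfin : A < ⊤ := by
    have := hqi.2
    rw [HasFiniteIntegral] at this
    refine lt_of_le_of_lt (lintegral_mono fun p => ?_) this
    exact Real.ofReal_le_enorm _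
  -- real inequality
  have h1 : n * lam * ∫ p, q p ∂μ ≤ ∫ p, q p ^ κ * (-S p + n * eta) ∂μ := by
    have e1 : ∫ p, (q p ^ κ * S p + n * lam * q p - n * eta * q p ^ κ) ∂μ
        = ∫ p, n * lam * q p ∂μ - ∫ p, q p ^ κ * (-S p + n * eta) ∂μ := by
      rw [← integral_sub (hqi.const_mul _)]
      · refine integral_congr_ae (Filter.Eventually.of_forall fun p => ?_)
        simp only
        ring
      · have : (fun p => q p ^ κ * (-S p + n * eta))
            = fun p => - (q p ^ κ * S p) + n * eta * q p ^ κ := by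
          funext p; ring
        rw [this]
        exact hqS.neg.add (hqk.const_mul _)
    rw [e1, integral_const_mul] at hmain
    linarith only [hmain]
  -- ENNReal inequality
  have h2 : ENNReal.ofReal (n * lam) * A ≤ ∫⁻ p, ENNReal.ofReal (q p ^ κ * T p) ∂μ := by
    have e1 : A = ENNReal.ofReal (∫ p, q p ∂μ) := by
      rw [ofReal_integral_eq_lintegral_ofReal hqi (Filter.Eventually.of_forall hq)]
    rw [e1, ← ENNReal.ofReal_mul (by (clear * - hn hlam; positivity))]
    have hi : Integrable (fun p => q p ^ κ * (-S p + n * eta)) μ := by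
      have : (fun p => q p ^ κ * (-S p + n * eta))
            = fun p => - (q p ^ κ * S p) + n * eta * q p ^ κ := by
          funext p; ring
      rw [this]
      exact hqS.neg.add (hqk.const_mul _)
    calc ENNReal.ofReal (n * lam * ∫ p, q p ∂μ)
        ≤ ENNReal.ofReal (∫ p, q p ^ κ * (-S p + n * eta) ∂μ) := ENNReal.ofReal_le_ofReal h1
      _ ≤ ∫⁻ p, ENNReal.ofReal (q p ^ κ * (-S p + n * eta)) ∂μ := by
          rw [integral_eq_lintegral_pos_part_sub_lintegral_neg_part hi]
          refine (ENNReal.ofReal_le_ofReal (sub_le_self _ ENNReal.toReal_nonneg)).trans ?_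
          exact ENNReal.ofReal_toReal_le
      _ ≤ ∫⁻ p, ENNReal.ofReal (q p ^ κ * T p) ∂μ := by
          refine lintegral_mono fun p => ENNReal.ofReal_le_ofReal ?_
          refine mul_le_mul_of_nonneg_left ?_ (Real.rpow_nonneg (hq p) _)
          simp only [hT]
          have := le_max_right 0 (-S p)
          linarith only [this]
  -- Hölder
  have hconj : (n / (n - 2)).HolderConjugate (n / 2) := by
    rw [Real.holderConjugate_iff]
    constructor
    · rw [lt_div_iff₀ (by linarith only [hn])]; linarith only []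
    · have : n - 2 ≠ 0 := by linarith only [hn]
      field_simp
      ring
  have h3 : ∫⁻ p, ENNReal.ofReal (q p ^ κ * T p) ∂μ ≤ A ^ κ * B ^ (2 / n) := by
    have hf : AEMeasurable (fun p => ENNReal.ofReal (q p ^ κ)) μ :=
      (hqm.pow_const κ).ennreal_ofReal.aemeasurable
    have hg : AEMeasurable (fun p => ENNReal.ofReal (T p)) μ := hTm.ennreal_ofReal.aemeasurable
    have := ENNReal.lintegral_mul_le_Lp_mul_Lq μ hconj hf hg
    have e1 : ∫⁻ p, ENNReal.ofReal (q p ^ κ * T p) ∂μ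
        = ∫⁻ p, ((fun p => ENNReal.ofReal (q p ^ κ)) * fun p => ENNReal.ofReal (T p)) p ∂μ := by
      refine lintegral_congr fun p => ?_
      rw [Pi.mul_apply, ENNReal.ofReal_mul (Real.rpow_nonneg (hq p) _)]
    rw [e1]
    refine this.trans (le_of_eq ?_)
    have e2 : ∫⁻ p, (ENNReal.ofReal (q p ^ κ)) ^ (n / (n - 2)) ∂μ = A := by
      refine lintegral_congr fun p => ?_
      rw [ENNReal.ofReal_rpow_of_nonneg (Real.rpow_nonneg (hq p) _)
        (by apply div_nonneg <;> linarith only [hn]), ← Real.rpow_mul (hq p)]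
      have : κ * (n / (n - 2)) = 1 := by
        rw [hκ]
        have : n - 2 ≠ 0 := by linarith only [hn]
        field_simp
      rw [this, Real.rpow_one]
    have e3 : ∫⁻ p, (ENNReal.ofReal (T p)) ^ (n / 2) ∂μ = B := by
      refine lintegral_congr fun p => ?_
      rw [ENNReal.ofReal_rpow_of_nonneg (hT0 p) (by positivity)]
    rw [e2, e3]
    congr 2
    · rw [hκ]
      have : n - 2 ≠ 0 := by linarith only [hn]
      field_simp
    · field_simp
  have h4 := h2.trans h3
  by_cases hA0 : A = 0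
  · rw [hA0, mul_zero]; exact bot_le
  have hApos : 0 < A := pos_iff_ne_zero.mpr hA0
  -- divide
  have h5 : ENNReal.ofReal (n * lam) * A ^ (2 / n) ≤ B ^ (2 / n) := by
    have hAk0 : A ^ κ ≠ 0 := by
      rw [Ne, ENNReal.rpow_eq_zero_iff]
      push Not
      exact ⟨fun h => absurd h hA0, fun h => absurd h hAfin.ne⟩
    have hAkt : A ^ κ ≠ ⊤ := ENNReal.rpow_ne_top_of_nonneg hκ0.le hAfin.ne
    have e1 : A = A ^ κ * A ^ (2 / n) := by
      rw [← ENNReal.rpow_add _ _ hA0 hAfin.ne]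
      have : κ + 2 / n = 1 := by
        rw [hκ]; field_simp; ring
      rw [this, ENNReal.rpow_one]
    have e2 : A ^ κ * (ENNReal.ofReal (n * lam) * A ^ (2 / n)) ≤ A ^ κ * B ^ (2 / n) := by
      calc A ^ κ * (ENNReal.ofReal (n * lam) * A ^ (2 / n))
          = ENNReal.ofReal (n * lam) * (A ^ κ * A ^ (2 / n)) := by ring
        _ = ENNReal.ofReal (n * lam) * A := by rw [← e1]
        _ ≤ _ := h4
    exact (ENNReal.mul_le_mul_iff_right hAk0 hAkt).mp e2
  have h6 := ENNReal.rpow_le_rpow h5 (z := n / 2) (by positivity)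
  rw [ENNReal.mul_rpow_of_nonneg _ _ (by positivity : (0:ℝ) ≤ n / 2), ← ENNReal.rpow_mul,
    ← ENNReal.rpow_mul, ENNReal.ofReal_rpow_of_nonneg (by (clear * - hn hlam; positivity)) (by positivity)] at h6
  have e7 : 2 / n * (n / 2) = 1 := by field_simp
  rw [e7, ENNReal.rpow_one, ENNReal.rpow_one] at h6
  exact h6

end Vale.Agent.P223
end
end

section

section

set_option maxSynthPendingDepth 3

namespace Vale.Agent.P223

open scoped Matrix ContDiff Topology Manifold
open Finset MeasureTheory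

variable {ι : Type} [Fintype ι] [DecidableEq ι]

theorem dens_conj (G A : Matrix ι ι ℝ) :
    Real.sqrt ((Aᵀ * G * A).det) = |A.det| * Real.sqrt G.det := by
  rw [Matrix.det_mul, Matrix.det_mul, Matrix.det_transpose]
  have : A.det * G.det * A.det = A.det ^ 2 * G.det := by ring
  rw [this, Real.sqrt_mul (sq_nonneg _), Real.sqrt_sq_eq_abs]

section
variable {φ : (ι → ℝ) → (ι → ℝ)} {x : ι → ℝ} {U X X' : Set (ι → ℝ)}
  {g g' : (ι → ℝ) → Matrix ι ι ℝ}

theorem Chg.dens_eq (h : Chg U X X' φ g g') (hx : x ∈ U) :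
    dens g x = |(jac φ x).det| * dens g' (φ x) := by
  unfold dens
  rw [h.compat x hx, dens_conj]

theorem Chg.det_ne (h : Chg U X X' φ g g') (hg : IsMetricOn X g) (hx : x ∈ U) :
    (jac φ x).det ≠ 0 := by
  intro h0
  have := hg.det_pos (h.sub hx)
  rw [h.compat x hx, Matrix.det_mul, h0, mul_zero] at this
  exact lt_irrefl _ this

end

section

variable {M : Type} [TopologicalSpace M] [ChartedSpace (ι → ℝ) M] [MeasurableSpace M]
  [BorelSpace M]

end

end Vale.Agent.P223
end
end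

section

section

set_option maxSynthPendingDepth 3

namespace Vale.Agent.P223

open scoped Matrix ContDiff Topology Manifold
open Finset MeasureTheory

variable {ι : Type} [Fintype ι] [DecidableEq ι]

theorem jac_comp {φ ψ : (ι → ℝ) → (ι → ℝ)} {x : ι → ℝ} (hψ : ContDiffAt ℝ ∞ ψ x)
    (hφ : ContDiffAt ℝ ∞ φ (ψ x)) : jac (fun y => φ (ψ y)) x = jac φ (ψ x) * jac ψ x := by
  ext c a
  have h1 : jac (fun y => φ (ψ y)) x c a = pd a (fun y => φ (ψ y) c) x := rfl
  rw [h1, pd_comp (h := fun z => φ z c) hψ (sm_comp_coord hφ c).diff a, Matrix.mul_apply]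
  rfl

theorem jac_congr {φ ψ : (ι → ℝ) → (ι → ℝ)} {x : ι → ℝ} (h : φ =ᶠ[𝓝 x] ψ) :
    jac φ x = jac ψ x := by
  ext c a
  have h1 : (fun y => φ y c) =ᶠ[𝓝 x] fun y => ψ y c := by
    filter_upwards [h] with y hy
    rw [hy]
  exact pd_congr h1

section

variable {M : Type} [TopologicalSpace M] [ChartedSpace (ι → ℝ) M]
  {N : Type} [TopologicalSpace N] [ChartedSpace (ι → ℝ) N]

variable {J : Matrix ι ι ℝ} {f : M → N}

/-- the domain of a coordinate expression is open -/
theorem cdom_open (hf : Continuous f) (e : OpenPartialHomeomorph M (ι → ℝ))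
    (e' : OpenPartialHomeomorph N (ι → ℝ)) :
    IsOpen (e.target ∩ {y | f (e.symm y) ∈ e'.source}) :=
  (hf.comp_continuousOn e.continuousOn_symm).isOpen_inter_preimage e.open_target e'.open_source

theorem pden_eq [IsManifold 𝓘(ℝ, ι → ℝ) ∞ N] (hf : HoloMap J f) (g0 : RMetric ι N)
    {e : OpenPartialHomeomorph M (ι → ℝ)} (he : e ∈ atlas (ι → ℝ) M)
    {e' : OpenPartialHomeomorph N (ι → ℝ)} (he' : e' ∈ atlas (ι → ℝ) N) {x : ι → ℝ}
    (hx : x ∈ e.target) (hx' : f (e.symm x) ∈ e'.source) :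
    pden g0 f e x = dens (g0.mat e') (cmap f e e' x) * |(jac (cmap f e e') x).det| := by
  unfold pden
  set c := chartAt (ι → ℝ) (f (e.symm x)) with hc
  have hca : c ∈ atlas (ι → ℝ) N := chart_mem_atlas _ _
  have hcs : f (e.symm x) ∈ c.source := mem_chart_source _ _
  have hψ := hf.smooth e he c hca x hx hcs
  have hmem : cmap f e c x ∈ (c.symm.trans e').source := mem_trans_source hcs hx'
  have hchg := g0.chg hca he'
  have h1 : cmap f e e' =ᶠ[𝓝 x] fun y => (c.symm.trans e') (cmap f e c y) := by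
    filter_upwards [(cdom_open hf.cont e c).mem_nhds ⟨hx, hcs⟩] with y hy
    exact (trans_apply_coe (e := c) (e' := e') hy.2).symm
  have h2 : jac (cmap f e e') x
      = jac (c.symm.trans e') (cmap f e c x) * jac (cmap f e c) x := by
    rw [jac_congr h1, jac_comp hψ (trans_smoothAt hca he' hmem)]
  have h3 := hchg.dens_eq hmem
  have h4 : (c.symm.trans e') (cmap f e c x) = cmap f e e' x :=
    trans_apply_coe (e := c) (e' := e') hcs
  rw [h4] at h3
  rw [h2, h3, Matrix.det_mul, abs_mul]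
  ring

theorem pden_trans [IsManifold 𝓘(ℝ, ι → ℝ) ∞ M] [IsManifold 𝓘(ℝ, ι → ℝ) ∞ N]
    (hf : HoloMap J f) (g0 : RMetric ι N)
    {e c : OpenPartialHomeomorph M (ι → ℝ)} (he : e ∈ atlas (ι → ℝ) M)
    (hc : c ∈ atlas (ι → ℝ) M) {x : ι → ℝ} (hx : x ∈ (e.symm.trans c).source) :
    pden g0 f e x = |(jac (e.symm.trans c) x).det| * pden g0 f c ((e.symm.trans c) x) := by
  have hx' : x ∈ e.target ∧ e.symm x ∈ c.source := by
    rw [OpenPartialHomeomorph.trans_source] at hx
    exact hx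
  set φ := e.symm.trans c with hφ
  have hφx : φ x = c (e.symm x) := rfl
  set e' := chartAt (ι → ℝ) (f (e.symm x)) with he'
  have he'a : e' ∈ atlas (ι → ℝ) N := chart_mem_atlas _ _
  have he's : f (e.symm x) ∈ e'.source := mem_chart_source _ _
  have hcx : c.symm (φ x) = e.symm x := by rw [hφx, c.left_inv hx'.2]
  have hφt : φ x ∈ c.target := c.map_source hx'.2
  have hfc : f (c.symm (φ x)) ∈ e'.source := by rw [hcx]; exact he's
  rw [pden_eq hf g0 he he'a hx'.1 he's, pden_eq hf g0 hc he'a hφt hfc]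
  have h1 : cmap f e e' =ᶠ[𝓝 x] fun y => cmap f c e' (φ y) := by
    filter_upwards [φ.open_source.mem_nhds hx] with y hy
    have hy' : y ∈ e.target ∧ e.symm y ∈ c.source := by
      rw [hφ, OpenPartialHomeomorph.trans_source] at hy
      exact hy
    show e' (f (e.symm y)) = e' (f (c.symm (c (e.symm y))))
    rw [c.left_inv hy'.2]
  have h2 : jac (cmap f e e') x = jac (cmap f c e') (φ x) * jac φ x := by
    rw [jac_congr h1, jac_comp (trans_smoothAt he hc hx) (hf.smooth c hc e' he'a _ hφt hfc)]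
  rw [h2, Matrix.det_mul, abs_mul, h1.eq_of_nhds]
  ring

theorem relJac_eq [IsManifold 𝓘(ℝ, ι → ℝ) ∞ M] [IsManifold 𝓘(ℝ, ι → ℝ) ∞ N]
    (hf : HoloMap J f) (g : RMetric ι M) (g0 : RMetric ι N)
    {e : OpenPartialHomeomorph M (ι → ℝ)} (he : e ∈ atlas (ι → ℝ) M) {p : M} (hp : p ∈ e.source) :
    relJac g g0 f p = pden g0 f e (e p) / dens (g.mat e) (e p) := by
  unfold relJac
  set c := chartAt (ι → ℝ) p with hc
  have hca : c ∈ atlas (ι → ℝ) M := chart_mem_atlas _ _
  have hcs : p ∈ c.source := mem_chart_source _ _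
  have hx : e p ∈ (e.symm.trans c).source := mem_trans_source hp hcs
  have h1 := pden_trans hf g0 he hca hx
  have h2 := (g.chg he hca).dens_eq hx
  rw [trans_apply_coe hp] at h1 h2
  rw [h1, h2]
  have hdet := (g.chg he hca).det_ne (g.isMetric e he) hx
  have hd : 0 < |(jac (e.symm.trans c) (e p)).det| := abs_pos.mpr hdet
  have hd2 : 0 < dens (g.mat c) (c p) := (g.isMetric c hca).dens_pos (c.map_source hcs)
  rw [mul_div_mul_left _ _ hd.ne']

end

end Vale.Agent.P223
end
end

section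

section

set_option maxSynthPendingDepth 3

namespace Vale.Agent.P223

open scoped Matrix ContDiff Topology Manifold
open Finset MeasureTheory

variable {ι : Type} [Fintype ι] [DecidableEq ι]

/-- A real matrix commuting with a complex structure has nonnegative determinant. -/
theorem det_nonneg_of_comm {J A : Matrix ι ι ℝ} (hJ : J * J = -1) (hA : A * J = J * A) :
    0 ≤ A.det := by
  set r : ℝ →+* ℂ := Complex.ofRealHom with hr
  set Ac : Matrix ι ι ℂ := A.map r with hAc
  set Jc : Matrix ι ι ℂ := J.map r with hJc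
  have hJJ : Jc * Jc = -1 := by
    rw [hJc, ← Matrix.map_mul, hJ]
    ext i j
    by_cases h : i = j
    · subst h; simp only [Matrix.map_apply, Matrix.neg_apply, Matrix.one_apply_eq, map_neg, map_one]
    · simp [Matrix.one_apply_ne h]
  have hAJ : Ac * Jc = Jc * Ac := by
    rw [hJc, hAc, ← Matrix.map_mul, ← Matrix.map_mul, hA]
  -- projections
  set P : Matrix ι ι ℂ := (1 / 2 : ℂ) • (1 - Complex.I • Jc) with hP
  set Q : Matrix ι ι ℂ := (1 / 2 : ℂ) • (1 + Complex.I • Jc) with hQ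
  have hPQ : P + Q = 1 := by
    rw [hP, hQ, ← smul_add]
    have : (1 - Complex.I • Jc) + (1 + Complex.I • Jc) = (2 : ℂ) • (1 : Matrix ι ι ℂ) := by
      rw [two_smul]; abel
    rw [this, smul_smul]
    norm_num
  have hIJ : (Complex.I • Jc) * (Complex.I • Jc) = 1 := by
    rw [smul_mul_smul_comm, Complex.I_mul_I, hJJ]
    simp only [smul_neg, neg_smul, one_smul, neg_neg]
  have hPmQ : P * Q = 0 := by
    rw [hP, hQ, smul_mul_smul_comm]
    have : (1 - Complex.I • Jc) * (1 + Complex.I • Jc) = 0 := by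
      rw [sub_mul, mul_add, mul_add, hIJ, one_mul, one_mul, mul_one]
      abel
    rw [this, smul_zero]
  have hQmP : Q * P = 0 := by
    rw [hP, hQ, smul_mul_smul_comm]
    have : (1 + Complex.I • Jc) * (1 - Complex.I • Jc) = 0 := by
      rw [add_mul, mul_sub, mul_sub, hIJ, one_mul, one_mul, mul_one]
      abel
    rw [this, smul_zero]
  have hPP : P * P = P := by
    have : P * (P + Q) = P := by rw [hPQ, mul_one]
    rw [mul_add, hPmQ, add_zero] at this
    exact this
  have hQQ : Q * Q = Q := by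
    have : Q * (P + Q) = Q := by rw [hPQ, mul_one]
    rw [mul_add, hQmP, zero_add] at this
    exact this
  have hAP : Ac * P = P * Ac := by
    rw [hP, Matrix.mul_smul, Matrix.smul_mul, mul_sub, sub_mul, Matrix.mul_smul, Matrix.smul_mul,
      hAJ, mul_one, one_mul]
  have hAQ : Ac * Q = Q * Ac := by
    rw [hQ, Matrix.mul_smul, Matrix.smul_mul, mul_add, add_mul, Matrix.mul_smul, Matrix.smul_mul,
      hAJ, mul_one, one_mul]
  have hfac : (Ac * P + Q) * (Ac * Q + P) = Ac := by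
    have e1 : (Ac * P) * (Ac * Q) = 0 := by
      rw [hAP, hAQ]
      calc P * Ac * (Q * Ac) = (P * (Ac * Q)) * Ac := by simp only [Matrix.mul_assoc]
        _ = (P * Q) * Ac * Ac := by rw [hAQ]; simp only [Matrix.mul_assoc]
        _ = 0 := by rw [hPmQ, zero_mul, zero_mul]
    have e2 : (Ac * P) * P = Ac * P := by rw [Matrix.mul_assoc, hPP]
    have e3 : Q * (Ac * Q) = Ac * Q := by
      rw [← Matrix.mul_assoc, ← hAQ, Matrix.mul_assoc, hQQ]
    rw [add_mul, mul_add, mul_add, e1, e2, e3, hQmP, zero_add, add_zero, ← mul_add, hPQ, mul_one]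
  -- conjugation
  have hconj : (Ac * P + Q).map (starRingEnd ℂ) = Ac * Q + P := by
    have hAcc : Ac.map (starRingEnd ℂ) = Ac := by
      ext i j
      simp [hAc, hr]
    have hJcc : Jc.map (starRingEnd ℂ) = Jc := by
      ext i j
      simp [hJc, hr]
    have hPc : P.map (starRingEnd ℂ) = Q := by
      have hj : ∀ i j, (starRingEnd ℂ) (Jc i j) = Jc i j := fun i j => by
        have := congrFun (congrFun hJcc i) j
        simpa using this
      have hhalf : (starRingEnd ℂ) (1 / 2 : ℂ) = 1 / 2 := by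
        have : ((1 / 2 : ℝ) : ℂ) = 1 / 2 := by norm_num
        rw [← this, Complex.conj_ofReal]
      ext i j
      rw [hP, hQ]
      simp only [Matrix.map_apply, Matrix.smul_apply, Matrix.sub_apply, smul_eq_mul, map_mul, hhalf, map_sub, Complex.conj_I, hj, Matrix.add_apply]
      by_cases h : i = j
      · subst h; simp only [one_div, Matrix.one_apply_eq, map_one, neg_mul, sub_neg_eq_add]
      · simp only [one_div, Matrix.one_apply_ne h, map_zero, neg_mul, sub_neg_eq_add, zero_add]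
    have hQc : Q.map (starRingEnd ℂ) = P := by
      rw [← hPc]
      ext i j
      simp
    rw [Matrix.map_add _ (fun a b => map_add _ a b), Matrix.map_mul, hAcc, hPc, hQc]
  have hdet : (Ac * Q + P).det = (starRingEnd ℂ) ((Ac * P + Q).det) := by
    rw [← hconj]
    exact ((starRingEnd ℂ).map_det _).symm
  have h1 : Ac.det = (Ac * P + Q).det * (starRingEnd ℂ) ((Ac * P + Q).det) := by
    rw [← hdet, ← Matrix.det_mul, hfac]
  have h2 : Ac.det = ((A.det : ℝ) : ℂ) := by
    rw [hAc]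
    exact (r.map_det A).symm
  rw [h2, Complex.mul_conj] at h1
  have h3 : A.det = Complex.normSq ((Ac * P + Q).det) := by exact_mod_cast h1
  rw [h3]
  exact Complex.normSq_nonneg _

end Vale.Agent.P223
end
end

section

section

set_option maxSynthPendingDepth 3

namespace Vale.Agent.P223

open scoped Matrix ContDiff Topology Manifold
open Finset MeasureTheory

variable {ι : Type} [Fintype ι] [DecidableEq ι]

/-- pulled back matrix field -/
noncomputable def pb (ψ : (ι → ℝ) → (ι → ℝ)) (w : (ι → ℝ) → Matrix ι ι ℝ) (y : ι → ℝ) :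
    Matrix ι ι ℝ := (jac ψ y)ᵀ * w (ψ y) * jac ψ y

section
variable {ψ : (ι → ℝ) → (ι → ℝ)} {x : ι → ℝ} {w : (ι → ℝ) → Matrix ι ι ℝ}

omit [DecidableEq ι] in
theorem mul3_apply (A B C : Matrix ι ι ℝ) (b c : ι) :
    (Aᵀ * B * C) b c = ∑ e, ∑ f, (A e b * B e f) * C f c := by
  rw [Matrix.mul_assoc, Matrix.mul_apply]
  refine Finset.sum_congr rfl fun e _ => ?_
  rw [Matrix.mul_apply, Finset.mul_sum]
  refine Finset.sum_congr rfl fun f _ => ?_
  rw [Matrix.transpose_apply]
  ring

theorem sm_pb (hψ : ContDiffAt ℝ ∞ ψ x) (hw : SmM w (ψ x)) : SmM (pb ψ w) x := by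
  intro b c
  have : (fun y => pb ψ w y b c) = fun y => ∑ e, ∑ f, (jac ψ y e b * w (ψ y) e f) * jac ψ y f c := by
    funext y
    exact mul3_apply _ _ _ b c
  rw [this]
  exact Sm.sum fun e _ => Sm.sum fun f _ => ((sm_jac hψ e b).mul
    (sm_comp (h := fun z => w z e f) hψ (hw e f))).mul (sm_jac hψ f c)

theorem pd_pb (hψ : ContDiffAt ℝ ∞ ψ x) (hw : SmM w (ψ x)) (a b c : ι) :
    pd a (fun y => pb ψ w y b c) x
      = (∑ e, ∑ f, hes ψ x e a b * w (ψ x) e f * jac ψ x f c)
        + (∑ e, ∑ f, jac ψ x e b * w (ψ x) e f * hes ψ x f a c)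
        + R1 (jac ψ x)ᵀ (R2 (jac ψ x)ᵀ (R3 (jac ψ x)ᵀ (Nt w (ψ x)))) a b c := by
  have sg : ∀ e f, Sm (fun y => w (ψ y) e f) x := fun e f =>
    sm_comp (h := fun z => w z e f) hψ (hw e f)
  have h1 : pd a (fun y => pb ψ w y b c) x
      = pd a (fun y => ∑ e, ∑ f, (jac ψ y e b * w (ψ y) e f) * jac ψ y f c) x := by
    congr 1
    funext y
    exact mul3_apply _ _ _ b c
  have h2 : pd a (fun y => pb ψ w y b c) x = ∑ e, ∑ f, ((hes ψ x e a b * w (ψ x) e f
      + jac ψ x e b * ∑ h, Nt w (ψ x) h e f * jac ψ x h a) * jac ψ x f c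
      + jac ψ x e b * w (ψ x) e f * hes ψ x f a c) := by
    rw [h1, pd_sum fun e _ => Sm.sum fun f _ => ((sm_jac hψ e b).mul (sg e f)).mul (sm_jac hψ f c)]
    refine Finset.sum_congr rfl fun e _ => ?_
    rw [pd_sum fun f _ => ((sm_jac hψ e b).mul (sg e f)).mul (sm_jac hψ f c)]
    refine Finset.sum_congr rfl fun f _ => ?_
    rw [pd_mul ((sm_jac hψ e b).mul (sg e f)) (sm_jac hψ f c), pd_mul (sm_jac hψ e b) (sg e f)]
    rw [pd_comp (h := fun z => w z e f) hψ (hw e f).diff a]
    rfl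
  rw [h2]
  have h5 : (R1 (jac ψ x)ᵀ (R2 (jac ψ x)ᵀ (R3 (jac ψ x)ᵀ (Nt w (ψ x))))) a b c
      = ∑ e, ∑ f, (jac ψ x e b * ∑ h, Nt w (ψ x) h e f * jac ψ x h a) * jac ψ x f c := by
    unfold R1 R2 R3
    simp only [Finset.mul_sum, Finset.sum_mul, Matrix.transpose_apply]
    rw [Finset.sum_comm]
    refine Finset.sum_congr rfl fun e _ => ?_
    rw [Finset.sum_comm]
    refine Finset.sum_congr rfl fun f _ => Finset.sum_congr rfl fun h _ => ?_
    ring
  rw [h5]
  simp only [← Finset.sum_add_distrib]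
  refine Finset.sum_congr rfl fun e _ => Finset.sum_congr rfl fun f _ => ?_
  ring

/-- the pullback of a closed antisymmetric field is closed -/
theorem closed_pb (hψ : ContDiffAt ℝ ∞ ψ x) (hw : SmM w (ψ x))
    (hanti : ∀ e f, w (ψ x) e f = - w (ψ x) f e)
    (hcl : ∀ a b c, pd a (fun y => w y b c) (ψ x) + pd b (fun y => w y c a) (ψ x)
      + pd c (fun y => w y a b) (ψ x) = 0) (a b c : ι) :
    pd a (fun y => pb ψ w y b c) x + pd b (fun y => pb ψ w y c a) x
      + pd c (fun y => pb ψ w y a b) x = 0 := by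
  rw [pd_pb hψ hw, pd_pb hψ hw, pd_pb hψ hw]
  set A := jac ψ x with hA
  set P : ι → ι → ι → ℝ := fun a b c => ∑ e, ∑ f, hes ψ x e a b * w (ψ x) e f * A f c with hP
  have hPs : ∀ a b c, P a b c = P b a c := by
    intro a b c
    refine Finset.sum_congr rfl fun e _ => Finset.sum_congr rfl fun f _ => ?_
    rw [hes_symm hψ e a b]
  have hPa : ∀ a b c, (∑ e, ∑ f, A e b * w (ψ x) e f * hes ψ x f a c) = - P a c b := by
    intro a b c
    rw [Finset.sum_comm, hP]
    simp only
    rw [← Finset.sum_neg_distrib]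
    refine Finset.sum_congr rfl fun e _ => ?_
    rw [← Finset.sum_neg_distrib]
    refine Finset.sum_congr rfl fun f _ => ?_
    rw [hanti f e]
    ring
  have hN : R1 Aᵀ (R2 Aᵀ (R3 Aᵀ (Nt w (ψ x)))) a b c
      + R1 Aᵀ (R2 Aᵀ (R3 Aᵀ (Nt w (ψ x)))) b c a
      + R1 Aᵀ (R2 Aᵀ (R3 Aᵀ (Nt w (ψ x)))) c a b = 0 := by
    have h1 : Nt w (ψ x) + cyc (Nt w (ψ x)) + kap (Nt w (ψ x)) = 0 := by
      funext a b c
      exact hcl a b c
    have h2 := congrArg (fun T => R1 Aᵀ (R2 Aᵀ (R3 Aᵀ T))) h1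
    simp only [R3_add, R2_add, R1_add] at h2
    have hz : R1 Aᵀ (R2 Aᵀ (R3 Aᵀ (0 : Ten ι))) = 0 := by
      funext a b c
      simp only [R1, Matrix.transpose_apply, R2, R3, Pi.zero_apply, mul_zero, sum_const_zero]
    have e1 : R1 Aᵀ (R2 Aᵀ (R3 Aᵀ (cyc (Nt w (ψ x))))) = cyc (R1 Aᵀ (R2 Aᵀ (R3 Aᵀ (Nt w (ψ x))))) := by
      rw [R3_cyc, R2_cyc, R1_cyc, ← R1_R3, ← R2_R3]
    rw [hz, e1, ← kap_R123] at h2
    exact congrFun (congrFun (congrFun h2 a) b) c
  have e1 : (∑ e, ∑ f, hes ψ x e a b * w (ψ x) e f * A f c) = P a b c := rfl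
  have e2 : (∑ e, ∑ f, hes ψ x e b c * w (ψ x) e f * A f a) = P b c a := rfl
  have e3 : (∑ e, ∑ f, hes ψ x e c a * w (ψ x) e f * A f b) = P c a b := rfl
  rw [e1, e2, e3, hPa a b c, hPa b c a, hPa c a b]
  have s1 := hPs a b c
  have s2 := hPs b c a
  have s3 := hPs c a b
  linarith

end

section

variable {ψ : (ι → ℝ) → (ι → ℝ)} {U X' : Set (ι → ℝ)} {g' : (ι → ℝ) → Matrix ι ι ℝ}
  {J : Matrix ι ι ℝ}

theorem pb_metric (hg' : IsMetricOn X' g') (hX' : IsOpen X')
    (hmaps : ∀ y ∈ U, ψ y ∈ X') (hψ : ∀ y ∈ U, ContDiffAt ℝ ∞ ψ y)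
    (hdet : ∀ y ∈ U, (jac ψ y).det ≠ 0) : IsMetricOn U (pb ψ g') where
  smooth := fun a b y hy =>
    (sm_pb (hψ y hy) (fun i j => hg'.sm hX' (hmaps y hy) i j) a b).contDiffWithinAt
  posDef := by
    intro y hy
    have h1 := (hg'.posDef _ (hmaps y hy)).conjTranspose_mul_mul_same (B := jac ψ y)
      (Matrix.mulVec_injective_of_isUnit (Matrix.isUnit_iff_isUnit_det _ |>.mpr (hdet y hy).isUnit))
    simpa [pb] using h1

theorem pb_chg (hU : IsOpen U)
    (hmaps : ∀ y ∈ U, ψ y ∈ X') (hψ : ∀ y ∈ U, ContDiffAt ℝ ∞ ψ y) :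
    Chg U U X' ψ (pb ψ g') g' where
  isOpen := hU
  sub := le_refl _
  maps := hmaps
  smooth := hψ
  compat := fun _ _ => rfl

theorem pb_herm (hmaps : ∀ y ∈ U, ψ y ∈ X')
    (hJψ : ∀ y ∈ U, jac ψ y * J = J * jac ψ y) (hH' : ∀ x ∈ X', Jᵀ * g' x * J = g' x) :
    ∀ y ∈ U, Jᵀ * pb ψ g' y * J = pb ψ g' y := by
  intro y hy
  unfold pb
  have h1 : Jᵀ * (jac ψ y)ᵀ = (jac ψ y)ᵀ * Jᵀ := by
    rw [← Matrix.transpose_mul, hJψ y hy, Matrix.transpose_mul]
  calc Jᵀ * ((jac ψ y)ᵀ * g' (ψ y) * jac ψ y) * J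
      = (Jᵀ * (jac ψ y)ᵀ) * g' (ψ y) * (jac ψ y * J) := by simp only [Matrix.mul_assoc]
    _ = (jac ψ y)ᵀ * (Jᵀ * g' (ψ y) * J) * jac ψ y := by
        rw [h1, hJψ y hy]; simp only [Matrix.mul_assoc]
    _ = (jac ψ y)ᵀ * g' (ψ y) * jac ψ y := by rw [hH' _ (hmaps y hy)]

theorem pb_kahler (hJ : J * J = -1) (hg' : IsMetricOn X' g') (hX' : IsOpen X')
    (hU : IsOpen U) (hmaps : ∀ y ∈ U, ψ y ∈ X') (hψ : ∀ y ∈ U, ContDiffAt ℝ ∞ ψ y)
    (hJψ : ∀ y ∈ U, jac ψ y * J = J * jac ψ y) (hH' : ∀ x ∈ X', Jᵀ * g' x * J = g' x)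
    (hK' : ∀ x ∈ X', ∀ a b c, pd a (fun y => (Jᵀ * g' y) b c) x
      + pd b (fun y => (Jᵀ * g' y) c a) x + pd c (fun y => (Jᵀ * g' y) a b) x = 0) :
    ∀ x ∈ U, ∀ a b c, pd a (fun y => (Jᵀ * pb ψ g' y) b c) x
      + pd b (fun y => (Jᵀ * pb ψ g' y) c a) x + pd c (fun y => (Jᵀ * pb ψ g' y) a b) x = 0 := by
  intro x hx a b c
  have h1 : ∀ y ∈ U, Jᵀ * pb ψ g' y = pb ψ (fun z => Jᵀ * g' z) y := by
    intro y hy
    unfold pb
    have h1 : Jᵀ * (jac ψ y)ᵀ = (jac ψ y)ᵀ * Jᵀ := by
      rw [← Matrix.transpose_mul, hJψ y hy, Matrix.transpose_mul]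
    rw [← Matrix.mul_assoc, ← Matrix.mul_assoc, h1]
    simp only [Matrix.mul_assoc]
  have h2 : ∀ a b c, pd a (fun y => (Jᵀ * pb ψ g' y) b c) x
      = pd a (fun y => pb ψ (fun z => Jᵀ * g' z) y b c) x := by
    intro a b c
    apply pd_congr
    filter_upwards [hU.mem_nhds hx] with y hy
    rw [h1 y hy]
  rw [h2, h2, h2]
  have hx' := hmaps x hx
  refine closed_pb (hψ x hx) ?_ ?_ (hK' _ hx') a b c
  · intro i j
    have : (fun y => (Jᵀ * g' y) i j) = fun y => ∑ k, J k i * g' y k j := by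
      funext y
      rw [Matrix.mul_apply]
      rfl
    show Sm (fun y => (Jᵀ * g' y) i j) (ψ x)
    rw [this]
    exact Sm.sum fun k _ => (Sm.const _).mul (hg'.sm hX' hx' k j)
  · intro e f
    have h3 : Jᵀ * g' (ψ x) = - (g' (ψ x) * J) := by
      have : (Jᵀ * g' (ψ x) * J) * J = g' (ψ x) * J := by rw [hH' _ hx']
      rw [Matrix.mul_assoc, hJ, mul_neg, mul_one] at this
      rw [← this, neg_neg]
    have h4 : (g' (ψ x))ᵀ = g' (ψ x) := by
      ext i j
      exact hg'.symm hx' j i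
    have h5 : (Jᵀ * g' (ψ x))ᵀ = g' (ψ x) * J := by
      rw [Matrix.transpose_mul, Matrix.transpose_transpose, h4]
    have h6 : (Jᵀ * g' (ψ x)) f e = (g' (ψ x) * J) e f := by
      rw [← h5]
      rfl
    rw [h6, h3]
    rfl

end

end Vale.Agent.P223
end
end

section

section

set_option maxSynthPendingDepth 3

namespace Vale.Agent.P223

open scoped Matrix ContDiff Topology Manifold
open Finset MeasureTheory

variable {ι : Type} [Fintype ι] [DecidableEq ι]

/-- trace of the Hessian -/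
noncomputable def lev (P : Matrix ι ι ℝ) (h : (ι → ℝ) → ℝ) (x : ι → ℝ) : ℝ :=
  ∑ c, ∑ d, P c d * pd c (fun y => pd d h y) x

/-- squared gradient -/
noncomputable def gn (P : Matrix ι ι ℝ) (h : (ι → ℝ) → ℝ) (x : ι → ℝ) : ℝ :=
  ∑ c, ∑ d, P c d * (pd c h x * pd d h x)

section
variable {x : ι → ℝ} {P B : Matrix ι ι ℝ} {u w h : (ι → ℝ) → ℝ}

theorem lev_congr (e : u =ᶠ[𝓝 x] w) : lev P u x = lev P w x := by
  unfold lev
  refine Finset.sum_congr rfl fun c _ => Finset.sum_congr rfl fun d _ => ?_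
  congr 1
  apply pd_congr
  have := e.eventually_nhds
  filter_upwards [this] with y hy
  exact pd_congr hy

theorem gn_eq (hP : P = Bᵀ * B) (h : (ι → ℝ) → ℝ) (x : ι → ℝ) :
    gn P h x = ∑ i, (∑ c, B i c * pd c h x) ^ 2 := by
  unfold gn
  have h1 : ∀ c d, P c d * (pd c h x * pd d h x)
      = ∑ i, (B i c * pd c h x) * (B i d * pd d h x) := by
    intro c d
    rw [hP, Matrix.mul_apply, Finset.sum_mul]
    refine Finset.sum_congr rfl fun i _ => ?_
    rw [Matrix.transpose_apply]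
    ring
  simp only [h1]
  rw [sum3_rot]
  refine Finset.sum_congr rfl fun i _ => ?_
  rw [sq, Finset.sum_mul_sum]

theorem pd_log (hh : Sm h x) (hpos : 0 < h x) (c : ι) :
    pd c (fun y => Real.log (h y)) x = (h x)⁻¹ * pd c h x := by
  unfold pd
  rw [fderiv.log hh.diff hpos.ne']
  simp only [smul_apply, smul_eq_mul]

theorem pd_inv' (hh : Sm h x) (hpos : 0 < h x) (c : ι) :
    pd c (fun y => (h y)⁻¹) x = - ((h x)⁻¹ * (h x)⁻¹ * pd c h x) := by
  have hi : Sm (fun y => (h y)⁻¹) x := ContDiffAt.inv hh hpos.ne'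
  have h1 := pd_mul (c := c) hh hi
  have h2 : pd c (fun y => h y * (h y)⁻¹) x = 0 := by
    have : (fun y => h y * (h y)⁻¹) =ᶠ[𝓝 x] fun _ => 1 := by
      filter_upwards [hh.continuousAt.eventually (lt_mem_nhds hpos)] with y hy
      exact mul_inv_cancel₀ hy.ne'
    rw [pd_congr this, pd_const]
  rw [h2] at h1
  have h3 : (h x)⁻¹ * (pd c h x * (h x)⁻¹ + h x * pd c (fun y => (h y)⁻¹) x) = 0 := by
    rw [← h1, mul_zero]
  have h4 : (h x)⁻¹ * (h x * pd c (fun y => (h y)⁻¹) x) = pd c (fun y => (h y)⁻¹) x := by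
    rw [← mul_assoc, inv_mul_cancel₀ hpos.ne', one_mul]
  rw [mul_add, h4] at h3
  linarith only [h3]

/-- Hessian trace of a logarithm -/
theorem lev_log (hev : ∀ᶠ y in 𝓝 x, Sm h y) (hpos : 0 < h x) :
    lev P (fun y => Real.log (h y)) x = (h x)⁻¹ * lev P h x - (h x)⁻¹ * (h x)⁻¹ * gn P h x := by
  have hh : Sm h x := hev.self_of_nhds
  have hpe : ∀ᶠ y in 𝓝 x, 0 < h y := hh.continuousAt.eventually (lt_mem_nhds hpos)
  unfold lev gn
  rw [Finset.mul_sum, Finset.mul_sum, ← Finset.sum_sub_distrib]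
  refine Finset.sum_congr rfl fun c _ => ?_
  rw [Finset.mul_sum, Finset.mul_sum, ← Finset.sum_sub_distrib]
  refine Finset.sum_congr rfl fun d _ => ?_
  have h1 : (fun y => pd d (fun z => Real.log (h z)) y) =ᶠ[𝓝 x] fun y => (h y)⁻¹ * pd d h y := by
    filter_upwards [hev, hpe] with y hy hy2
    exact pd_log hy hy2 d
  have hi : Sm (fun y => (h y)⁻¹) x := ContDiffAt.inv hh hpos.ne'
  rw [pd_congr h1, pd_mul hi (hh.pd d), pd_inv' hh hpos]
  have : pd c (fun y => pd d h y) x = pd c (pd d h) x := rfl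
  ring

/-- second derivative at a minimum -/
theorem lev_min (hP : P = Bᵀ * B) (hev : ∀ᶠ y in 𝓝 x, Sm h y) (h0 : h x = 0)
    (hnn : ∀ᶠ y in 𝓝 x, 0 ≤ h y) :
    (∀ c, pd c h x = 0) ∧ 0 ≤ lev P h x := by
  have hh : Sm h x := hev.self_of_nhds
  have hmin : IsLocalMin h x := by
    filter_upwards [hnn] with y hy
    rw [h0]; exact hy
  have hfd : fderiv ℝ h x = 0 := hmin.fderiv_eq_zero
  have hpd : ∀ c, pd c h x = 0 := by
    intro c
    unfold pd
    rw [hfd]
    rfl
  refine ⟨hpd, ?_⟩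
  have h1 : lev P h x = ∑ i, ∑ c, ∑ d, B i c * B i d * pd c (fun y => pd d h y) x := by
    unfold lev
    have : ∀ c d, P c d * pd c (fun y => pd d h y) x
        = ∑ i, B i c * B i d * pd c (fun y => pd d h y) x := by
      intro c d
      rw [hP, Matrix.mul_apply, Finset.sum_mul]
      rfl
    simp only [this]
    rw [sum3_rot]
  rw [h1]
  refine Finset.sum_nonneg fun i _ => ?_
  -- one direction
  set v : ι → ℝ := B i with hv
  set k : ℝ → ℝ := fun t => h (x + t • v) with hk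
  have hline : ∀ t : ℝ, HasDerivAt (fun t : ℝ => x + t • v) v t := by
    intro t
    have := ((hasDerivAt_id t).smul_const v).const_add x
    simpa using this
  have hlc : Continuous (fun t : ℝ => x + t • v) := by fun_prop
  have hx0 : x + (0:ℝ) • v = x := by simp
  have hev' : ∀ᶠ t in 𝓝 (0:ℝ), Sm h (x + t • v) := by
    have : Filter.Tendsto (fun t : ℝ => x + t • v) (𝓝 0) (𝓝 x) := by
      have := hlc.tendsto 0
      rwa [hx0] at this
    exact this.eventually hev
  have hvsum : ∀ (L : (ι → ℝ) →L[ℝ] ℝ), L v = ∑ c, v c * L (Pi.single c 1) := by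
    intro L
    have : v = ∑ c, v c • (Pi.single c (1 : ℝ) : ι → ℝ) := by
      funext b
      simp only [Finset.sum_apply, Pi.smul_apply, Pi.single_apply, smul_eq_mul, mul_ite, mul_one, mul_zero, sum_ite_eq, mem_univ, ↓reduceIte]
    conv_lhs => rw [this]
    rw [map_sum]
    refine Finset.sum_congr rfl fun c _ => ?_
    rw [map_smul, smul_eq_mul]
  have hd1 : ∀ {F : (ι → ℝ) → ℝ} {t : ℝ}, Sm F (x + t • v) →
      HasDerivAt (fun t => F (x + t • v)) (∑ c, v c * pd c F (x + t • v)) t := by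
    intro F t hF
    have h2 := hF.diff.hasFDerivAt.comp_hasDerivAt t (hline t)
    rw [hvsum] at h2
    exact h2
  have hk1 : deriv k =ᶠ[𝓝 0] fun t => ∑ c, v c * pd c h (x + t • v) := by
    filter_upwards [hev'] with t ht
    exact (hd1 ht).deriv
  have hk2 : deriv (deriv k) 0 = ∑ c, ∑ d, v c * v d * pd c (fun y => pd d h y) x := by
    rw [hk1.deriv_eq]
    have h2 : ∀ d, HasDerivAt (fun t : ℝ => pd d h (x + t • v))
        (∑ c, v c * pd c (fun y => pd d h y) (x + (0:ℝ) • v)) 0 := by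
      intro d
      refine hd1 (F := fun y => pd d h y) (t := 0) ?_
      rw [hx0]
      exact hh.pd d
    have h3 : HasDerivAt (fun t : ℝ => ∑ d, v d * pd d h (x + t • v))
        (∑ d, v d * ∑ c, v c * pd c (fun y => pd d h y) (x + (0:ℝ) • v)) 0 := by
      refine HasDerivAt.fun_sum fun d _ => ?_
      exact (h2 d).const_mul (v d)
    rw [h3.deriv, hx0]
    rw [Finset.sum_comm]
    refine Finset.sum_congr rfl fun d _ => ?_
    rw [Finset.mul_sum]
    refine Finset.sum_congr rfl fun c _ => ?_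
    ring
  rw [← hk2]
  by_contra hneg
  push Not at hneg
  have hd0 : deriv k 0 = 0 := by
    rw [hk1.eq_of_nhds]
    refine Finset.sum_eq_zero fun c _ => ?_
    rw [hx0, hpd c, mul_zero]
  have hkc : ContinuousAt k 0 := by
    have := (hd1 (F := h) (t := 0) (by rw [hx0]; exact hh)).continuousAt
    exact this
  have hmax := isLocalMax_of_deriv_deriv_neg hneg hd0 hkc
  have hnn' : ∀ᶠ t in 𝓝 (0:ℝ), 0 ≤ k t := by
    have : Filter.Tendsto (fun t : ℝ => x + t • v) (𝓝 0) (𝓝 x) := by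
      have := hlc.tendsto 0
      rwa [hx0] at this
    exact this.eventually hnn
  have hk0 : k 0 = 0 := by
    simp only [hk]; rw [hx0, h0]
  have hzero : k =ᶠ[𝓝 0] fun _ => 0 := by
    filter_upwards [hmax, hnn'] with t ht1 ht2
    rw [hk0] at ht1
    exact le_antisymm ht1 ht2
  have h4 : deriv k =ᶠ[𝓝 0] fun _ => 0 := by
    have := hzero.eventually_nhds
    filter_upwards [this] with t ht
    have h5 : deriv k t = deriv (fun _ => (0:ℝ)) t := Filter.EventuallyEq.deriv_eq ht
    rw [h5, deriv_const]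
  rw [h4.deriv_eq, deriv_const] at hneg
  exact lt_irrefl _ hneg

/-- Hessian trace of `log (u + w)` -/
theorem lev_log_add (hP : P = Bᵀ * B) (hu : ∀ᶠ y in 𝓝 x, Sm u y) (hw : ∀ᶠ y in 𝓝 x, Sm w y)
    (hu0 : ∀ᶠ y in 𝓝 x, 0 ≤ u y) (hw0 : 0 < w x) (L K : ℝ)
    (hL : 0 < u x → L ≤ lev P (fun y => Real.log (u y)) x)
    (hK : -K ≤ lev P (fun y => Real.log (w y)) x) :
    (u x / (u x + w x)) * L - (w x / (u x + w x)) * K
      ≤ lev P (fun y => Real.log (u y + w y)) x := by
  have hux : 0 ≤ u x := hu0.self_of_nhds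
  have hs0 : 0 < u x + w x := by linarith
  have hsu := hu.self_of_nhds
  have hsw := hw.self_of_nhds
  have hpds : ∀ c, pd c (fun y => u y + w y) x = pd c u x + pd c w x := fun c => pd_add hsu hsw
  have hlevs : lev P (fun y => u y + w y) x = lev P u x + lev P w x := by
    unfold lev
    simp only [← Finset.sum_add_distrib]
    refine Finset.sum_congr rfl fun c _ => Finset.sum_congr rfl fun d _ => ?_
    have : (fun y => pd d (fun z => u z + w z) y) =ᶠ[𝓝 x] fun y => pd d u y + pd d w y := by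
      filter_upwards [hu, hw] with y h1 h2
      exact pd_add h1 h2
    rw [pd_congr this, pd_add (hsu.pd d) (hsw.pd d)]
    have e1 : pd c (fun y => pd d u y) x = pd c (pd d u) x := rfl
    ring
  have hlogs := lev_log (P := P) (x := x) (h := fun y => u y + w y)
    (by filter_upwards [hu, hw] with y h1 h2; exact h1.add h2) hs0
  have hlogw := lev_log (P := P) hw hw0
  rw [hlogs, hlevs]
  rw [hlogw] at hK
  set s := u x + w x with hs
  have hgs : gn P (fun y => u y + w y) x = ∑ i, ((∑ c, B i c * pd c u x) + ∑ c, B i c * pd c w x) ^ 2 := by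
    rw [gn_eq hP]
    refine Finset.sum_congr rfl fun i _ => ?_
    simp only [hpds, mul_add, Finset.sum_add_distrib]
  rw [hgs]
  rw [gn_eq hP] at hK
  set a : ι → ℝ := fun i => ∑ c, B i c * pd c u x with ha
  set b : ι → ℝ := fun i => ∑ c, B i c * pd c w x with hb
  by_cases hu1 : u x = 0
  · obtain ⟨hz1, hz2⟩ := lev_min hP hu hu1 hu0
    have hsw' : s = w x := by rw [hs, hu1, zero_add]
    have ha0 : ∀ i, a i = 0 := by
      intro i
      simp only [ha, hz1, mul_zero, Finset.sum_const_zero]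
    have e1 : (∑ i, (a i + b i) ^ 2) = ∑ i, b i ^ 2 := by
      refine Finset.sum_congr rfl fun i _ => ?_
      rw [ha0 i, zero_add]
    have e1' : (∑ i, ((∑ c, B i c * pd c u x) + ∑ c, B i c * pd c w x) ^ 2) = ∑ i, b i ^ 2 := e1
    rw [e1', hu1, zero_div, zero_mul, hsw', div_self hw0.ne', one_mul]
    have h3 : 0 ≤ (w x)⁻¹ * lev P u x := mul_nonneg (inv_nonneg.mpr hw0.le) hz2
    have h4 : -K ≤ (w x)⁻¹ * lev P w x - (w x)⁻¹ * (w x)⁻¹ * ∑ i, b i ^ 2 := hK
    rw [mul_add]
    linarith only [hK, h3]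
  · have hupos : 0 < u x := lt_of_le_of_ne hux (Ne.symm hu1)
    have hL' := hL hupos
    rw [lev_log hu hupos, gn_eq hP] at hL'
    have hL2 : L ≤ (u x)⁻¹ * lev P u x - (u x)⁻¹ * (u x)⁻¹ * ∑ i, a i ^ 2 := hL'
    have hK2 : -K ≤ (w x)⁻¹ * lev P w x - (w x)⁻¹ * (w x)⁻¹ * ∑ i, b i ^ 2 := hK
    have hcs : s⁻¹ * ∑ i, (a i + b i) ^ 2
        ≤ (u x)⁻¹ * (∑ i, a i ^ 2) + (w x)⁻¹ * ∑ i, b i ^ 2 := by
      rw [Finset.mul_sum, Finset.mul_sum, Finset.mul_sum, ← Finset.sum_add_distrib]
      refine Finset.sum_le_sum fun i _ => ?_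
      have h5 : (a i + b i) ^ 2 / (u x + w x) ≤ a i ^ 2 / u x + b i ^ 2 / w x := by
        rw [div_add_div _ _ hupos.ne' hw0.ne', div_le_div_iff₀ hs0 (by (clear * - hux hu1 hw0; positivity))]
        nlinarith only [sq_nonneg (a i * w x - b i * u x)]
      have e5 : s⁻¹ * (a i + b i) ^ 2 = (a i + b i) ^ 2 / (u x + w x) := by
        rw [hs, div_eq_mul_inv, mul_comm]
      have e6 : (u x)⁻¹ * a i ^ 2 + (w x)⁻¹ * b i ^ 2 = a i ^ 2 / u x + b i ^ 2 / w x := by
        rw [div_eq_mul_inv, div_eq_mul_inv]; ring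
      rw [e5, e6]
      exact h5
    have hsinv : 0 < s⁻¹ := inv_pos.mpr hs0
    have k1 : u x * L ≤ lev P u x - (u x)⁻¹ * ∑ i, a i ^ 2 := by
      have := mul_le_mul_of_nonneg_left hL2 hupos.le
      have e7 : u x * ((u x)⁻¹ * lev P u x - (u x)⁻¹ * (u x)⁻¹ * ∑ i, a i ^ 2)
          = lev P u x - (u x)⁻¹ * ∑ i, a i ^ 2 := by
        (clear * - hu1; field_simp)
      rwa [e7] at this
    have k2 : w x * -K ≤ lev P w x - (w x)⁻¹ * ∑ i, b i ^ 2 := by
      have := mul_le_mul_of_nonneg_left hK2 hw0.le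
      have e7 : w x * ((w x)⁻¹ * lev P w x - (w x)⁻¹ * (w x)⁻¹ * ∑ i, b i ^ 2)
          = lev P w x - (w x)⁻¹ * ∑ i, b i ^ 2 := by
        (clear * - hw0; field_simp)
      rwa [e7] at this
    have k3 : s⁻¹ * (u x * L + w x * -K) ≤ s⁻¹ * ((lev P u x + lev P w x)
        - s⁻¹ * ∑ i, (a i + b i) ^ 2) := by
      refine mul_le_mul_of_nonneg_left ?_ hsinv.le
      linarith only [hcs, k1, k2]
    have e8 : u x / s * L - w x / s * K = s⁻¹ * (u x * L + w x * -K) := by
      rw [div_eq_mul_inv, div_eq_mul_inv]; ring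
    have e9 : s⁻¹ * ((lev P u x + lev P w x) - s⁻¹ * ∑ i, (a i + b i) ^ 2)
        = s⁻¹ * (lev P u x + lev P w x) - s⁻¹ * s⁻¹ * ∑ i, (a i + b i) ^ 2 := by ring
    rw [e8]
    rw [e9] at k3
    exact k3

end

end Vale.Agent.P223
end
end

section

section

set_option maxSynthPendingDepth 3

namespace Vale.Agent.P223

open scoped Matrix ContDiff Topology Manifold
open Finset MeasureTheory

variable {ι : Type} [Fintype ι] [DecidableEq ι]

section

variable {M : Type} [TopologicalSpace M] [ChartedSpace (ι → ℝ) M]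
  {N : Type} [TopologicalSpace N] [ChartedSpace (ι → ℝ) N]

variable {J : Matrix ι ι ℝ} {f : M → N} {g : RMetric ι M} {g0 : RMetric ι N}
  [IsManifold 𝓘(ℝ, ι → ℝ) ∞ M] [IsManifold 𝓘(ℝ, ι → ℝ) ∞ N]

theorem pden_ev (hJ : J * J = -1) (hf : HoloMap J f) (g0 : RMetric ι N)
    {e : OpenPartialHomeomorph M (ι → ℝ)} (he : e ∈ atlas (ι → ℝ) M)
    {e' : OpenPartialHomeomorph N (ι → ℝ)} (he' : e' ∈ atlas (ι → ℝ) N) {x : ι → ℝ}
    (hx : x ∈ e.target) (hx' : f (e.symm x) ∈ e'.source) :
    pden g0 f e =ᶠ[𝓝 x] fun y => dens (g0.mat e') (cmap f e e' y) * (jac (cmap f e e') y).det := by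
  filter_upwards [(cdom_open hf.cont e e').mem_nhds ⟨hx, hx'⟩] with y hy
  rw [pden_eq hf g0 he he' hy.1 hy.2,
    abs_of_nonneg (det_nonneg_of_comm hJ (hf.holo e he e' he' y hy.1 hy.2))]

theorem pden_smooth (hJ : J * J = -1) (hf : HoloMap J f) (g0 : RMetric ι N)
    {e : OpenPartialHomeomorph M (ι → ℝ)} (he : e ∈ atlas (ι → ℝ) M) {x : ι → ℝ}
    (hx : x ∈ e.target) : Sm (pden g0 f e) x := by
  set e' := chartAt (ι → ℝ) (f (e.symm x)) with he'
  have he'a : e' ∈ atlas (ι → ℝ) N := chart_mem_atlas _ _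
  have he's : f (e.symm x) ∈ e'.source := mem_chart_source _ _
  have hψ := hf.smooth e he e' he'a x hx he's
  have h1 : Sm (fun y => dens (g0.mat e') (cmap f e e' y) * (jac (cmap f e e') y).det) x :=
    (sm_comp (h := dens (g0.mat e')) hψ
      ((g0.isMetric e' he'a).sm_dens e'.open_target (e'.map_source he's))).mul
      (Sm.det fun a b => sm_jac hψ a b)
  exact h1.congr_of_eventuallyEq (pden_ev hJ hf g0 he he'a hx he's)

theorem pden_nonneg (hf : HoloMap J f) (g0 : RMetric ι N)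
    {e : OpenPartialHomeomorph M (ι → ℝ)} (he : e ∈ atlas (ι → ℝ) M) {x : ι → ℝ}
    (hx : x ∈ e.target) : 0 ≤ pden g0 f e x := by
  have he's : f (e.symm x) ∈ (chartAt (ι → ℝ) (f (e.symm x))).source := mem_chart_source _ _
  rw [pden_eq hf g0 he (chart_mem_atlas _ _) hx he's]
  exact mul_nonneg ((g0.isMetric _ (chart_mem_atlas _ _)).dens_pos
    ((chartAt (ι → ℝ) (f (e.symm x))).map_source he's)).le (abs_nonneg _)

/-- Levi form bound for the pulled back volume density. -/
theorem pden_levi (hJ : J * J = -1) (hf : HoloMap J f) (hg : g.IsHermitian J)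
    (hg0 : g0.IsHermitian J) (hK : g0.IsKahler J) (hn : 2 ≤ Fintype.card ι)
    {lam eta : ℝ} (hlam : 0 ≤ lam) (hRic : RicBound g g0 f lam eta)
    {e : OpenPartialHomeomorph M (ι → ℝ)} (he : e ∈ atlas (ι → ℝ) M) {x : ι → ℝ}
    (hx : x ∈ e.target) (hpos : 0 < pden g0 f e x) :
    (Fintype.card ι : ℝ) * lam *
        (pden g0 f e x / dens (g.mat e) x) ^ ((2 : ℝ) / (Fintype.card ι : ℝ))
        - (Fintype.card ι : ℝ) * eta
      ≤ lev (g.mat e x)⁻¹ (fun y => Real.log (pden g0 f e y)) x := by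
  set e' := chartAt (ι → ℝ) (f (e.symm x)) with he'
  have he'a : e' ∈ atlas (ι → ℝ) N := chart_mem_atlas _ _
  have he's : f (e.symm x) ∈ e'.source := mem_chart_source _ _
  set ψ := cmap f e e' with hψd
  -- the open set where ψ is a local diffeomorphism
  set U0 : Set (ι → ℝ) := e.target ∩ {y | f (e.symm y) ∈ e'.source} with hU0
  have hU0o : IsOpen U0 := cdom_open hf.cont e e'
  have hψs : ∀ y ∈ U0, ContDiffAt ℝ ∞ ψ y := fun y hy => hf.smooth e he e' he'a y hy.1 hy.2
  have hdc : ContinuousOn (fun y => (jac ψ y).det) U0 := fun y hy =>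
    (Sm.det fun a b => sm_jac (hψs y hy) a b).continuousAt.continuousWithinAt
  set U : Set (ι → ℝ) := U0 ∩ {y | (jac ψ y).det ≠ 0} with hU
  have hUo : IsOpen U := hdc.isOpen_inter_preimage hU0o isOpen_ne
  have hmaps : ∀ y ∈ U, ψ y ∈ e'.target := fun y hy => e'.map_source hy.1.2
  have hψU : ∀ y ∈ U, ContDiffAt ℝ ∞ ψ y := fun y hy => hψs y hy.1
  have hdet : ∀ y ∈ U, (jac ψ y).det ≠ 0 := fun y hy => hy.2
  have hJψ : ∀ y ∈ U, jac ψ y * J = J * jac ψ y := fun y hy =>
    hf.holo e he e' he'a y hy.1.1 hy.1.2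
  have hxU : x ∈ U := by
    refine ⟨⟨hx, he's⟩, ?_⟩
    intro h0
    rw [pden_eq hf g0 he he'a hx he's, ← hψd, h0, abs_zero, mul_zero] at hpos
    exact lt_irrefl _ hpos
  have hm' := g0.isMetric e' he'a
  have hpb : IsMetricOn U (pb ψ (g0.mat e')) :=
    pb_metric hm' e'.open_target hmaps hψU hdet
  have hchg : Chg U U e'.target ψ (pb ψ (g0.mat e')) (g0.mat e') := pb_chg hUo hmaps hψU
  have hpbH := pb_herm (g' := g0.mat e') (J := J) hmaps hJψ (hg0 e' he'a)
  have hpbK := pb_kahler hJ hm' e'.open_target hUo hmaps hψU hJψ (hg0 e' he'a) (hK e' he'a)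
  have hgm := g.isMetric e he
  have hsub : U ⊆ e.target := fun y hy => hy.1.1
  have hgU : IsMetricOn U (g.mat e) :=
    ⟨fun a b => (hgm.smooth a b).mono hsub, fun y hy => hgm.posDef y (hsub hy)⟩
  have hdens : ∀ y ∈ U, dens (pb ψ (g0.mat e')) y = pden g0 f e y := by
    intro y hy
    rw [hchg.dens_eq hy, pden_eq hf g0 he he'a hy.1.1 hy.1.2, mul_comm]
  -- Hessian of the log of the density
  have h1 : lev (g.mat e x)⁻¹ (fun y => Real.log (pden g0 f e y)) x
      = - ∑ c, ∑ d, (g.mat e x)⁻¹ c d * ricci (pb ψ (g0.mat e')) x c d := by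
    rw [← hess_trace hgU hpb hUo hxU hJ (fun y hy => hg e he y (hsub hy)) hpbH hpbK]
    have : (fun y => Real.log (pden g0 f e y)) =ᶠ[𝓝 x]
        fun z => Real.log (dens (pb ψ (g0.mat e')) z) := by
      filter_upwards [hUo.mem_nhds hxU] with y hy
      rw [hdens y hy]
    exact lev_congr this
  rw [h1]
  have hric : ∀ a b, ricci (pb ψ (g0.mat e')) x a b
      = ∑ q, ∑ r, jac ψ x q b * jac ψ x r a * ricci (g0.mat e') (ψ x) r q := fun a b =>
    ricci_trans hpb hUo hm' e'.open_target hchg hxU a b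
  have hquad : ∀ (R' : ι → ι → ℝ) (v : ι → ℝ),
      (∑ a, ∑ b, v a * v b * ∑ q, ∑ r, jac ψ x q b * jac ψ x r a * R' r q)
        = ∑ r, ∑ q, (jac ψ x *ᵥ v) r * (jac ψ x *ᵥ v) q * R' r q := by
    intro R' v
    have e1 : ∀ r q, (jac ψ x *ᵥ v) r * (jac ψ x *ᵥ v) q * R' r q
        = ∑ a, ∑ b, (v a * v b) * (jac ψ x q b * jac ψ x r a * R' r q) := by
      intro r q
      have hm : ∀ k, (jac ψ x *ᵥ v) k = ∑ a, jac ψ x k a * v a := fun k => rfl
      rw [hm, hm, Finset.sum_mul_sum, Finset.sum_mul]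
      refine Finset.sum_congr rfl fun a _ => ?_
      rw [Finset.sum_mul]
      refine Finset.sum_congr rfl fun b _ => ?_
      ring
    simp only [e1, Finset.mul_sum]
    rw [s34, s23, s12, s34, s23]
  have hpbx : pb ψ (g0.mat e') x = (jac ψ x)ᵀ * g0.mat e' (ψ x) * jac ψ x := rfl
  have htr := trace_ineq hgm hx (hpb.posDef x hxU) hn lam eta hlam
    (fun a b => ricci (pb ψ (g0.mat e')) x a b) ?_
  · refine le_trans (le_of_eq ?_) htr
    congr 2
    have hd1 : 0 < dens (g.mat e) x := hgm.dens_pos hx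
    have hd2 : (pb ψ (g0.mat e') x).det = (pden g0 f e x) ^ 2 := by
      rw [← hdens x hxU]
      unfold dens
      rw [Real.sq_sqrt (hpb.det_pos hxU).le]
    have hd3 : (g.mat e x).det = (dens (g.mat e) x) ^ 2 := by
      unfold dens
      rw [Real.sq_sqrt (hgm.det_pos hx).le]
    rw [hd2, hd3, ← div_pow]
    have hr : 0 ≤ pden g0 f e x / dens (g.mat e) x := div_nonneg hpos.le hd1.le
    rw [← Real.rpow_natCast, ← Real.rpow_mul hr]
    congr 1
    push_cast
    ring
  · intro v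
    have hb := hRic e he e' he'a x hx he's v (jac ψ x *ᵥ v) rfl
    have e1 : (∑ a, ∑ b, v a * v b * ricci (pb ψ (g0.mat e')) x a b)
        = ∑ r, ∑ q, (jac ψ x *ᵥ v) r * (jac ψ x *ᵥ v) q * ricci (g0.mat e') (ψ x) r q := by
      simp only [hric]
      exact hquad _ v
    have e2 : (∑ a, ∑ b, v a * v b * pb ψ (g0.mat e') x a b)
        = ∑ r, ∑ q, (jac ψ x *ᵥ v) r * (jac ψ x *ᵥ v) q * g0.mat e' (ψ x) r q := by
      rw [← hquad (fun r q => g0.mat e' (ψ x) r q) v]
      refine Finset.sum_congr rfl fun a _ => Finset.sum_congr rfl fun b _ => ?_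
      congr 1
      rw [hpbx, mul3_apply, Finset.sum_comm]
      refine Finset.sum_congr rfl fun q _ => Finset.sum_congr rfl fun r _ => ?_
      ring
    rw [e1, e2]
    exact hb

end

end Vale.Agent.P223
end
end

section

section

set_option maxSynthPendingDepth 3

namespace Vale.Agent.P223

open scoped Matrix ContDiff Topology Manifold
open Finset MeasureTheory

variable {ι : Type} [Fintype ι] [DecidableEq ι]

section

variable {M : Type} [TopologicalSpace M] [ChartedSpace (ι → ℝ) M] [MeasurableSpace M]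
  [BorelSpace M] [IsManifold 𝓘(ℝ, ι → ℝ) ∞ M] [CompactSpace M] [T2Space M]
  {N : Type} [TopologicalSpace N] [ChartedSpace (ι → ℝ) N] [IsManifold 𝓘(ℝ, ι → ℝ) ∞ N]
  {J : Matrix ι ι ℝ} {f : M → N} {g : RMetric ι M} {g0 : RMetric ι N} {μ : Measure M}

theorem relJac_nonneg (hf : HoloMap J f) (g : RMetric ι M) (g0 : RMetric ι N) (p : M) :
    0 ≤ relJac g g0 f p := by
  have hp := mem_chart_source (ι → ℝ) p
  have ha := chart_mem_atlas (ι → ℝ) p
  rw [relJac_eq hf g g0 ha hp]
  exact div_nonneg (pden_nonneg hf g0 ha ((chartAt (ι → ℝ) p).map_source hp))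
    ((g.isMetric _ ha).dens_pos ((chartAt (ι → ℝ) p).map_source hp)).le

theorem relJac_continuous (hJ : J * J = -1) (hf : HoloMap J f) (g : RMetric ι M)
    (g0 : RMetric ι N) : Continuous (relJac g g0 f) := by
  refine continuous_of_charts (ι := ι) fun e he => ?_
  intro x hx
  refine ContinuousAt.continuousWithinAt ?_
  have h1 : ContinuousAt (fun y => pden g0 f e y / dens (g.mat e) y) x :=
    (pden_smooth hJ hf g0 he hx).continuousAt.div
      ((g.isMetric e he).sm_dens e.open_target hx).continuousAt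
      ((g.isMetric e he).dens_pos hx).ne'
  refine h1.congr ?_
  filter_upwards [e.open_target.mem_nhds hx] with y hy
  rw [relJac_eq hf g g0 he (e.map_target hy), e.right_inv hy]

theorem IsMetricOn.lev_logdens_continuousOn {X : Set (ι → ℝ)} {g : (ι → ℝ) → Matrix ι ι ℝ}
    (hg : IsMetricOn X g) (hX : IsOpen X) :
    ContinuousOn (fun x => lev (g x)⁻¹ (fun y => Real.log (dens g y)) x) X := by
  intro x hx
  have h1 : Sm (fun x => ∑ c, ∑ d, (g x)⁻¹ c d *
      pd c (fun y => pd d (fun y => Real.log (dens g y)) y) x) x :=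
    Sm.sum fun c _ => Sm.sum fun d _ => (hg.sm_inv hX hx c d).mul
      (((hg.sm_logdens hX hx).pd d).pd c)
  exact h1.continuousAt.continuousWithinAt

/-- The regularized inequality. -/
theorem eps_ineq (hμ : IsVol g μ) (hJ : J * J = -1) (hol : HoloAtlas J M) (hf : HoloMap J f)
    (hg : g.IsHermitian J) (hg0 : g0.IsHermitian J) (hK : g0.IsKahler J)
    (hn : 2 ≤ Fintype.card ι) {lam eta : ℝ} (hlam : 0 ≤ lam) (hRic : RicBound g g0 f lam eta) :
    ∃ K : ℝ, 0 ≤ K ∧ ∀ ε : ℝ, 0 < ε →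
      ∫ p, (relJac g g0 f p + ε) ^ (kk ι) * (g.scalar p +
        ((relJac g g0 f p / (relJac g g0 f p + ε)) * ((Fintype.card ι : ℝ) * lam *
            (relJac g g0 f p) ^ ((2 : ℝ) / (Fintype.card ι : ℝ)) - (Fintype.card ι : ℝ) * eta)
          - (ε / (relJac g g0 f p + ε)) * K)) ∂μ ≤ 0 := by
  obtain ⟨P⟩ := exists_PU ι M
  have hC : ∀ j : M, ∃ C : ℝ, ∀ x ∈ (chartAt (ι → ℝ) j) '' tsupport (P.χ j),
      ‖lev (g.mat (chartAt (ι → ℝ) j) x)⁻¹
        (fun y => Real.log (dens (g.mat (chartAt (ι → ℝ) j)) y)) x‖ ≤ C := by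
    intro j
    obtain ⟨h1, h2, h3⟩ := tsupport_ext0 (chartAt (ι → ℝ) j) (P.supp j)
    exact h1.exists_bound_of_continuousOn
      (((g.isMetric _ (chart_mem_atlas _ j)).lev_logdens_continuousOn
        (chartAt (ι → ℝ) j).open_target).mono h3)
  choose C hC using hC
  set K : ℝ := ∑ j ∈ P.s, |C j| with hKd
  have hK0 : 0 ≤ K := Finset.sum_nonneg fun j _ => abs_nonneg _
  refine ⟨K, hK0, fun ε hε => ?_⟩
  set q := relJac g g0 f with hq
  have hq0 : ∀ p, 0 ≤ q p := relJac_nonneg hf g g0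
  have hqc : Continuous q := relJac_continuous hJ hf g g0
  set n : ℝ := (Fintype.card ι : ℝ) with hnd
  have hn2 : (2 : ℝ) ≤ n := by rw [hnd]; exact_mod_cast hn
  set f0 : OpenPartialHomeomorph M (ι → ℝ) → (ι → ℝ) → ℝ := fun e x =>
    Real.log (pden g0 f e x + ε * dens (g.mat e) x) with hf0
  set Φ : M → ℝ := fun p => - Real.log (q p + ε) with hΦd
  have hpos : ∀ e ∈ atlas (ι → ℝ) M, ∀ x ∈ e.target, 0 < pden g0 f e x + ε * dens (g.mat e) x := by
    intro e he x hx
    have h1 := pden_nonneg hf g0 he hx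
    have h2 := (g.isMetric e he).dens_pos hx
    (clear * - h1 hε h2; positivity)
  have h0 : ∀ e ∈ atlas (ι → ℝ) M, ∀ x ∈ e.target, Sm (f0 e) x := by
    intro e he x hx
    have h1 : Sm (fun x => pden g0 f e x + ε * dens (g.mat e) x) x :=
      (pden_smooth hJ hf g0 he hx).add
        ((Sm.const _).mul ((g.isMetric e he).sm_dens e.open_target hx))
    exact ContDiffAt.log h1 (hpos e he x hx).ne'
  have hqe : ∀ e ∈ atlas (ι → ℝ) M, ∀ p ∈ e.source,
      pden g0 f e (e p) = q p * dens (g.mat e) (e p) := by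
    intro e he p hp
    have h2 := (g.isMetric e he).dens_pos (e.map_source hp)
    rw [hq, relJac_eq hf g g0 he hp, div_mul_cancel₀ _ h2.ne']
  have hΦ : ∀ e ∈ atlas (ι → ℝ) M, ∀ p ∈ e.source, FF (g.mat e) (f0 e) (e p) = Φ p := by
    intro e he p hp
    have h2 := (g.isMetric e he).dens_pos (e.map_source hp)
    unfold FF
    simp only [hf0, hΦd]
    rw [hqe e he p hp, ← add_mul, Real.log_mul (by have := hq0 p; (clear * - this hε; positivity)) h2.ne']
    ring
  -- the lower bound function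
  set H : M → ℝ := fun p => (q p / (q p + ε)) * (n * lam * (q p) ^ ((2 : ℝ) / n) - n * eta)
          - (ε / (q p + ε)) * K with hHd
  have hHc : Continuous H := by
    have h1 : Continuous fun p => q p + ε := hqc.add continuous_const
    have h2 : ∀ p, q p + ε ≠ 0 := fun p => by have := hq0 p; (clear * - this hε; positivity)
    have h3 : Continuous fun p => (q p) ^ ((2 : ℝ) / n) :=
      hqc.rpow_const fun p => Or.inr (by positivity)
    exact ((hqc.div h1 h2).mul ((continuous_const.mul h3).sub continuous_const)).sub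
      ((continuous_const.div h1 h2).mul continuous_const)
  have hHl : ∀ j ∈ P.s, ∀ p ∈ tsupport (P.χ j), H p ≤ ∑ c, ∑ d,
      (g.mat (chartAt (ι → ℝ) j) (chartAt (ι → ℝ) j p))⁻¹ c d *
      pd c (fun y => pd d (f0 (chartAt (ι → ℝ) j)) y) (chartAt (ι → ℝ) j p) := by
    intro j hj p hp
    set e := chartAt (ι → ℝ) j with he
    have hea : e ∈ atlas (ι → ℝ) M := chart_mem_atlas _ j
    have hpe : p ∈ e.source := P.supp j hp
    have hx : e p ∈ e.target := e.map_source hpe
    have hgm := g.isMetric e hea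
    have hd0 := hgm.dens_pos hx
    obtain ⟨B, hB, -⟩ := exists_factor ((g.mat e (e p))⁻¹) (hgm.posDef _ hx).inv
    have hu : ∀ᶠ y in 𝓝 (e p), Sm (pden g0 f e) y := by
      filter_upwards [e.open_target.mem_nhds hx] with y hy
      exact pden_smooth hJ hf g0 hea hy
    have hw : ∀ᶠ y in 𝓝 (e p), Sm (fun y => ε * dens (g.mat e) y) y := by
      filter_upwards [e.open_target.mem_nhds hx] with y hy
      exact (Sm.const _).mul (hgm.sm_dens e.open_target hy)
    have hu0 : ∀ᶠ y in 𝓝 (e p), 0 ≤ pden g0 f e y := by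
      filter_upwards [e.open_target.mem_nhds hx] with y hy
      exact pden_nonneg hf g0 hea hy
    have hKx : -K ≤ lev (g.mat e (e p))⁻¹ (fun y => Real.log (ε * dens (g.mat e) y)) (e p) := by
      have h1 : lev (g.mat e (e p))⁻¹ (fun y => Real.log (ε * dens (g.mat e) y)) (e p)
          = lev (g.mat e (e p))⁻¹ (fun y => Real.log (dens (g.mat e) y)) (e p) := by
        unfold lev
        refine Finset.sum_congr rfl fun c _ => Finset.sum_congr rfl fun d _ => ?_
        congr 1
        apply pd_congr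
        filter_upwards [e.open_target.mem_nhds hx] with y hy
        have : (fun z => Real.log (ε * dens (g.mat e) z)) =ᶠ[𝓝 y]
            fun z => Real.log ε + Real.log (dens (g.mat e) z) := by
          filter_upwards [e.open_target.mem_nhds hy] with z hz
          rw [Real.log_mul hε.ne' (hgm.dens_pos hz).ne']
        rw [pd_congr this, pd_add (Sm.const _) (hgm.sm_logdens e.open_target hy), pd_const,
          zero_add]
      rw [h1]
      have h2 := hC j (e p) ⟨p, hp, rfl⟩
      rw [Real.norm_eq_abs] at h2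
      have h3 : |C j| ≤ K := Finset.single_le_sum (f := fun j => |C j|)
        (fun j _ => abs_nonneg _) hj
      have h4 := neg_abs_le (lev (g.mat e (e p))⁻¹ (fun y => Real.log (dens (g.mat e) y)) (e p))
      have h5 := le_abs_self (C j)
      linarith only [h2, h3, h4, h5]
    have hmain := lev_log_add hB hu hw hu0 (by (clear * - hε hd0; positivity) : 0 < ε * dens (g.mat e) (e p))
      (n * lam * (pden g0 f e (e p) / dens (g.mat e) (e p)) ^ ((2 : ℝ) / n) - n * eta) K
      (fun hp0 => pden_levi hJ hf hg hg0 hK hn hlam hRic hea hx hp0) hKx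
    refine le_trans (le_of_eq ?_) hmain
    simp only [hHd]
    rw [hqe e hea p hpe]
    have e1 : q p * dens (g.mat e) (e p) / dens (g.mat e) (e p) = q p := by
      (clear * - hd0; field_simp)
    have hqε : 0 < q p + ε := by have := hq0 p; (clear * - this hε; positivity)
    have e2 : q p * dens (g.mat e) (e p) / (q p * dens (g.mat e) (e p) + ε * dens (g.mat e) (e p))
        = q p / (q p + ε) := by
      rw [← add_mul, mul_div_mul_right _ _ hd0.ne']
    have e3 : ε * dens (g.mat e) (e p) / (q p * dens (g.mat e) (e p) + ε * dens (g.mat e) (e p))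
        = ε / (q p + ε) := by
      rw [← add_mul, mul_div_mul_right _ _ hd0.ne']
    rw [e1, e2, e3]
  have hfin := analysis P hμ hJ hol hg hn h0 hΦ hHc hHl
  refine le_trans (le_of_eq ?_) hfin
  refine integral_congr_ae (Filter.Eventually.of_forall fun p => ?_)
  simp only [hHd, hΦd]
  congr 1
  have hqε : 0 < q p + ε := by have := hq0 p; (clear * - this hε; positivity)
  rw [Real.rpow_def_of_pos hqε]
  congr 1
  ring

end

end Vale.Agent.P223
end
end

section

section

set_option maxSynthPendingDepth 3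

namespace Vale.Agent.P223

open scoped Matrix ContDiff Topology Manifold
open Finset MeasureTheory

variable {ι : Type} [Fintype ι] [DecidableEq ι]

section

variable {M : Type} [TopologicalSpace M] [ChartedSpace (ι → ℝ) M] [MeasurableSpace M]
  [BorelSpace M] [IsManifold 𝓘(ℝ, ι → ℝ) ∞ M] [CompactSpace M] [T2Space M]
  {N : Type} [TopologicalSpace N] [ChartedSpace (ι → ℝ) N] [IsManifold 𝓘(ℝ, ι → ℝ) ∞ N]
  {J : Matrix ι ι ℝ} {f : M → N} {g : RMetric ι M} {g0 : RMetric ι N} {μ : Measure M}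

/-- abstract limit `ε → 0` -/
theorem limit_step (μ : Measure M) [IsFiniteMeasure μ] {κ a lam eta n K : ℝ} (hκ : 0 < κ)
    (ha : 0 < a) (hκa : κ + a = 1) (hlam : 0 ≤ lam) (heta : 0 ≤ eta) (hn : 0 ≤ n) (hK : 0 ≤ K)
    {q S : M → ℝ} (hq0 : ∀ p, 0 ≤ q p) (hqc : Continuous q) (hSc : Continuous S)
    (h : ∀ ε : ℝ, 0 < ε → ∫ p, (q p + ε) ^ κ * (S p +
      ((q p / (q p + ε)) * (n * lam * (q p) ^ a - n * eta) - (ε / (q p + ε)) * K)) ∂μ ≤ 0) :
    ∫ p, (q p ^ κ * S p + n * lam * q p - n * eta * q p ^ κ) ∂μ ≤ 0 := by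
  set G : ℕ → M → ℝ := fun k p => (q p + 1 / ((k : ℝ) + 1)) ^ κ * (S p +
      ((q p / (q p + 1 / ((k : ℝ) + 1))) * (n * lam * (q p) ^ a - n * eta)
        - ((1 / ((k : ℝ) + 1)) / (q p + 1 / ((k : ℝ) + 1))) * K)) with hG
  -- bounds
  obtain ⟨Q, hQ⟩ : ∃ Q, ∀ p, ‖q p‖ ≤ Q := by
    obtain ⟨Q, hQ⟩ := isCompact_univ.exists_bound_of_continuousOn (f := q) hqc.continuousOn
    exact ⟨Q, fun p => hQ p (Set.mem_univ p)⟩
  obtain ⟨C, hC⟩ : ∃ C, ∀ p, ‖S p‖ ≤ C := by
    obtain ⟨C, hC⟩ := isCompact_univ.exists_bound_of_continuousOn (f := S) hSc.continuousOn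
    exact ⟨C, fun p => hC p (Set.mem_univ p)⟩
  have hQ' : ∀ p, q p ≤ |Q| := fun p => (le_abs_self _).trans ((hQ p).trans (le_abs_self _))
  have hC' : ∀ p, |S p| ≤ |C| := fun p => (hC p).trans (le_abs_self _)
  have hεpos : ∀ k : ℕ, 0 < 1 / ((k : ℝ) + 1) := fun k => Nat.one_div_pos_of_nat
  have hεle : ∀ k : ℕ, 1 / ((k : ℝ) + 1) ≤ 1 := by
    intro k
    rw [div_le_one (by (clear * -; positivity))]
    have : (0:ℝ) ≤ k := Nat.cast_nonneg k
    linarith only []
  have hlim : Filter.Tendsto (fun k => ∫ p, G k p ∂μ) Filter.atTop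
      (𝓝 (∫ p, (q p ^ κ * S p + n * lam * q p - n * eta * q p ^ κ) ∂μ)) := by
    refine tendsto_integral_of_dominated_convergence
      (fun _ => (|Q| + 1) ^ κ * (|C| + (n * lam * |Q| ^ a + n * eta) + K)) ?_ ?_ ?_ ?_
    · intro k
      have h1 : Continuous fun p => q p + 1 / ((k : ℝ) + 1) := hqc.add continuous_const
      have h2 : ∀ p, q p + 1 / ((k : ℝ) + 1) ≠ 0 := fun p => by
        have := hq0 p; have := hεpos k; (clear κ a lam eta n K hκ ha hκa hlam heta hn hK S hqc hSc h G hG Q hQ C hC hQ' hC' hεpos hεle h1 this; positivity)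
      have h3 : Continuous fun p => (q p) ^ a := hqc.rpow_const fun p => Or.inr ha.le
      have h4 : Continuous fun p => (q p + 1 / ((k : ℝ) + 1)) ^ κ :=
        h1.rpow_const fun p => Or.inr hκ.le
      exact (h4.mul (hSc.add (((hqc.div h1 h2).mul ((continuous_const.mul h3).sub
        continuous_const)).sub ((continuous_const.div h1 h2).mul
        continuous_const)))).aestronglyMeasurable
    · exact integrable_const _
    · intro k
      refine Filter.Eventually.of_forall fun p => ?_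
      have hq := hq0 p
      have hε := hεpos k
      have hε1 := hεle k
      have hs : 0 < q p + 1 / ((k : ℝ) + 1) := by (clear * - hq; positivity)
      have hθ0 : 0 ≤ q p / (q p + 1 / ((k : ℝ) + 1)) := by (clear * - hq; positivity)
      have hθ1 : q p / (q p + 1 / ((k : ℝ) + 1)) ≤ 1 := by
        rw [div_le_one hs]; linarith only [hε]
      have hτ0 : 0 ≤ (1 / ((k : ℝ) + 1)) / (q p + 1 / ((k : ℝ) + 1)) := by (clear * - hq; positivity)
      have hτ1 : (1 / ((k : ℝ) + 1)) / (q p + 1 / ((k : ℝ) + 1)) ≤ 1 := by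
        rw [div_le_one hs]; linarith only [hq]
      rw [Real.norm_eq_abs]
      simp only [hG]
      rw [abs_mul, abs_of_nonneg (Real.rpow_nonneg hs.le κ)]
      refine mul_le_mul ?_ ?_ (abs_nonneg _) (by (clear * -; positivity))
      · exact Real.rpow_le_rpow hs.le (add_le_add (hQ' p) hε1) hκ.le
      · have e1 : |n * lam * (q p) ^ a - n * eta| ≤ n * lam * |Q| ^ a + n * eta := by
          have h5 : (q p) ^ a ≤ |Q| ^ a := Real.rpow_le_rpow hq (hQ' p) ha.le
          have h6 : 0 ≤ (q p) ^ a := Real.rpow_nonneg hq a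
          have h7 : n * lam * (q p) ^ a ≤ n * lam * |Q| ^ a :=
            mul_le_mul_of_nonneg_left h5 (by (clear * - hn hlam; positivity))
          have h8 : 0 ≤ n * lam * (q p) ^ a := by (clear * - hn hlam hq; positivity)
          have h9 : 0 ≤ n * eta := by (clear * - hn heta; positivity)
          rw [abs_le]
          constructor <;> linarith only [h7, h8, h9]
        have e2 : |q p / (q p + 1 / ((k : ℝ) + 1)) * (n * lam * (q p) ^ a - n * eta)|
            ≤ n * lam * |Q| ^ a + n * eta := by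
          rw [abs_mul, abs_of_nonneg hθ0]
          calc q p / (q p + 1 / ((k : ℝ) + 1)) * |n * lam * (q p) ^ a - n * eta|
              ≤ 1 * |n * lam * (q p) ^ a - n * eta| :=
                mul_le_mul_of_nonneg_right hθ1 (abs_nonneg _)
            _ ≤ _ := by rw [one_mul]; exact e1
        have e3 : |(1 / ((k : ℝ) + 1)) / (q p + 1 / ((k : ℝ) + 1)) * K| ≤ K := by
          rw [abs_mul, abs_of_nonneg hτ0, abs_of_nonneg hK]
          calc _ ≤ 1 * K := mul_le_mul_of_nonneg_right hτ1 hK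
            _ = K := one_mul K
        calc _ ≤ |S p| + |q p / (q p + 1 / ((k : ℝ) + 1)) * (n * lam * (q p) ^ a - n * eta)
              - (1 / ((k : ℝ) + 1)) / (q p + 1 / ((k : ℝ) + 1)) * K| := abs_add_le _ _
          _ ≤ |S p| + (|q p / (q p + 1 / ((k : ℝ) + 1)) * (n * lam * (q p) ^ a - n * eta)|
              + |(1 / ((k : ℝ) + 1)) / (q p + 1 / ((k : ℝ) + 1)) * K|) := by
                have := abs_sub (q p / (q p + 1 / ((k : ℝ) + 1)) * (n * lam * (q p) ^ a - n * eta))
                  ((1 / ((k : ℝ) + 1)) / (q p + 1 / ((k : ℝ) + 1)) * K)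
                linarith only [this]
          _ ≤ _ := by
                have := hC' p
                linarith only [e2, e3, this]
    · refine Filter.Eventually.of_forall fun p => ?_
      have hε0 : Filter.Tendsto (fun k : ℕ => 1 / ((k : ℝ) + 1)) Filter.atTop (𝓝 0) :=
        tendsto_one_div_add_atTop_nhds_zero_nat
      have hs : Filter.Tendsto (fun k : ℕ => q p + 1 / ((k : ℝ) + 1)) Filter.atTop (𝓝 (q p)) := by
        have := hε0.const_add (q p)
        rwa [add_zero] at this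
      by_cases hq : q p = 0
      · -- q p = 0
        have e1 : q p ^ κ * S p + n * lam * q p - n * eta * q p ^ κ = 0 := by
          rw [hq, Real.zero_rpow hκ.ne']; ring
        rw [e1]
        have e2 : ∀ k, G k p = (1 / ((k : ℝ) + 1)) ^ κ * (S p - K) := by
          intro k
          have hε := hεpos k
          simp only [hG]
          rw [hq, zero_add, zero_div, zero_mul, div_self hε.ne']
          ring
        simp only [e2]
        have e3 : Filter.Tendsto (fun k : ℕ => (1 / ((k : ℝ) + 1)) ^ κ) Filter.atTop (𝓝 0) := by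
          have := hε0.rpow_const (p := κ) (Or.inr hκ.le)
          rwa [Real.zero_rpow hκ.ne'] at this
        have := e3.mul_const (S p - K)
        rwa [zero_mul] at this
      · have hqpos : 0 < q p := lt_of_le_of_ne (hq0 p) (Ne.symm hq)
        have e1 : q p ^ κ * S p + n * lam * q p - n * eta * q p ^ κ
            = q p ^ κ * (S p + ((q p / q p) * (n * lam * (q p) ^ a - n * eta) - (0 / q p) * K)) := by
          have : q p = q p ^ κ * q p ^ a := by
            rw [← Real.rpow_add hqpos, hκa, Real.rpow_one]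
          rw [div_self hq, zero_div]
          conv_lhs => rw [show n * lam * q p = n * lam * (q p ^ κ * q p ^ a) by rw [← this]]
          ring
        rw [e1]
        exact (hs.rpow_const (Or.inr hκ.le)).mul (tendsto_const_nhds.add
          (((tendsto_const_nhds.div hs hq).mul tendsto_const_nhds).sub
          ((hε0.div hs hq).mul tendsto_const_nhds)))
  refine le_of_tendsto hlim (Filter.Eventually.of_forall fun k => ?_)
  exact h _ (hεpos k)

/-- **Main inequality.** -/
theorem main_ineq (hμ : IsVol g μ) (hJ : J * J = -1) (hol : HoloAtlas J M) (hf : HoloMap J f)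
    (hg : g.IsHermitian J) (hg0 : g0.IsHermitian J) (hK : g0.IsKahler J)
    (hn : 3 ≤ Fintype.card ι) {lam eta : ℝ} (hlam : 0 ≤ lam) (heta : 0 ≤ eta)
    (hRic : RicBound g g0 f lam eta) :
    ENNReal.ofReal (((Fintype.card ι : ℝ) * lam) ^ ((Fintype.card ι : ℝ) / 2)) *
        ∫⁻ p, ENNReal.ofReal (relJac g g0 f p) ∂μ
      ≤ ∫⁻ p, ENNReal.ofReal ((max 0 (-g.scalar p) + (Fintype.card ι : ℝ) * eta)
          ^ ((Fintype.card ι : ℝ) / 2)) ∂μ := by
  haveI : IsFiniteMeasure μ := hμ.isFiniteMeasure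
  obtain ⟨K, hK0, hε⟩ := eps_ineq hμ hJ hol hf hg hg0 hK (by omega) hlam hRic
  have hn3 : (3 : ℝ) ≤ (Fintype.card ι : ℝ) := by exact_mod_cast hn
  set n : ℝ := (Fintype.card ι : ℝ) with hnd
  have hn0 : 0 < n := by linarith only [hn3]
  have hkk : kk ι = (n - 2) / n := rfl
  have hκ : 0 < kk ι := by rw [hkk]; apply div_pos <;> linarith only [hn3]
  have hκa : kk ι + 2 / n = 1 := by rw [hkk]; field_simp; ring
  have hq0 : ∀ p, 0 ≤ relJac g g0 f p := relJac_nonneg hf g g0
  have hqc : Continuous (relJac g g0 f) := relJac_continuous hJ hf g g0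
  have hSc := g.continuous_scalar
  have hlim := limit_step μ (κ := kk ι) (a := 2 / n) (lam := lam) (eta := eta) (n := n) (K := K)
    hκ (by positivity) hκa hlam heta hn0.le hK0 hq0 hqc hSc hε
  have hint : ∀ {F : M → ℝ}, Continuous F → Integrable F μ := fun hF =>
    hF.integrable_of_hasCompactSupport (HasCompactSupport.of_compactSpace _)
  have hqk : Continuous fun p => relJac g g0 f p ^ ((n - 2) / n) :=
    hqc.rpow_const fun p => Or.inr (by rw [← hkk]; exact hκ.le)
  exact holder_step μ n (by linarith only [hn3]) lam eta hlam heta (relJac g g0 f) g.scalar hq0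
    hqc.measurable hSc.measurable (hint hqc) (hint (hqk.mul hSc)) (hint hqk) hlim

end

end Vale.Agent.P223
end
end

section

section

set_option maxSynthPendingDepth 3

namespace Vale.Agent.P223

open scoped Matrix ContDiff Topology Manifold
open Finset MeasureTheory

variable {ι : Type} [Fintype ι] [DecidableEq ι]

theorem fderiv_det {ψ : (ι → ℝ) → (ι → ℝ)} {x : ι → ℝ} (hψ : ContDiffAt ℝ ∞ ψ x) :
    (fderiv ℝ ψ x).det = (jac ψ x).det := by
  have h1 : LinearMap.toMatrix' ((fderiv ℝ ψ x : (ι → ℝ) →L[ℝ] (ι → ℝ)) : (ι → ℝ) →ₗ[ℝ] (ι → ℝ))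
      = jac ψ x := by
    ext c a
    rw [LinearMap.toMatrix'_apply]
    exact fderiv_single hψ a c
  rw [← h1]
  unfold ContinuousLinearMap.det
  rw [LinearMap.det_toMatrix']

section

variable {M : Type} [TopologicalSpace M] [ChartedSpace (ι → ℝ) M] [MeasurableSpace M]
  [BorelSpace M]

theorem image_measurable (e : OpenPartialHomeomorph M (ι → ℝ)) {A : Set M}
    (hA : MeasurableSet A) (hAe : A ⊆ e.source) : MeasurableSet (e '' A) := by
  have h1 : e '' A = Subtype.val '' {x : e.target | e.symm x ∈ A} := by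
    ext x
    constructor
    · rintro ⟨p, hp, rfl⟩
      exact ⟨⟨e p, e.map_source (hAe hp)⟩, by
        show e.symm (e p) ∈ A
        rw [e.left_inv (hAe hp)]; exact hp, rfl⟩
    · rintro ⟨⟨y, hy⟩, hyA, rfl⟩
      exact ⟨e.symm y, hyA, e.right_inv hy⟩
  rw [h1]
  apply e.open_target.measurableSet.subtype_image
  have h2 : Continuous (fun x : e.target => e.symm x) := e.continuousOn_symm.restrict
  exact h2.measurable hA

end

section

variable {M : Type} [TopologicalSpace M] [ChartedSpace (ι → ℝ) M] [MeasurableSpace M]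
  [BorelSpace M] [IsManifold 𝓘(ℝ, ι → ℝ) ∞ M] [CompactSpace M] [T2Space M]
  {N : Type} [TopologicalSpace N] [ChartedSpace (ι → ℝ) N] [IsManifold 𝓘(ℝ, ι → ℝ) ∞ N]
  [MeasurableSpace N] [BorelSpace N]
  {J : Matrix ι ι ℝ} {f : M → N} {g : RMetric ι M} {g0 : RMetric ι N} {μ : Measure M}
  {μ0 : Measure N}

/-- change of variables on a small set -/
theorem cover_local (hJ : J * J = -1) (hμ : IsVol g μ) (hμ0 : IsVol g0 μ0) (hf : HoloMap J f)
    {e : OpenPartialHomeomorph M (ι → ℝ)} (he : e ∈ atlas (ι → ℝ) M)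
    {e' : OpenPartialHomeomorph N (ι → ℝ)} (he' : e' ∈ atlas (ι → ℝ) N)
    {A : Set M} (hA : MeasurableSet A) (hAe : A ⊆ e.source) (hAe' : A ⊆ f ⁻¹' e'.source)
    (hinj : Set.InjOn f A) (hfA : MeasurableSet (f '' A)) :
    ∫⁻ p in A, ENNReal.ofReal (relJac g g0 f p) ∂μ = μ0 (f '' A) := by
  have hqm : Measurable (relJac g g0 f) := (relJac_continuous hJ hf g g0).measurable
  -- left side in the chart
  have h1 : ∫⁻ p in A, ENNReal.ofReal (relJac g g0 f p) ∂μ
      = ∫⁻ x in e '' A, ENNReal.ofReal (pden g0 f e x) := by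
    have e1 : ∫⁻ p in A, ENNReal.ofReal (relJac g g0 f p) ∂μ
        = ∫⁻ p in e.source, A.indicator (fun p => ENNReal.ofReal (relJac g g0 f p)) p ∂μ := by
      rw [lintegral_indicator hA, Measure.restrict_restrict hA, Set.inter_eq_left.mpr hAe]
    rw [e1, hμ.setLIntegral he (hqm.ennreal_ofReal.indicator hA)]
    have hEA : MeasurableSet (e '' A) := image_measurable e hA hAe
    have e2 : ∫⁻ x in e '' A, ENNReal.ofReal (pden g0 f e x)
        = ∫⁻ x in e.target, (e '' A).indicator (fun x => ENNReal.ofReal (pden g0 f e x)) x := by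
      rw [lintegral_indicator hEA, Measure.restrict_restrict hEA]
      congr 2
      symm
      rw [Set.inter_eq_left]
      rintro _ ⟨p, hp, rfl⟩
      exact e.map_source (hAe hp)
    rw [e2]
    refine setLIntegral_congr_fun e.open_target.measurableSet fun x hx => ?_
    by_cases hxA : e.symm x ∈ A
    · have hxA' : x ∈ e '' A := ⟨e.symm x, hxA, e.right_inv hx⟩
      rw [Set.indicator_of_mem hxA, Set.indicator_of_mem hxA']
      have hd := (g.isMetric e he).dens_pos hx
      rw [← ENNReal.ofReal_mul hd.le, relJac_eq hf g g0 he (e.map_target hx), e.right_inv hx,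
        mul_div_cancel₀ _ hd.ne']
    · have hxA' : x ∉ e '' A := by
        rintro ⟨p, hp, rfl⟩
        rw [e.left_inv (hAe hp)] at hxA
        exact hxA hp
      rw [Set.indicator_of_notMem hxA, Set.indicator_of_notMem hxA', mul_zero]
  -- right side
  have hfAe : f '' A ⊆ e'.source := by
    rintro _ ⟨p, hp, rfl⟩
    exact hAe' hp
  rw [h1, hμ0 e' he' (f '' A) hfA hfAe]
  have himg : e' '' (f '' A) = cmap f e e' '' (e '' A) := by
    ext y
    constructor
    · rintro ⟨_, ⟨p, hp, rfl⟩, rfl⟩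
      refine ⟨e p, ⟨p, hp, rfl⟩, ?_⟩
      show e' (f (e.symm (e p))) = _
      rw [e.left_inv (hAe hp)]
    · rintro ⟨_, ⟨p, hp, rfl⟩, rfl⟩
      refine ⟨f p, ⟨p, hp, rfl⟩, ?_⟩
      show _ = e' (f (e.symm (e p)))
      rw [e.left_inv (hAe hp)]
  rw [himg]
  have hdom : ∀ x ∈ e '' A, x ∈ e.target ∧ f (e.symm x) ∈ e'.source := by
    rintro _ ⟨p, hp, rfl⟩
    refine ⟨e.map_source (hAe hp), ?_⟩
    rw [e.left_inv (hAe hp)]
    exact hAe' hp
  have hinj' : Set.InjOn (cmap f e e') (e '' A) := by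
    rintro _ ⟨p, hp, rfl⟩ _ ⟨q, hq, rfl⟩ hpq
    have hpq' : e' (f (e.symm (e p))) = e' (f (e.symm (e q))) := hpq
    rw [e.left_inv (hAe hp), e.left_inv (hAe hq)] at hpq'
    have h2 := e'.injOn (hAe' hp) (hAe' hq) hpq'
    rw [hinj hp hq h2]
  rw [lintegral_image_eq_lintegral_abs_det_fderiv_mul volume (image_measurable e hA hAe)
    (f' := fun x => fderiv ℝ (cmap f e e') x) ?_ hinj']
  · refine setLIntegral_congr_fun (image_measurable e hA hAe) fun x hx => ?_
    obtain ⟨hx1, hx2⟩ := hdom x hx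
    rw [pden_eq hf g0 he he' hx1 hx2, fderiv_det (hf.smooth e he e' he' x hx1 hx2),
      ← ENNReal.ofReal_mul (abs_nonneg _), mul_comm]
  · intro x hx
    obtain ⟨hx1, hx2⟩ := hdom x hx
    exact ((hf.smooth e he e' he' x hx1 hx2).differentiableAt (by simp)).hasFDerivAt.hasFDerivWithinAt

/-- The volume of a covering. -/
theorem cover_volume (hJ : J * J = -1) (hμ : IsVol g μ) (hμ0 : IsVol g0 μ0) (hf : HoloMap J f)
    (hloc : IsLocalHomeomorph f) (d : ℕ) (hd : ∀ y : N, (f ⁻¹' {y}).encard = d) :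
    ∫⁻ p, ENNReal.ofReal (relJac g g0 f p) ∂μ = d * μ0 Set.univ := by
  -- small open neighbourhoods
  have hV : ∀ p : M, ∃ V : Set M, IsOpen V ∧ p ∈ V ∧ V ⊆ (chartAt (ι → ℝ) p).source ∧
      V ⊆ f ⁻¹' (chartAt (ι → ℝ) (f p)).source ∧ Set.InjOn f V := by
    intro p
    obtain ⟨φ, hφp, hφ⟩ := hloc p
    refine ⟨φ.source ∩ ((chartAt (ι → ℝ) p).source ∩ f ⁻¹' (chartAt (ι → ℝ) (f p)).source),
      φ.open_source.inter ((chartAt (ι → ℝ) p).open_source.inter
        ((chartAt (ι → ℝ) (f p)).open_source.preimage hf.cont)),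
      ⟨hφp, mem_chart_source _ _, mem_chart_source _ _⟩,
      fun q hq => hq.2.1, fun q hq => hq.2.2, ?_⟩
    rw [hφ]
    exact φ.injOn.mono Set.inter_subset_left
  choose V hVo hVp hVe hVe' hVinj using hV
  obtain ⟨s, hsc, hs⟩ := countable_cover_nhds_of_sigmaCompact (X := M)
    (f := V) (fun p => (hVo p).mem_nhds (hVp p))
  rcases isEmpty_or_nonempty M with hM | hM
  · -- empty case
    have h0 : ∫⁻ p, ENNReal.ofReal (relJac g g0 f p) ∂μ = 0 := by
      have : μ = 0 := Measure.eq_zero_of_isEmpty μ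
      rw [this, lintegral_zero_measure]
    rw [h0]
    rcases isEmpty_or_nonempty N with hN | ⟨⟨y⟩⟩
    · have : μ0 = 0 := Measure.eq_zero_of_isEmpty μ0
      rw [this]; simp only [Measure.coe_zero, Pi.zero_apply, mul_zero]
    · have h1 := hd y
      have h2 : f ⁻¹' {y} = ∅ := Set.eq_empty_of_isEmpty _
      rw [h2, Set.encard_empty] at h1
      have h3 : d = 0 := by exact_mod_cast h1.symm
      rw [h3]; simp only [CharP.cast_eq_zero, zero_mul]
  have hsne : s.Nonempty := by
    by_contra hcon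
    rw [Set.not_nonempty_iff_eq_empty] at hcon
    rw [hcon] at hs
    simp at hs
    exact hM.elim fun p => (Set.mem_empty_iff_false p).mp (hs ▸ Set.mem_univ p)
  obtain ⟨a, ha⟩ := hsc.exists_eq_range hsne
  set W : ℕ → Set M := fun k => V (a k) with hW
  set A : ℕ → Set M := disjointed W with hAd
  have hWo : ∀ k, IsOpen (W k) := fun k => hVo _
  have hAm : ∀ k, MeasurableSet (A k) := fun k =>
    MeasurableSet.disjointed (fun k => (hWo k).measurableSet) k
  have hAW : ∀ k, A k ⊆ W k := fun k => disjointed_subset W k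
  have hAu : ⋃ k, A k = Set.univ := by
    rw [iUnion_disjointed]
    rw [ha] at hs
    rw [Set.biUnion_range] at hs
    exact hs
  have hAdj : Pairwise (Function.onFun Disjoint A) := disjoint_disjointed W
  have hfA : ∀ k, MeasurableSet (f '' A k) := by
    intro k
    have h1 : Topology.IsOpenEmbedding (fun x : W k => f x) := by
      refine Topology.IsOpenEmbedding.of_continuous_injective_isOpenMap
        (hf.cont.comp continuous_subtype_val) ?_ ?_
      · intro x y hxy
        exact Subtype.ext (hVinj (a k) x.2 y.2 hxy)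
      · exact hloc.isOpenMap.comp (hWo k).isOpenMap_subtype_val
    have h2 : f '' A k = (fun x : W k => f x) '' (Subtype.val ⁻¹' A k) := by
      ext y
      constructor
      · rintro ⟨p, hp, rfl⟩
        exact ⟨⟨p, hAW k hp⟩, hp, rfl⟩
      · rintro ⟨⟨p, hpW⟩, hp, rfl⟩
        exact ⟨p, hp, rfl⟩
    rw [h2]
    exact h1.measurableEmbedding.measurableSet_image.mpr (measurable_subtype_coe (hAm k))
  have hloc2 : ∀ k, ∫⁻ p in A k, ENNReal.ofReal (relJac g g0 f p) ∂μ = μ0 (f '' A k) := fun k =>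
    cover_local hJ hμ hμ0 hf (chart_mem_atlas _ (a k)) (chart_mem_atlas _ (f (a k))) (hAm k)
      ((hAW k).trans (hVe _)) ((hAW k).trans (hVe' _)) ((hVinj _).mono (hAW k)) (hfA k)
  rw [← setLIntegral_univ, ← hAu, lintegral_iUnion hAm hAdj]
  simp only [hloc2]
  have h3 : ∀ k, μ0 (f '' A k) = ∫⁻ y, (f '' A k).indicator 1 y ∂μ0 := fun k => by
    rw [lintegral_indicator_one (hfA k)]
  simp only [h3]
  rw [← lintegral_tsum fun k => (measurable_one.indicator (hfA k)).aemeasurable]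
  have h4 : ∀ y, ∑' k, (f '' A k).indicator (1 : N → ENNReal) y = d := by
    intro y
    set S : Set ℕ := {k | y ∈ f '' A k} with hS
    have e1 : ∀ k, (f '' A k).indicator (1 : N → ENNReal) y = S.indicator (fun _ => (1 : ENNReal)) k := by
      intro k
      by_cases hk : y ∈ f '' A k
      · rw [Set.indicator_of_mem hk, Set.indicator_of_mem (show k ∈ S from hk)]; rfl
      · rw [Set.indicator_of_notMem hk, Set.indicator_of_notMem (show k ∉ S from hk)]
    simp only [e1]
    rw [← _root_.tsum_subtype, ENNReal.tsum_set_one]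
    have e2 : S.encard = (f ⁻¹' {y}).encard := by
      -- bijection between fibre and indices
      have hk : ∀ p : M, ∃ k, p ∈ A k := fun p => by
        have : p ∈ ⋃ k, A k := by rw [hAu]; exact Set.mem_univ p
        exact Set.mem_iUnion.mp this
      choose κ hκ using hk
      have hinj : Set.InjOn κ (f ⁻¹' {y}) := by
        intro p hp q hq hpq
        have h5 : q ∈ A (κ p) := by rw [hpq]; exact hκ q
        exact hVinj _ (hAW _ (hκ p)) (hAW _ h5) ((hp : f p = y).trans (hq : f q = y).symm)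
      have himg : κ '' (f ⁻¹' {y}) = S := by
        ext k
        constructor
        · rintro ⟨p, hp, rfl⟩
          exact ⟨p, hκ p, hp⟩
        · rintro ⟨p, hp, hpy⟩
          refine ⟨p, hpy, ?_⟩
          by_contra hne
          exact Set.disjoint_left.mp (hAdj hne) (hκ p) hp
      rw [← himg, hinj.encard_image]
    rw [e2, hd y]
    simp
  simp only [h4]
  rw [lintegral_const]

end

end Vale.Agent.P223
end
end

section

section

set_option maxSynthPendingDepth 3

namespace Vale.Agent.P223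

open scoped Matrix ContDiff Topology Manifold
open Finset MeasureTheory

section simplex

instance sc_stdSimplex (k : ℕ) : SimplyConnectedSpace (stdSimplex ℝ (Fin (k + 1))) := by
  haveI : ContractibleSpace (stdSimplex ℝ (Fin (k + 1))) :=
    (convex_stdSimplex ℝ (Fin (k + 1))).contractibleSpace
      ⟨Pi.single 0 1, single_mem_stdSimplex ℝ 0⟩
  infer_instance

instance lpc_stdSimplex (k : ℕ) : LocallyPathConnectedSpace (stdSimplex ℝ (Fin (k + 1))) :=
  (convex_stdSimplex ℝ (Fin (k + 1))).locallyPathConnectedSpace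

end simplex

section norm

variable {M : Type} [TopologicalSpace M] {k : ℕ}

theorem norm1_eq_of_subset (z : Chain k M) {s : Finset (Simp k M)} (h : z.support ⊆ s) :
    norm1 z = ∑ σ ∈ s, |z σ| := by
  unfold norm1 Finsupp.sum
  refine Finset.sum_subset h fun σ _ hσ => ?_
  show |z σ| = 0
  rw [Finsupp.notMem_support_iff.mp hσ, abs_zero]

theorem norm1_zero : norm1 (0 : Chain k M) = 0 := by
  unfold norm1
  simp

theorem norm1_add (x y : Chain k M) : norm1 (x + y) ≤ norm1 x + norm1 y := by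
  classical
  rw [norm1_eq_of_subset (x + y) (s := x.support ∪ y.support) Finsupp.support_add,
    norm1_eq_of_subset x (s := x.support ∪ y.support) Finset.subset_union_left,
    norm1_eq_of_subset y (s := x.support ∪ y.support) Finset.subset_union_right,
    ← Finset.sum_add_distrib]
  exact Finset.sum_le_sum fun σ _ => abs_add_le _ _

theorem norm1_smul (r : ℝ) (x : Chain k M) : norm1 (r • x) = |r| * norm1 x := by
  rw [norm1_eq_of_subset (r • x) (s := x.support) Finsupp.support_smul]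
  unfold norm1 Finsupp.sum
  rw [Finset.mul_sum]
  refine Finset.sum_congr rfl fun σ _ => ?_
  rw [Finsupp.smul_apply, smul_eq_mul, abs_mul]

theorem norm1_single (σ : Simp k M) (a : ℝ) : norm1 (Finsupp.single σ a) = |a| := by
  unfold norm1
  rw [Finsupp.sum_single_index (abs_zero)]

theorem norm1_sum {κ : Type} (s : Finset κ) (x : κ → Chain k M) :
    norm1 (∑ i ∈ s, x i) ≤ ∑ i ∈ s, norm1 (x i) := by
  classical
  induction s using Finset.induction_on with
  | empty => simp [norm1_zero]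
  | insert i s hi ih =>
    rw [Finset.sum_insert hi, Finset.sum_insert hi]
    exact (norm1_add _ _).trans (add_le_add le_rfl ih)

end norm

section transfer

variable {M' M : Type} [TopologicalSpace M'] [TopologicalSpace M] {p : M' → M}

/-- lifts of a simplex -/
def liftSet (p : M' → M) {k : ℕ} (σ : Simp k M) : Set (Simp k M') := {σ' | ∀ t, p (σ' t) = σ t}

theorem lift_exists (hp : IsCoveringMap p) {k : ℕ} (σ : Simp (k + 1) M)
    (t : stdSimplex ℝ (Fin (k + 1))) (q : M') (hq : p q = σ t) :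
    ∃ σ' ∈ liftSet p σ, σ' t = q := by
  obtain ⟨F, ⟨h1, h2⟩, -⟩ := hp.existsUnique_continuousMap_lifts σ t q hq
  exact ⟨F, fun s => congrFun h2 s, h1⟩

theorem lift_unique (hp : IsCoveringMap p) {k : ℕ} {σ : Simp (k + 1) M}
    {σ₁ σ₂ : Simp (k + 1) M'} (h1 : σ₁ ∈ liftSet p σ) (h2 : σ₂ ∈ liftSet p σ)
    (t : stdSimplex ℝ (Fin (k + 1))) (ht : σ₁ t = σ₂ t) : σ₁ = σ₂ := by
  obtain ⟨F, -, hF⟩ := hp.existsUnique_continuousMap_lifts σ t (σ₂ t) (h2 t)
  rw [hF σ₁ ⟨ht, funext h1⟩, hF σ₂ ⟨rfl, funext h2⟩]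

theorem lift_encard (hp : IsCoveringMap p) {d : ℕ} (hd : ∀ y : M, (p ⁻¹' {y}).encard = d)
    {k : ℕ} (σ : Simp (k + 1) M) : (liftSet p σ).encard = d := by
  have t : stdSimplex ℝ (Fin (k + 1)) := ⟨Pi.single 0 1, single_mem_stdSimplex ℝ 0⟩
  rw [← hd (σ t)]
  have himg : (fun σ' : Simp (k + 1) M' => σ' t) '' liftSet p σ = p ⁻¹' {σ t} := by
    ext q
    constructor
    · rintro ⟨σ', h, rfl⟩
      exact h t
    · intro hq
      obtain ⟨σ', h1, h2⟩ := lift_exists hp σ t q hq
      exact ⟨σ', h1, h2⟩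
  rw [← himg]
  refine (Set.InjOn.encard_image ?_).symm
  intro σ₁ h1 σ₂ h2 h
  exact lift_unique hp h1 h2 t h

theorem lift_finite (hp : IsCoveringMap p) {d : ℕ} (hd : ∀ y : M, (p ⁻¹' {y}).encard = d)
    {k : ℕ} (σ : Simp (k + 1) M) : (liftSet p σ).Finite := by
  apply Set.finite_of_encard_eq_coe (lift_encard hp hd σ)

open Classical in
/-- the finite set of lifts -/
noncomputable def lifts (p : M' → M) {k : ℕ} (σ : Simp k M) : Finset (Simp k M') :=
  if h : (liftSet p σ).Finite then h.toFinset else ∅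

theorem mem_lifts (hp : IsCoveringMap p) {d : ℕ} (hd : ∀ y : M, (p ⁻¹' {y}).encard = d)
    {k : ℕ} {σ : Simp (k + 1) M} {σ' : Simp (k + 1) M'} : σ' ∈ lifts p σ ↔ σ' ∈ liftSet p σ := by
  unfold lifts
  rw [dif_pos (lift_finite hp hd σ)]
  exact Set.Finite.mem_toFinset _

theorem card_lifts (hp : IsCoveringMap p) {d : ℕ} (hd : ∀ y : M, (p ⁻¹' {y}).encard = d)
    {k : ℕ} (σ : Simp (k + 1) M) : (lifts p σ).card = d := by
  have h1 := lift_encard hp hd σ
  have h2 : ((lifts p σ : Finset (Simp (k + 1) M')) : Set (Simp (k + 1) M')) = liftSet p σ := by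
    ext σ'
    rw [Finset.mem_coe, mem_lifts hp hd]
  rw [← h2, Set.encard_coe_eq_coe_finsetCard] at h1
  exact_mod_cast h1

/-- the transfer -/
noncomputable def tr (p : M' → M) (k : ℕ) : Chain k M →ₗ[ℝ] Chain k M' :=
  Finsupp.linearCombination ℝ fun σ : Simp k M => ∑ σ' ∈ lifts p σ, Finsupp.single σ' (1 : ℝ)

theorem tr_single (p : M' → M) (k : ℕ) (σ : Simp k M) (a : ℝ) :
    tr p k (Finsupp.single σ a) = a • ∑ σ' ∈ lifts p σ, Finsupp.single σ' (1 : ℝ) := by
  unfold tr
  rw [Finsupp.linearCombination_single]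

theorem bdry_single {M : Type} [TopologicalSpace M] (k : ℕ) (σ : Simp (k + 1) M) (a : ℝ) :
    bdry k (Finsupp.single σ a)
      = a • ∑ i : Fin (k + 1), Finsupp.single (σ.comp (faceMap k i)) ((-1 : ℝ) ^ (i : ℕ)) := by
  unfold bdry
  rw [Finsupp.linearCombination_single]

theorem norm1_tr (hp : IsCoveringMap p) {d : ℕ} (hd : ∀ y : M, (p ⁻¹' {y}).encard = d)
    {k : ℕ} (z : Chain (k + 1) M) : norm1 (tr p (k + 1) z) ≤ d * norm1 z := by
  have h1 : tr p (k + 1) z
      = ∑ σ ∈ z.support, z σ • ∑ σ' ∈ lifts p σ, Finsupp.single σ' (1 : ℝ) := by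
    unfold tr
    rw [Finsupp.linearCombination_apply]
    rfl
  rw [h1]
  refine (norm1_sum _ _).trans ?_
  have h2 : (d : ℝ) * norm1 z = ∑ σ ∈ z.support, |z σ| * d := by
    unfold norm1 Finsupp.sum
    rw [Finset.mul_sum]
    exact Finset.sum_congr rfl fun σ _ => mul_comm _ _
  rw [h2]
  refine Finset.sum_le_sum fun σ _ => ?_
  rw [norm1_smul]
  refine mul_le_mul_of_nonneg_left ?_ (abs_nonneg _)
  refine (norm1_sum _ _).trans ?_
  simp only [norm1_single, abs_one, Finset.sum_const, nsmul_eq_mul, mul_one]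
  rw [card_lifts hp hd σ]

theorem bdry_tr (hp : IsCoveringMap p) {d : ℕ} (hd : ∀ y : M, (p ⁻¹' {y}).encard = d)
    {k : ℕ} (z : Chain (k + 2) M) :
    bdry (k + 1) (tr p (k + 2) z) = tr p (k + 1) (bdry (k + 1) z) := by
  suffices h : (bdry (k + 1)).comp (tr p (k + 2)) = (tr p (k + 1)).comp (bdry (M := M) (k + 1)) by
    exact congrArg (fun L => L z) h
  refine Finsupp.lhom_ext fun σ a => ?_
  rw [LinearMap.comp_apply, LinearMap.comp_apply, tr_single, bdry_single, map_smul, map_smul]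
  congr 1
  rw [map_sum, map_sum]
  have e1 : ∀ σ' : Simp (k + 2) M', bdry (k + 1) (Finsupp.single σ' (1 : ℝ))
      = ∑ i : Fin (k + 2), Finsupp.single (σ'.comp (faceMap (k + 1) i)) ((-1 : ℝ) ^ (i : ℕ)) := by
    intro σ'
    rw [bdry_single, one_smul]
  simp only [e1, tr_single]
  rw [Finset.sum_comm]
  refine Finset.sum_congr rfl fun i _ => ?_
  rw [Finset.smul_sum]
  refine Finset.sum_bij (fun σ' _ => σ'.comp (faceMap (k + 1) i)) ?_ ?_ ?_ ?_
  · intro σ' h
    rw [mem_lifts hp hd] at h ⊢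
    intro t
    exact h _
  · intro σ₁ h1 σ₂ h2 h
    rw [mem_lifts hp hd] at h1 h2
    have t : stdSimplex ℝ (Fin (k + 1)) := ⟨Pi.single 0 1, single_mem_stdSimplex ℝ 0⟩
    exact lift_unique hp h1 h2 (faceMap (k + 1) i t) (congrArg (fun f => f t) h)
  · intro τ h
    rw [mem_lifts hp hd] at h
    have t : stdSimplex ℝ (Fin (k + 1)) := ⟨Pi.single 0 1, single_mem_stdSimplex ℝ 0⟩
    obtain ⟨σ', h1, h2⟩ := lift_exists hp σ (faceMap (k + 1) i t) (τ t) (h t)
    refine ⟨σ', (mem_lifts hp hd).mpr h1, ?_⟩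
    exact lift_unique (σ := σ.comp (faceMap (k + 1) i)) hp (fun s => h1 _) h t h2
  · intro σ' _
    rw [Finsupp.smul_single, smul_eq_mul, mul_one]

end transfer

end Vale.Agent.P223
end
end

section

section

set_option maxSynthPendingDepth 3

namespace Vale.Agent.P223

open scoped Matrix ContDiff Topology Manifold
open Finset MeasureTheory

variable {n : ℕ}

/-- uniqueness of barycentric coordinates -/
theorem bary_inj {w : Fin n → ℝ} {D : Matrix (Fin n) (Fin n) ℝ} (hD : D.det ≠ 0)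
    {t t' : stdSimplex ℝ (Fin (n + 1))}
    (h : (fun j => w j + ∑ i : Fin n, t i.succ * D i j)
      = fun j => w j + ∑ i : Fin n, t' i.succ * D i j) : t = t' := by
  set u : Fin n → ℝ := fun i => t i.succ - t' i.succ with hu
  have ht0 : ∀ t : stdSimplex ℝ (Fin (n + 1)), t 0 = 1 - ∑ i : Fin n, t i.succ := by
    intro t
    have := stdSimplex.sum_eq_one t
    rw [Fin.sum_univ_succ] at this
    linarith only [this]
  have h1 : u ᵥ* D = 0 := by
    funext j
    have h2 := congrFun h j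
    have h2' : w j + ∑ i : Fin n, t i.succ * D i j = w j + ∑ i : Fin n, t' i.succ * D i j := h2
    show ∑ i, u i * D i j = 0
    have h3 : ∑ i, u i * D i j = (∑ i : Fin n, t i.succ * D i j)
        - ∑ i : Fin n, t' i.succ * D i j := by
      rw [← Finset.sum_sub_distrib]
      refine Finset.sum_congr rfl fun i _ => ?_
      simp only [hu]
      ring
    rw [h3]
    linarith only [h2]
  have h2 : u = 0 := Matrix.eq_zero_of_vecMul_eq_zero hD h1
  have h3 : ∀ i : Fin n, t i.succ = t' i.succ := fun i => by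
    have := congrFun h2 i
    simp only [hu, Pi.zero_apply] at this
    linarith only [this]
  apply stdSimplex.ext
  funext i
  refine Fin.cases ?_ ?_ i
  · show t 0 = t' 0
    rw [ht0 t, ht0 t']
    simp only [h3]
  · exact h3

section

variable {M' M : Type} [TopologicalSpace M'] [ChartedSpace (Fin n → ℝ) M']
  [TopologicalSpace M] [ChartedSpace (Fin n → ℝ) M] [T2Space M]
  [IsManifold 𝓘(ℝ, Fin n → ℝ) ∞ M'] [IsManifold 𝓘(ℝ, Fin n → ℝ) ∞ M]
  {J : Matrix (Fin n) (Fin n) ℝ} {p : M' → M} {d : ℕ}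

/-- the chart of the covering space obtained from a chart of the base -/
theorem exists_chart (hJ : J * J = -1) (hp : HoloCover J d p)
    {e : OpenPartialHomeomorph M (Fin n → ℝ)}
    (he : OChart e) {K : Set M'} (hK : IsCompact K) (hKe : K ⊆ p ⁻¹' e.source)
    (hinj : Set.InjOn p K) (hne : K.Nonempty) :
    ∃ e' : OpenPartialHomeomorph M' (Fin n → ℝ), OChart e' ∧ K ⊆ e'.source ∧
      ∀ q ∈ e'.source, e' q = e (p q) := by
  have hloc := hp.covering.isLocalHomeomorph
  have hcont := hp.holo.cont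
  obtain ⟨V0, hV0o, hKV0, hV0inj⟩ := hinj.exists_isOpen_superset hK
    (fun x _ => hcont.continuousAt) (fun x _ => by
      obtain ⟨φ, hφx, hφ⟩ := hloc x
      exact ⟨φ.source, φ.open_source.mem_nhds hφx, by rw [hφ]; exact φ.injOn⟩)
  set V : Set M' := V0 ∩ p ⁻¹' e.source with hV
  have hVo : IsOpen V := hV0o.inter (e.open_source.preimage hcont)
  have hVinj : Set.InjOn p V := hV0inj.mono Set.inter_subset_left
  haveI : Nonempty M' := ⟨hne.some⟩
  set φ : OpenPartialHomeomorph M' M := OpenPartialHomeomorph.ofContinuousOpen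
    (hVinj.toPartialEquiv p V) hcont.continuousOn hloc.isOpenMap hVo with hφ
  have hφc : ∀ q, φ q = p q := fun q => rfl
  have hφs : φ.source = V := rfl
  set e' := φ.trans e with he'
  have hs : e'.source = V := by
    rw [he', OpenPartialHomeomorph.trans_source, hφs]
    ext q
    constructor
    · exact fun h => h.1
    · exact fun h => ⟨h, h.2⟩
  have hc : ∀ q, e' q = e (p q) := fun q => rfl
  refine ⟨e', ?_, ?_, fun q _ => hc q⟩
  swap
  · rw [hs]
    exact fun q hq => ⟨hKV0 hq, hKe hq⟩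
  intro a ha x hx
  have hx' : x ∈ e'.target ∧ e'.symm x ∈ a.source := by
    rw [OpenPartialHomeomorph.trans_source] at hx
    exact hx
  set q₁ := e'.symm x with hq₁
  have hq₁V : q₁ ∈ V := by rw [← hs]; exact e'.map_target hx'.1
  have hxe : x = e (p q₁) := by
    rw [← hc, hq₁, e'.right_inv hx'.1]
  set e₁ := chartAt (Fin n → ℝ) (p q₁) with he₁
  have he₁a : e₁ ∈ atlas (Fin n → ℝ) M := chart_mem_atlas _ _
  have he₁s : p q₁ ∈ e₁.source := mem_chart_source _ _
  -- the map p in the atlas charts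
  set y := a q₁ with hy
  have hyt : y ∈ a.target := a.map_source hx'.2
  have hya : a.symm y = q₁ := a.left_inv hx'.2
  have hpy : p (a.symm y) ∈ e₁.source := by rw [hya]; exact he₁s
  have hψs := hp.holo.smooth a ha e₁ he₁a y hyt hpy
  have hψd := hp.locBij a ha e₁ he₁a y hyt hpy
  have hψpos : 0 < (jac (cmap p a e₁) y).det :=
    lt_of_le_of_ne (det_nonneg_of_comm hJ (hp.holo.holo a ha e₁ he₁a y hyt hpy)) (Ne.symm hψd)
  -- as a partial homeomorphism
  set Ψ : OpenPartialHomeomorph (Fin n → ℝ) (Fin n → ℝ) := (a.symm.trans φ).trans e₁ with hΨ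
  have hΨc : ∀ z, Ψ z = cmap p a e₁ z := fun z => rfl
  have hΨs : y ∈ Ψ.source := by
    rw [hΨ, OpenPartialHomeomorph.trans_source, OpenPartialHomeomorph.trans_source]
    refine ⟨⟨hyt, ?_⟩, ?_⟩
    · show a.symm y ∈ V
      rw [hya]; exact hq₁V
    · show p (a.symm y) ∈ e₁.source
      exact hpy
  -- transition in the base
  have hxt : x ∈ e.target := by rw [hxe]; exact e.map_source hq₁V.2
  have hex : e.symm x = p q₁ := by rw [hxe]; exact e.left_inv hq₁V.2
  have hθs : x ∈ (e.symm.trans e₁).source := by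
    rw [OpenPartialHomeomorph.trans_source]
    refine ⟨hxt, ?_⟩
    show e.symm x ∈ e₁.source
    rw [hex]; exact he₁s
  obtain ⟨hθ1, hθ2⟩ := he e₁ he₁a x hθs
  -- the transition χ
  have hχx : (e'.symm.trans a) x = y := rfl
  have hev : (e'.symm.trans a) =ᶠ[𝓝 x] fun z => Ψ.symm ((e.symm.trans e₁) z) := by
    have hc1 : ContinuousAt (e'.symm.trans a) x := (e'.symm.trans a).continuousAt hx
    have hmem : (e'.symm.trans a) x ∈ Ψ.source := by rw [hχx]; exact hΨs
    filter_upwards [(e'.symm.trans a).open_source.mem_nhds hx,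
      hc1.eventually (Ψ.open_source.mem_nhds hmem)] with z hz1 hz2
    have hz1' : z ∈ e'.target ∧ e'.symm z ∈ a.source := by
      rw [OpenPartialHomeomorph.trans_source] at hz1
      exact hz1
    have e1 : Ψ ((e'.symm.trans a) z) = (e.symm.trans e₁) z := by
      show e₁ (p (a.symm (a (e'.symm z)))) = e₁ (e.symm z)
      rw [a.left_inv hz1'.2]
      have h5 : e'.symm z ∈ V := by rw [← hs]; exact e'.map_target hz1'.1
      have h6 : z = e (p (e'.symm z)) := by rw [← hc, e'.right_inv hz1'.1]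
      have h7 : e.symm z = p (e'.symm z) := by
        conv_lhs => rw [h6]
        exact e.left_inv h5.2
      rw [h7]
    rw [← e1, Ψ.left_inv hz2]
  have hθx : (e.symm.trans e₁) x = Ψ y := by
    show e₁ (e.symm x) = e₁ (p (a.symm y))
    rw [hex, hya]
  have hΨt : Ψ y ∈ Ψ.target := Ψ.map_source hΨs
  have hΨsymm : ContDiffAt ℝ ∞ Ψ.symm ((e.symm.trans e₁) x) := by
    rw [hθx]
    have hy' : Ψ.symm (Ψ y) = y := Ψ.left_inv hΨs
    have hfd : HasFDerivAt (cmap p a e₁) (fderiv ℝ (cmap p a e₁) y) y :=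
      (hψs.differentiableAt (by simp)).hasFDerivAt
    have hdet : (fderiv ℝ (cmap p a e₁) y).det ≠ 0 := by
      rw [fderiv_det hψs]; exact hψd
    set L := (fderiv ℝ (cmap p a e₁) y).toContinuousLinearEquivOfDetNeZero hdet with hL
    refine Ψ.contDiffAt_symm (f₀' := L) hΨt ?_ ?_
    · rw [hy']
      exact hfd
    · rw [hy']
      exact hψs
  have hsmooth : ContDiffAt ℝ ∞ (e'.symm.trans a) x := by
    have h1 : ContDiffAt ℝ ∞ (fun z => Ψ.symm ((e.symm.trans e₁) z)) x :=
      ContDiffAt.comp x hΨsymm hθ1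
    exact h1.congr_of_eventuallyEq hev
  refine ⟨hsmooth, ?_⟩
  have hcomp : (e.symm.trans e₁) =ᶠ[𝓝 x] fun z => cmap p a e₁ ((e'.symm.trans a) z) := by
    filter_upwards [(e'.symm.trans a).open_source.mem_nhds hx] with z hz1
    have hz1' : z ∈ e'.target ∧ e'.symm z ∈ a.source := by
      rw [OpenPartialHomeomorph.trans_source] at hz1
      exact hz1
    show e₁ (e.symm z) = e₁ (p (a.symm (a (e'.symm z))))
    rw [a.left_inv hz1'.2]
    have h5 : e'.symm z ∈ V := by rw [← hs]; exact e'.map_target hz1'.1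
    have h6 : z = e (p (e'.symm z)) := by rw [← hc, e'.right_inv hz1'.1]
    have h7 : e.symm z = p (e'.symm z) := by
      conv_lhs => rw [h6]
      exact e.left_inv h5.2
    rw [h7]
  have hj : jac (e.symm.trans e₁) x = jac (cmap p a e₁) y * jac (e'.symm.trans a) x := by
    rw [jac_congr hcomp]
    exact jac_comp hsmooth (by rw [hχx]; exact hψs)
  rw [hj, Matrix.det_mul] at hθ2
  exact (pos_iff_pos_of_mul_pos hθ2).mp hψpos

end

end Vale.Agent.P223
end
end

section

section

set_option maxSynthPendingDepth 3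

namespace Vale.Agent.P223

open scoped Matrix ContDiff Topology Manifold
open Finset MeasureTheory

section

variable {k : ℕ} {M' M : Type} [TopologicalSpace M'] [ChartedSpace (Fin (k + 1) → ℝ) M']
  [TopologicalSpace M] [ChartedSpace (Fin (k + 1) → ℝ) M] [T2Space M]
  [IsManifold 𝓘(ℝ, Fin (k + 1) → ℝ) ∞ M'] [IsManifold 𝓘(ℝ, Fin (k + 1) → ℝ) ∞ M]
  {J : Matrix (Fin (k + 1)) (Fin (k + 1)) ℝ} {p : M' → M} {d : ℕ}

theorem fundamental_tr (hJ : J * J = -1) (hp : HoloCover J d p) {z : Chain (k + 2) M}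
    (hz : IsFundamental z) : IsFundamental (tr p (k + 2) z) := by
  classical
  obtain ⟨hz1, hz2⟩ := hz
  have hcov := hp.covering
  have hcard := hp.card
  refine ⟨?_, fun q => ?_⟩
  · have h1 : bdry (k + 1) z = 0 := hz1
    show bdry (k + 1) (tr p (k + 2) z) = 0
    rw [bdry_tr hcov hcard, h1, map_zero]
  obtain ⟨e, he, v, D, hv, s, hs, ⟨t₀, ht₀, hst₀⟩, b, c, hc, hzs⟩ := hz2 (p q)
  obtain ⟨sq, hsq, hsqt⟩ := lift_exists hcov s t₀ q hst₀.symm
  have hsinj : ∀ t t', s t = s t' → t = t' := by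
    intro t t' h
    have h1 := (hs t).2
    have h2 := (hs t').2
    rw [h] at h1
    exact bary_inj hv.ne' (h1.symm.trans h2)
  -- the chart upstairs
  have hKc : IsCompact (Set.range sq) := isCompact_range sq.continuous
  obtain ⟨e', he', hKe', hee'⟩ := exists_chart hJ hp he hKc
    (by rintro _ ⟨t, rfl⟩; show p (sq t) ∈ e.source; rw [hsq t]; exact (hs t).1)
    (by
      rintro _ ⟨t, rfl⟩ _ ⟨t', rfl⟩ h
      have h' : p (sq t) = p (sq t') := h
      rw [hsq t, hsq t'] at h'
      rw [hsinj t t' h'])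
    ⟨sq t₀, ⟨t₀, rfl⟩⟩
  refine ⟨e', he', v, D, hv, sq, ?_, ⟨t₀, ht₀, hsqt⟩, tr p (k + 3) b,
    tr p (k + 2) c + ∑ σ' ∈ (lifts p s).erase sq, Finsupp.single σ' (1 : ℝ), ?_, ?_⟩
  · intro t
    refine ⟨hKe' ⟨t, rfl⟩, ?_⟩
    rw [hee' _ (hKe' ⟨t, rfl⟩), hsq t]
    exact (hs t).2
  · intro σ hσ hq
    have h1 := Finsupp.support_add hσ
    rw [Finset.mem_union] at h1
    rcases h1 with h1 | h1
    · -- in the transfer of c
      have h2 : tr p (k + 2) c
          = ∑ σ ∈ c.support, c σ • ∑ σ' ∈ lifts p σ, Finsupp.single σ' (1 : ℝ) := by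
        unfold tr
        rw [Finsupp.linearCombination_apply]
        rfl
      have h3 : ∃ τ ∈ c.support, σ ∈ lifts p τ := by
        by_contra hcon
        push Not at hcon
        have h4 : tr p (k + 2) c σ = 0 := by
          rw [h2, Finsupp.finsetSum_apply]
          refine Finset.sum_eq_zero fun τ hτ => ?_
          rw [Finsupp.smul_apply, Finsupp.finsetSum_apply]
          rw [Finset.sum_eq_zero, smul_zero]
          intro σ' hσ'
          rw [Finsupp.single_apply, if_neg]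
          intro h5
          rw [h5] at hσ'
          exact hcon τ hτ hσ'
        exact (Finsupp.mem_support_iff.mp h1) h4
      obtain ⟨τ, hτ, hτσ⟩ := h3
      rw [mem_lifts hcov hcard] at hτσ
      obtain ⟨t, ht⟩ := hq
      exact hc τ hτ ⟨t, by rw [← hτσ t, ht]⟩
    · have h3 : σ ∈ (lifts p s).erase sq := by
        by_contra hcon
        have h4 : (∑ σ' ∈ (lifts p s).erase sq, Finsupp.single σ' (1 : ℝ)) σ = 0 := by
          rw [Finsupp.finsetSum_apply]
          refine Finset.sum_eq_zero fun σ' hσ' => ?_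
          rw [Finsupp.single_apply, if_neg]
          intro h5
          rw [h5] at hσ'
          exact hcon hσ'
        exact (Finsupp.mem_support_iff.mp h1) h4
      rw [Finset.mem_erase, mem_lifts hcov hcard] at h3
      obtain ⟨t, ht⟩ := hq
      have h5 : s t = s t₀ := by rw [← h3.2 t, ht, hst₀]
      have h6 : t = t₀ := hsinj t t₀ h5
      rw [h6] at ht
      exact h3.1 (lift_unique hcov h3.2 hsq t₀ (ht.trans hsqt.symm))
  · have h1 : tr p (k + 2) (Finsupp.single s (1 : ℝ))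
        = Finsupp.single sq 1 + ∑ σ' ∈ (lifts p s).erase sq, Finsupp.single σ' (1 : ℝ) := by
      rw [tr_single, one_smul]
      exact (Finset.add_sum_erase (lifts p s) (fun σ' => Finsupp.single σ' (1 : ℝ))
        ((mem_lifts hcov hcard).mpr hsq)).symm
    have h2 : tr p (k + 2) (bdry (k + 2) b) = bdry (k + 2) (tr p (k + 3) b) :=
      (bdry_tr hcov hcard b).symm
    rw [hzs, map_add, map_add, h1, h2]
    abel

/-- multiplicativity inequality of the simplicial volume under coverings -/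
theorem simplicialVolume_cover (hJ : J * J = -1) (hp : HoloCover J d p) :
    simplicialVolume (k + 1) M' ≤ d * simplicialVolume (k + 1) M := by
  by_cases hd : d = 0
  · -- the covering space is empty
    have hempty : ∀ q : M', False := by
      intro q
      have h1 := hp.card (p q)
      rw [hd, Nat.cast_zero, Set.encard_eq_zero] at h1
      exact (Set.mem_empty_iff_false q).mp (h1 ▸ (show q ∈ p ⁻¹' {p q} from rfl))
    have h0 : IsFundamental (0 : Chain (k + 2) M') := ⟨map_zero _, fun q => (hempty q).elim⟩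
    have h1 : simplicialVolume (k + 1) M' ≤ ENNReal.ofReal (norm1 (0 : Chain (k + 2) M')) :=
      iInf₂_le _ h0
    rw [norm1_zero, ENNReal.ofReal_zero] at h1
    exact h1.trans bot_le
  · have hd0 : (d : ENNReal) ≠ 0 := by exact_mod_cast hd
    have hdt : (d : ENNReal) ≠ ⊤ := ENNReal.natCast_ne_top d
    have h1 : (d : ENNReal) * simplicialVolume (k + 1) M
        = ⨅ (z : Chain (k + 2) M) (_ : IsFundamental z), (d : ENNReal) * ENNReal.ofReal (norm1 z) := by
      unfold simplicialVolume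
      rw [ENNReal.mul_iInf_of_ne hd0 hdt]
      refine iInf_congr fun z => ?_
      rw [ENNReal.mul_iInf_of_ne hd0 hdt]
    rw [h1]
    refine le_iInf₂ fun z hz => ?_
    have h2 : simplicialVolume (k + 1) M' ≤ ENNReal.ofReal (norm1 (tr p (k + 2) z)) :=
      iInf₂_le _ (fundamental_tr hJ hp hz)
    refine h2.trans ?_
    have h3 : (d : ENNReal) = ENNReal.ofReal (d : ℝ) := (ENNReal.ofReal_natCast d).symm
    rw [h3, ← ENNReal.ofReal_mul (Nat.cast_nonneg d)]
    exact ENNReal.ofReal_le_ofReal (norm1_tr hp.covering hp.card z)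

end

end Vale.Agent.P223
end
end

section

section

set_option maxSynthPendingDepth 3

namespace Vale.Agent.P223

open scoped Matrix ContDiff Topology Manifold
open Finset MeasureTheory

variable {ι : Type} [Fintype ι] [DecidableEq ι]

/-- quadratic form of a matrix -/
noncomputable def qf (A : Matrix ι ι ℝ) (v : ι → ℝ) : ℝ := ∑ a, ∑ b, v a * v b * A a b

omit [DecidableEq ι] in
theorem qf_conj (A B : Matrix ι ι ℝ) (v : ι → ℝ) : qf (Bᵀ * A * B) v = qf A (B *ᵥ v) := by
  unfold qf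
  have e1 : ∀ r q, (B *ᵥ v) r * (B *ᵥ v) q * A r q
      = ∑ a, ∑ b, (v a * v b) * ((B r a * A r q) * B q b) := by
    intro r q
    have hm : ∀ k, (B *ᵥ v) k = ∑ a, B k a * v a := fun k => rfl
    rw [hm, hm, Finset.sum_mul_sum, Finset.sum_mul]
    refine Finset.sum_congr rfl fun a _ => ?_
    rw [Finset.sum_mul]
    refine Finset.sum_congr rfl fun b _ => ?_
    ring
  simp only [e1, mul3_apply, Finset.mul_sum]
  rw [s23, s12, s34, s23]

/-- comparison through the trace -/
theorem qf_le_trace {G H : Matrix ι ι ℝ} (hG : G.PosDef) (hH : H.PosSemidef) (v : ι → ℝ) :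
    qf H v ≤ tr2 G⁻¹ H * qf G v := by
  -- factor G⁻¹ = Bᵀ B and H = Cᵀ C
  obtain ⟨B, hB, hBdet⟩ := exists_factor (G⁻¹) hG.inv
  have hBu : IsUnit B.det := hBdet.isUnit
  have hBtu : IsUnit (Bᵀ).det := by rw [Matrix.det_transpose]; exact hBu
  open scoped MatrixOrder in
  have h0 : 0 ≤ H := hH.nonneg
  open scoped MatrixOrder in
  have h1 : CFC.sqrt H * CFC.sqrt H = H := CFC.sqrt_mul_sqrt_self H h0
  open scoped MatrixOrder in
  have h2 : (CFC.sqrt H).PosSemidef := Matrix.nonneg_iff_posSemidef.mp (CFC.sqrt_nonneg H)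
  have h3 : (CFC.sqrt H)ᵀ = CFC.sqrt H := by
    have := h2.isHermitian
    simpa [Matrix.IsHermitian] using this
  set C := CFC.sqrt H with hC
  have hHC : H = Cᵀ * C := by rw [h3, h1]
  set w := (Bᵀ)⁻¹ *ᵥ v with hw
  have hv : v = Bᵀ *ᵥ w := by
    rw [hw, Matrix.mulVec_mulVec, Matrix.mul_nonsing_inv _ hBtu, Matrix.one_mulVec]
  -- qf G v = |w|^2
  have hGu : IsUnit G.det := hG.det_pos.ne'.isUnit
  have hGB : B * G * Bᵀ = 1 := by
    have e1 : G = B⁻¹ * (Bᵀ)⁻¹ := by
      have : (G⁻¹)⁻¹ = (Bᵀ * B)⁻¹ := by rw [hB]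
      rw [Matrix.nonsing_inv_nonsing_inv _ hGu, Matrix.mul_inv_rev] at this
      exact this
    rw [e1, ← Matrix.mul_assoc, Matrix.mul_nonsing_inv _ hBu, one_mul,
      Matrix.nonsing_inv_mul _ hBtu]
  have hqG : qf G v = ∑ i, w i ^ 2 := by
    rw [hv, ← qf_conj, Matrix.transpose_transpose, hGB]
    unfold qf
    refine Finset.sum_congr rfl fun a _ => ?_
    simp only [Matrix.one_apply, mul_ite, mul_one, mul_zero, sum_ite_eq, mem_univ, ↓reduceIte]
    ring
  have hqH : qf H v = ∑ j, (∑ i, (C * Bᵀ) j i * w i) ^ 2 := by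
    have e1 : qf H v = qf (1 : Matrix ι ι ℝ) ((C * Bᵀ) *ᵥ w) := by
      rw [← qf_conj, hv, ← qf_conj, hHC]
      congr 1
      simp only [Matrix.transpose_mul, Matrix.transpose_transpose, mul_one, Matrix.mul_assoc]
    rw [e1]
    unfold qf
    refine Finset.sum_congr rfl fun a _ => ?_
    have hm : ∀ k, ((C * Bᵀ) *ᵥ w) k = ∑ a, (C * Bᵀ) k a * w a := fun k => rfl
    simp only [Matrix.one_apply, mul_ite, mul_one, mul_zero, Finset.sum_ite_eq, Finset.mem_univ,
      if_true, hm]
    ring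
  have htr : tr2 G⁻¹ H = ∑ j, ∑ i, (C * Bᵀ) j i ^ 2 := by
    rw [tr2_eq]
    have e1 : Hᵀ = H := by rw [hHC, Matrix.transpose_mul, Matrix.transpose_transpose]
    rw [e1, hB, hHC]
    have e2 : (Bᵀ * B * (Cᵀ * C)).trace = ((C * Bᵀ) * (C * Bᵀ)ᵀ).trace := by
      rw [Matrix.transpose_mul, Matrix.transpose_transpose]
      rw [show C * Bᵀ * (B * Cᵀ) = C * (Bᵀ * B * Cᵀ) by simp only [Matrix.mul_assoc],
        Matrix.trace_mul_comm C]
      simp only [Matrix.mul_assoc]
    rw [e2]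
    unfold Matrix.trace
    refine Finset.sum_congr rfl fun j _ => ?_
    rw [Matrix.diag_apply, Matrix.mul_apply]
    refine Finset.sum_congr rfl fun i _ => ?_
    rw [Matrix.transpose_apply]
    ring
  rw [hqG, hqH, htr, Finset.sum_mul]
  refine Finset.sum_le_sum fun j _ => ?_
  exact Finset.sum_mul_sq_le_sq_mul_sq _ _ _

end Vale.Agent.P223
end
end

section

section

set_option maxSynthPendingDepth 3

namespace Vale.Agent.P223

open scoped Matrix ContDiff Topology Manifold
open Finset MeasureTheory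

variable {ι : Type} [Fintype ι] [DecidableEq ι]

section

variable {M : Type} [TopologicalSpace M] [ChartedSpace (ι → ℝ) M]
  {N : Type} [TopologicalSpace N] [ChartedSpace (ι → ℝ) N]
  [IsManifold 𝓘(ℝ, ι → ℝ) ∞ M] [IsManifold 𝓘(ℝ, ι → ℝ) ∞ N]
  {J : Matrix ι ι ℝ} {f : M → N}

/-- invariance of the comparison under changes of charts -/
theorem good_trans (hf : HoloMap J f) (g : RMetric ι M) (h : RMetric ι N) {C : ℝ} {q : M}
    {e c : OpenPartialHomeomorph M (ι → ℝ)} (he : e ∈ atlas (ι → ℝ) M)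
    (hc : c ∈ atlas (ι → ℝ) M) {e' c' : OpenPartialHomeomorph N (ι → ℝ)}
    (he' : e' ∈ atlas (ι → ℝ) N) (hc' : c' ∈ atlas (ι → ℝ) N)
    (hqe : q ∈ e.source) (hqc : q ∈ c.source) (hqe' : f q ∈ e'.source) (hqc' : f q ∈ c'.source)
    (hgood : ∀ v, qf (h.mat c' (c' (f q))) (jac (cmap f c c') (c q) *ᵥ v)
      ≤ C * qf (g.mat c (c q)) v) (v : ι → ℝ) :
    qf (h.mat e' (e' (f q))) (jac (cmap f e e') (e q) *ᵥ v) ≤ C * qf (g.mat e (e q)) v := by
  have hx : e q ∈ (e.symm.trans c).source := mem_trans_source hqe hqc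
  have hφx : (e.symm.trans c) (e q) = c q := trans_apply_coe hqe
  have hx' : e' (f q) ∈ (e'.symm.trans c').source := mem_trans_source hqe' hqc'
  have hφx' : (e'.symm.trans c') (e' (f q)) = c' (f q) := trans_apply_coe hqe'
  have h1 := g.compat e he c hc (e q) hx
  have h2 := h.compat e' he' c' hc' (e' (f q)) hx'
  rw [hφx] at h1
  rw [hφx'] at h2
  -- chain rule: cmap f c c' ∘ φ = φ' ∘ cmap f e e'
  have hsc : f (c.symm (c q)) ∈ c'.source := by rw [c.left_inv hqc]; exact hqc'
  have hse : f (e.symm (e q)) ∈ e'.source := by rw [e.left_inv hqe]; exact hqe'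
  have hsm1 := hf.smooth c hc c' hc' (c q) (c.map_source hqc) hsc
  have hsm2 := hf.smooth e he e' he' (e q) (e.map_source hqe) hse
  have hcx : cmap f e e' (e q) = e' (f q) := by
    show e' (f (e.symm (e q))) = _
    rw [e.left_inv hqe]
  have hj1 : jac (fun y => cmap f c c' ((e.symm.trans c) y)) (e q)
      = jac (cmap f c c') (c q) * jac (e.symm.trans c) (e q) := by
    have := jac_comp (φ := cmap f c c') (ψ := e.symm.trans c) (trans_smoothAt he hc hx)
      (by rw [hφx]; exact hsm1)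
    rw [hφx] at this
    exact this
  have hj2 : jac (fun y => (e'.symm.trans c') (cmap f e e' y)) (e q)
      = jac (e'.symm.trans c') (e' (f q)) * jac (cmap f e e') (e q) := by
    have := jac_comp (φ := e'.symm.trans c') (ψ := cmap f e e') hsm2
      (by rw [hcx]; exact trans_smoothAt he' hc' hx')
    rw [hcx] at this
    exact this
  have hj : jac (cmap f c c') (c q) * jac (e.symm.trans c) (e q)
      = jac (e'.symm.trans c') (e' (f q)) * jac (cmap f e e') (e q) := by
    rw [← hj1, ← hj2]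
    apply jac_congr
    have hopen := (e.symm.trans c).open_source.inter (cdom_open hf.cont e e')
    filter_upwards [hopen.mem_nhds ⟨hx, e.map_source hqe, hse⟩] with y hy
    have hy1 : y ∈ e.target ∧ e.symm y ∈ c.source := by
      have := hy.1
      rw [OpenPartialHomeomorph.trans_source] at this
      exact this
    show c' (f (c.symm (c (e.symm y)))) = c' (e'.symm (e' (f (e.symm y))))
    rw [c.left_inv hy1.2, e'.left_inv hy.2.2]
  rw [h1, h2, qf_conj, qf_conj, Matrix.mulVec_mulVec, ← hj, ← Matrix.mulVec_mulVec]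
  exact hgood _

theorem exists_comparison [CompactSpace M] (hf : HoloMap J f) (g : RMetric ι M)
    (h : RMetric ι N) : ∃ C : ℝ, 0 ≤ C ∧ ∀ e ∈ atlas (ι → ℝ) M, ∀ e' ∈ atlas (ι → ℝ) N,
      ∀ q ∈ e.source, f q ∈ e'.source → ∀ v,
      qf (h.mat e' (e' (f q))) (jac (cmap f e e') (e q) *ᵥ v) ≤ C * qf (g.mat e (e q)) v := by
  have hqf0 : ∀ e ∈ atlas (ι → ℝ) M, ∀ q ∈ e.source, ∀ v, 0 ≤ qf (g.mat e (e q)) v := by
    intro e he q hq v
    have h1 := ((g.isMetric e he).posDef _ (e.map_source hq)).posSemidef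
    have h2 := h1.dotProduct_mulVec_nonneg v
    have h3 : qf (g.mat e (e q)) v = star v ⬝ᵥ (g.mat e (e q)) *ᵥ v := by
      unfold qf dotProduct
      refine Finset.sum_congr rfl fun a _ => ?_
      have hm : ((g.mat e (e q)) *ᵥ v) a = ∑ b, (g.mat e (e q)) a b * v b := rfl
      rw [hm, Finset.mul_sum]
      refine Finset.sum_congr rfl fun b _ => ?_
      simp only [Pi.star_apply, star_trivial]
      ring
    rw [h3]
    exact h2
  have hloc : ∀ p : M, ∃ (W : Set M) (C : ℝ), IsOpen W ∧ p ∈ W ∧ 0 ≤ C ∧ ∀ q ∈ W,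
      ∀ e ∈ atlas (ι → ℝ) M, ∀ e' ∈ atlas (ι → ℝ) N, q ∈ e.source → f q ∈ e'.source → ∀ v,
      qf (h.mat e' (e' (f q))) (jac (cmap f e e') (e q) *ᵥ v) ≤ C * qf (g.mat e (e q)) v := by
    intro p
    set c := chartAt (ι → ℝ) p with hc
    set c' := chartAt (ι → ℝ) (f p) with hc'
    have hca : c ∈ atlas (ι → ℝ) M := chart_mem_atlas _ _
    have hca' : c' ∈ atlas (ι → ℝ) N := chart_mem_atlas _ _
    have hpc : p ∈ c.source := mem_chart_source _ _
    have hpc' : f p ∈ c'.source := mem_chart_source _ _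
    have hgm := g.isMetric c hca
    have hhm := h.isMetric c' hca'
    set U : Set (ι → ℝ) := c.target ∩ {y | f (c.symm y) ∈ c'.source} with hU
    have hUo : IsOpen U := cdom_open hf.cont c c'
    have hpU : c p ∈ U := ⟨c.map_source hpc, by
      show f (c.symm (c p)) ∈ c'.source
      rw [c.left_inv hpc]; exact hpc'⟩
    set τ : (ι → ℝ) → ℝ := fun x => tr2 (g.mat c x)⁻¹ (pb (cmap f c c') (h.mat c') x) with hτ
    have hτc : ContinuousAt τ (c p) := by
      have hψ := hf.smooth c hca c' hca' (c p) hpU.1 hpU.2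
      have h1 : Sm τ (c p) := by
        refine Sm.sum fun a _ => Sm.sum fun b _ => ?_
        exact (hgm.sm_inv c.open_target hpU.1 a b).mul
          (sm_pb hψ (fun i j => hhm.sm c'.open_target (c'.map_source hpU.2) i j) a b)
      exact h1.continuousAt
    have hev : ∀ᶠ y in 𝓝 (c p), τ y < |τ (c p)| + 1 :=
      hτc.eventually (gt_mem_nhds (by have := le_abs_self (τ (c p)); linarith only [this]))
    obtain ⟨O, hO, hOo, hpO⟩ := mem_nhds_iff.mp (Filter.inter_mem hev (hUo.mem_nhds hpU))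
    refine ⟨c.source ∩ c ⁻¹' O, |τ (c p)| + 1, c.isOpen_inter_preimage hOo, ⟨hpc, hpO⟩,
      by (clear * -; positivity), ?_⟩
    intro q hq e he e' he' hqe hqe' v
    have hqO : c q ∈ {x | (fun y => τ y < |τ (c p)| + 1) x} ∩ U := hO hq.2
    have hqc' : f q ∈ c'.source := by
      have := hqO.2.2
      rw [Set.mem_setOf_eq, c.left_inv hq.1] at this
      exact this
    refine good_trans hf g h he hca he' hca' hqe hq.1 hqe' hqc' ?_ v
    intro w
    have hcq : cmap f c c' (c q) = c' (f q) := by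
      show c' (f (c.symm (c q))) = _
      rw [c.left_inv hq.1]
    have hpsd : (pb (cmap f c c') (h.mat c') (c q)).PosSemidef := by
      have h1 := (hhm.posDef _ (c'.map_source hqc')).posSemidef
      have h2 := h1.conjTranspose_mul_mul_same (B := jac (cmap f c c') (c q))
      unfold pb
      rw [hcq]
      simpa using h2
    have h3 := qf_le_trace (hgm.posDef _ (c.map_source hq.1)) hpsd w
    have h4 : qf (pb (cmap f c c') (h.mat c') (c q)) w
        = qf (h.mat c' (c' (f q))) (jac (cmap f c c') (c q) *ᵥ w) := by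
      unfold pb
      rw [hcq, qf_conj]
    rw [← h4]
    refine h3.trans ?_
    exact mul_le_mul_of_nonneg_right (le_of_lt hqO.1) (hqf0 c hca q hq.1 w)
  choose W C hWo hpW hC0 hW using hloc
  obtain ⟨t, ht⟩ := isCompact_univ.elim_finite_subcover W hWo
    (fun p _ => Set.mem_iUnion.mpr ⟨p, hpW p⟩)
  refine ⟨∑ p ∈ t, C p, Finset.sum_nonneg fun p _ => hC0 p, ?_⟩
  intro e he e' he' q hq hq' v
  obtain ⟨p, hp, hqp⟩ := Set.mem_iUnion₂.mp (ht (Set.mem_univ q))
  refine (hW p q hqp e he e' he' hq hq' v).trans ?_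
  refine mul_le_mul_of_nonneg_right ?_ (hqf0 e he q hq v)
  exact Finset.single_le_sum (f := C) (fun p _ => hC0 p) hp

end

end Vale.Agent.P223
end
end

section

section

set_option maxSynthPendingDepth 3

namespace Vale.Agent.P223

open scoped Matrix ContDiff Topology Manifold
open Finset MeasureTheory

section

variable {n : ℕ} {M : Type} [TopologicalSpace M] [ChartedSpace (Fin n → ℝ) M]
  [MeasurableSpace M] [BorelSpace M] [IsManifold 𝓘(ℝ, Fin n → ℝ) ∞ M] [CompactSpace M] [T2Space M]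

/-- limit `eta → 0` on the right hand side -/
theorem le_of_forall_eta (g : RMetric (Fin n) M) (μ : Measure M) [IsFiniteMeasure μ]
    {A : ENNReal} (hA : ∀ eta : ℝ, 0 < eta → A ≤ ∫⁻ p, ENNReal.ofReal
      ((max 0 (-g.scalar p) + (n : ℝ) * eta) ^ ((n : ℝ) / 2)) ∂μ) :
    A ≤ ∫⁻ p, ENNReal.ofReal ((max 0 (-g.scalar p)) ^ ((n : ℝ) / 2)) ∂μ := by
  have hSc := g.continuous_scalar
  obtain ⟨C, hC⟩ : ∃ C, ∀ p, ‖g.scalar p‖ ≤ C := by
    obtain ⟨C, hC⟩ := isCompact_univ.exists_bound_of_continuousOn (f := g.scalar) hSc.continuousOn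
    exact ⟨C, fun p => hC p (Set.mem_univ p)⟩
  have hn0 : (0 : ℝ) ≤ (n : ℝ) := Nat.cast_nonneg n
  have hε0 : Filter.Tendsto (fun k : ℕ => 1 / ((k : ℝ) + 1)) Filter.atTop (𝓝 0) :=
    tendsto_one_div_add_atTop_nhds_zero_nat
  have hlim : Filter.Tendsto (fun k : ℕ => ∫⁻ p, ENNReal.ofReal
      ((max 0 (-g.scalar p) + (n : ℝ) * (1 / ((k : ℝ) + 1))) ^ ((n : ℝ) / 2)) ∂μ) Filter.atTop
      (𝓝 (∫⁻ p, ENNReal.ofReal ((max 0 (-g.scalar p)) ^ ((n : ℝ) / 2)) ∂μ)) := by
    refine tendsto_lintegral_of_dominated_convergence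
      (fun _ => ENNReal.ofReal ((|C| + n) ^ ((n : ℝ) / 2))) ?_ ?_ ?_ ?_
    · intro k
      have h1 : Continuous fun p => (max 0 (-g.scalar p) + (n : ℝ) * (1 / ((k : ℝ) + 1)))
          ^ ((n : ℝ) / 2) :=
        ((continuous_const.max hSc.neg).add continuous_const).rpow_const
          fun p => Or.inr (by (clear * -; positivity))
      exact h1.measurable.ennreal_ofReal
    · intro k
      refine Filter.Eventually.of_forall fun p => ENNReal.ofReal_le_ofReal ?_
      have hk : 1 / ((k : ℝ) + 1) ≤ 1 := by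
        rw [div_le_one (by positivity)]
        have : (0:ℝ) ≤ k := Nat.cast_nonneg k
        linarith
      have hk0 : 0 ≤ 1 / ((k : ℝ) + 1) := by positivity
      have h2 := hC p
      rw [Real.norm_eq_abs] at h2
      have h3 : max 0 (-g.scalar p) ≤ |C| :=
        max_le (abs_nonneg _) ((neg_le_abs _).trans (h2.trans (le_abs_self _)))
      refine Real.rpow_le_rpow (by (clear * -; positivity)) ?_ (by positivity)
      have h4 : (n : ℝ) * (1 / ((k : ℝ) + 1)) ≤ n * 1 := mul_le_mul_of_nonneg_left hk hn0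
      linarith only [h3, h4]
    · rw [lintegral_const]
      exact ENNReal.mul_ne_top ENNReal.ofReal_ne_top (measure_ne_top μ _)
    · refine Filter.Eventually.of_forall fun p => ?_
      refine (ENNReal.continuous_ofReal.tendsto _).comp ?_
      have h1 : Filter.Tendsto (fun k : ℕ => max 0 (-g.scalar p) + (n : ℝ) * (1 / ((k : ℝ) + 1)))
          Filter.atTop (𝓝 (max 0 (-g.scalar p))) := by
        have := (hε0.const_mul (n : ℝ)).const_add (max 0 (-g.scalar p))
        rwa [mul_zero, add_zero] at this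
      exact h1.rpow_const (Or.inr (by (clear * -; positivity)))
  exact ge_of_tendsto hlim (Filter.Eventually.of_forall fun k => hA _ (by positivity))

end

section

variable {n : ℕ} {M' : Type} [TopologicalSpace M'] [ChartedSpace (Fin n → ℝ) M']
  [MeasurableSpace M'] [BorelSpace M'] [IsManifold 𝓘(ℝ, Fin n → ℝ) ∞ M'] [CompactSpace M']
  [T2Space M']
  {M : Type} [TopologicalSpace M] [ChartedSpace (Fin n → ℝ) M]
  [MeasurableSpace M] [BorelSpace M] [IsManifold 𝓘(ℝ, Fin n → ℝ) ∞ M] [T2Space M]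
  {J : Matrix (Fin n) (Fin n) ℝ} {p : M' → M} {d : ℕ}

/-- curvature inequality for coverings -/
theorem cover_ineq (hn : 3 ≤ n) (hJ : J * J = -1) (hM' : HoloAtlas J M')
    (hp : HoloCover J d p) {lam : ℝ} (hlam : 0 ≤ lam) {V : ENNReal} (h : RMetric (Fin n) M)
    (hV : ∀ eta : ℝ, 0 < eta → ∃ (g0 : RMetric (Fin n) M) (μ0 : Measure M),
      g0.IsHermitian J ∧ g0.IsKahler J ∧ RicciLe g0 h lam eta ∧ IsVol g0 μ0 ∧ V ≤ μ0 Set.univ)
    {g : RMetric (Fin n) M'} (hg : g.IsHermitian J) {μ : Measure M'} (hμ : IsVol g μ) :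
    ENNReal.ofReal (((n : ℝ) * lam) ^ ((n : ℝ) / 2)) * (d * V)
      ≤ ∫⁻ q, ENNReal.ofReal ((max 0 (-g.scalar q)) ^ ((n : ℝ) / 2)) ∂μ := by
  haveI : IsFiniteMeasure μ := hμ.isFiniteMeasure
  obtain ⟨C, hC0, hC⟩ := exists_comparison hp.holo g h
  refine le_of_forall_eta g μ fun eta heta => ?_
  obtain ⟨g0, μ0, hg0, hk, hric, hμ0, hVle⟩ := hV (eta / (C + 1)) (by (clear * - heta hC0; positivity))
  have hRB : RicBound g g0 p lam eta := by
    intro e he e' he' x hx hx' v w hw
    have h1 := hric e' he' (cmap p e e' x) (e'.map_source hx') w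
    have hq := hC e he e' he' (e.symm x) (e.map_target hx) hx' v
    rw [e.right_inv hx] at hq
    rw [← hw] at hq
    have h2 : ∑ a, ∑ b, w a * w b * h.mat e' (cmap p e e' x) a b
        ≤ C * ∑ a, ∑ b, v a * v b * g.mat e x a b := hq
    have h3 : 0 ≤ ∑ a, ∑ b, w a * w b * h.mat e' (cmap p e e' x) a b := by
      have h4 := ((h.isMetric e' he').posDef _ (e'.map_source hx')).posSemidef
      have h5 := h4.dotProduct_mulVec_nonneg w
      have h6 : (∑ a, ∑ b, w a * w b * h.mat e' (cmap p e e' x) a b)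
          = star w ⬝ᵥ (h.mat e' (e' (p (e.symm x)))) *ᵥ w := by
        unfold dotProduct
        refine Finset.sum_congr rfl fun a _ => ?_
        have hm : ((h.mat e' (e' (p (e.symm x)))) *ᵥ w) a
            = ∑ b, (h.mat e' (e' (p (e.symm x)))) a b * w b := rfl
        rw [hm, Finset.mul_sum]
        refine Finset.sum_congr rfl fun b _ => ?_
        simp only [Pi.star_apply, star_trivial]
        show w a * w b * h.mat e' (e' (p (e.symm x))) a b = _
        ring
      rw [h6]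
      exact h5
    have hg0' : 0 ≤ ∑ a, ∑ b, v a * v b * g.mat e x a b := by
      by_contra hneg
      push Not at hneg
      have h4 := ((g.isMetric e he).posDef _ hx).posSemidef
      have h5 := h4.dotProduct_mulVec_nonneg v
      have h6 : (∑ a, ∑ b, v a * v b * g.mat e x a b) = star v ⬝ᵥ (g.mat e x) *ᵥ v := by
        unfold dotProduct
        refine Finset.sum_congr rfl fun a _ => ?_
        have hm : ((g.mat e x) *ᵥ v) a = ∑ b, (g.mat e x) a b * v b := rfl
        rw [hm, Finset.mul_sum]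
        refine Finset.sum_congr rfl fun b _ => ?_
        simp only [Pi.star_apply, star_trivial]
        ring
      rw [h6] at hneg
      exact absurd h5 (not_le.mpr hneg)
    have h7 : eta / (C + 1) * (∑ a, ∑ b, w a * w b * h.mat e' (cmap p e e' x) a b)
        ≤ eta * ∑ a, ∑ b, v a * v b * g.mat e x a b := by
      have hC1 : 0 < C + 1 := by (clear * - hC0; positivity)
      calc eta / (C + 1) * (∑ a, ∑ b, w a * w b * h.mat e' (cmap p e e' x) a b)
          ≤ eta / (C + 1) * (C * ∑ a, ∑ b, v a * v b * g.mat e x a b) :=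
            mul_le_mul_of_nonneg_left h2 (by (clear * - heta hC0; positivity))
        _ = eta * (C / (C + 1)) * ∑ a, ∑ b, v a * v b * g.mat e x a b := by ring
        _ ≤ eta * 1 * ∑ a, ∑ b, v a * v b * g.mat e x a b := by
            refine mul_le_mul_of_nonneg_right ?_ hg0'
            refine mul_le_mul_of_nonneg_left ?_ heta.le
            rw [div_le_one hC1]
            linarith only []
        _ = _ := by ring
    linarith
  have hmain := main_ineq (μ := μ) hμ hJ hM' hp.holo hg hg0 hk (by simpa only [Fintype.card_fin] using hn) hlam heta.le hRB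
  rw [cover_volume hJ hμ hμ0 hp.holo hp.covering.isLocalHomeomorph d hp.card] at hmain
  simp only [Fintype.card_fin] at hmain
  refine le_trans ?_ hmain
  (clear * - hVle; gcongr)

end

end Vale.Agent.P223
end
end

section

section

set_option maxSynthPendingDepth 3

namespace Vale.Agent.P223

open scoped Matrix ContDiff Topology Manifold
open Finset MeasureTheory

section

variable {n : ℕ} {M' : Type} [TopologicalSpace M'] [ChartedSpace (Fin n → ℝ) M']
  [MeasurableSpace M'] [BorelSpace M'] [IsManifold 𝓘(ℝ, Fin n → ℝ) ∞ M'] [CompactSpace M']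
  [T2Space M']
  {M : Type} [TopologicalSpace M] [ChartedSpace (Fin n → ℝ) M]
  [MeasurableSpace M] [BorelSpace M] [IsManifold 𝓘(ℝ, Fin n → ℝ) ∞ M] [T2Space M]
  {J : Matrix (Fin n) (Fin n) ℝ} {p : M' → M} {d : ℕ}

/-- the three inequalities for a covering -/
theorem cover_final (hn : 3 ≤ n) (hJ : J * J = -1) (hM' : HoloAtlas J M')
    (hp : HoloCover J d p) {lam : ℝ} (hlam : 0 ≤ lam) {V : ENNReal} (h : RMetric (Fin n) M)
    (hV : ∀ eta : ℝ, 0 < eta → ∃ (g0 : RMetric (Fin n) M) (μ0 : Measure M),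
      g0.IsHermitian J ∧ g0.IsKahler J ∧ RicciLe g0 h lam eta ∧ IsVol g0 μ0 ∧ V ≤ μ0 Set.univ)
    {g : RMetric (Fin n) M'} (hg : g.IsHermitian J) {μ : Measure M'} (hμ : IsVol g μ) :
    ENNReal.ofReal (((n : ℝ) * lam) ^ ((n : ℝ) / 2)) * (d * V)
      ≤ ∫⁻ q, ENNReal.ofReal ((max 0 (-g.scalar q)) ^ ((n : ℝ) / 2)) ∂μ ∧
    ENNReal.ofReal (((n : ℝ) * lam) ^ ((n : ℝ) / 2)) * V * simplicialVolume n M'
      ≤ simplicialVolume n M *
        ∫⁻ q, ENNReal.ofReal ((max 0 (-g.scalar q)) ^ ((n : ℝ) / 2)) ∂μ ∧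
    ∀ C : ENNReal, simplicialVolume n M ≤ C * V →
      ENNReal.ofReal (((n : ℝ) * lam) ^ ((n : ℝ) / 2)) * simplicialVolume n M'
        ≤ C * ∫⁻ q, ENNReal.ofReal ((max 0 (-g.scalar q)) ^ ((n : ℝ) / 2)) ∂μ := by
  have h1 := cover_ineq hn hJ hM' hp hlam h hV hg hμ
  obtain ⟨k, rfl⟩ : ∃ k, n = k + 1 := ⟨n - 1, by omega⟩
  have h2 : simplicialVolume (k + 1) M' ≤ d * simplicialVolume (k + 1) M :=
    simplicialVolume_cover hJ hp
  set I := ∫⁻ q, ENNReal.ofReal ((max 0 (-g.scalar q)) ^ (((k + 1 : ℕ) : ℝ) / 2)) ∂μ with hI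
  set c := ENNReal.ofReal ((((k + 1 : ℕ) : ℝ) * lam) ^ (((k + 1 : ℕ) : ℝ) / 2)) with hc
  refine ⟨h1, ?_, fun C hC => ?_⟩
  · calc c * V * simplicialVolume (k + 1) M'
        ≤ c * V * (d * simplicialVolume (k + 1) M) := by (clear * - h2; gcongr)
      _ = simplicialVolume (k + 1) M * (c * (d * V)) := by ring
      _ ≤ simplicialVolume (k + 1) M * I := by (clear * - h1; gcongr)
  · calc c * simplicialVolume (k + 1) M' ≤ c * (d * simplicialVolume (k + 1) M) := by (clear * - h2; gcongr)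
      _ ≤ c * (d * (C * V)) := by (clear * - hC; gcongr)
      _ = C * (c * (d * V)) := by ring
      _ ≤ C * I := by (clear * - h1; gcongr)

end

end Vale.Agent.P223
end
end

section

section

set_option maxSynthPendingDepth 3

namespace Vale.Agent.P223

open scoped Matrix ContDiff Topology Manifold
open Finset MeasureTheory

section

variable {n : ℕ} {M : Type} [TopologicalSpace M] [ChartedSpace (Fin n → ℝ) M]

end

end Vale.Agent.P223
end
end

section

section

set_option maxSynthPendingDepth 3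

namespace Vale.Agent.P223

open scoped Matrix ContDiff Topology Manifold
open Finset MeasureTheory

variable {n : ℕ}

theorem Kpd_eq {i : Fin n} {f : (Fin n → ℝ) → ℝ} {x : Fin n → ℝ} (hf : DifferentiableAt ℝ f x) :
    K.pd i f x = pd i f x := by
  unfold K.pd pd
  have h1 : HasDerivAt (fun t => Function.update x i t) (Pi.single i 1) (x i) :=
    hasDerivAt_update x i (x i)
  have h2 : HasFDerivAt f (fderiv ℝ f x) (Function.update x i (x i)) := by
    rw [Function.update_eq_self]; exact hf.hasFDerivAt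
  exact (h2.comp_hasDerivAt (x i) h1).deriv

theorem Kpd_congr {i : Fin n} {f h : (Fin n → ℝ) → ℝ} {x : Fin n → ℝ} (e : f =ᶠ[𝓝 x] h) :
    K.pd i f x = K.pd i h x := by
  unfold K.pd
  apply Filter.EventuallyEq.deriv_eq
  have hc : Filter.Tendsto (fun t : ℝ => Function.update x i t) (𝓝 (x i)) (𝓝 x) := by
    have h1 : Continuous fun t : ℝ => Function.update x i t := by fun_prop
    have h2 := h1.tendsto (x i)
    rwa [Function.update_eq_self] at h2
  exact hc.eventually e

theorem Kjac_eq {φ : (Fin n → ℝ) → Fin n → ℝ} {x : Fin n → ℝ}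
    (hφ : ∀ i, DifferentiableAt ℝ (fun z => φ z i) x) : K.jac φ x = jac φ x := by
  ext i j
  exact Kpd_eq (hφ i)

theorem Kjac_congr {φ ψ : (Fin n → ℝ) → Fin n → ℝ} {x : Fin n → ℝ} (h : φ =ᶠ[𝓝 x] ψ) :
    K.jac φ x = K.jac ψ x := by
  ext i j
  exact Kpd_congr (h.mono fun y hy => congrFun hy i)

theorem Kchr_eq {g : (Fin n → ℝ) → Matrix (Fin n) (Fin n) ℝ} {x : Fin n → ℝ}
    (hg : ∀ a b, DifferentiableAt ℝ (fun y => g y a b) x) (c a b : Fin n) :
    K.chr g x c a b = christoffel g x c a b := by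
  unfold K.chr christoffel
  simp only [Kpd_eq (hg _ _)]

theorem Kric_eq {X : Set (Fin n → ℝ)} {g : (Fin n → ℝ) → Matrix (Fin n) (Fin n) ℝ}
    (hg : IsMetricOn X g) (hX : IsOpen X) {x : Fin n → ℝ} (hx : x ∈ X) (a b : Fin n) :
    K.ric g x a b = ricci g x a b := by
  have h1 : ∀ c a b, K.pd c (fun y => K.chr g y a b c) x = pd c (fun y => christoffel g y a b c) x := by
    intro c a b
    rw [← Kpd_eq (hg.sm_christoffel hX hx a b c).diff]
    apply Kpd_congr
    filter_upwards [hX.mem_nhds hx] with y hy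
    exact Kchr_eq (fun a b => (hg.sm hX hy a b).diff) _ _ _
  have h2 : ∀ i c a b, K.pd i (fun y => K.chr g y c a b) x = pd i (fun y => christoffel g y c a b) x := by
    intro i c a b
    rw [← Kpd_eq (hg.sm_christoffel hX hx c a b).diff]
    apply Kpd_congr
    filter_upwards [hX.mem_nhds hx] with y hy
    exact Kchr_eq (fun a b => (hg.sm hX hy a b).diff) _ _ _
  have h3 : ∀ c a b, K.chr g x c a b = christoffel g x c a b := fun c a b =>
    Kchr_eq (fun a b => (hg.sm hX hx a b).diff) _ _ _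
  unfold K.ric ricci
  simp only [h2, h3]

theorem Kscal_eq {X : Set (Fin n → ℝ)} {g : (Fin n → ℝ) → Matrix (Fin n) (Fin n) ℝ}
    (hg : IsMetricOn X g) (hX : IsOpen X) {x : Fin n → ℝ} (hx : x ∈ X) :
    K.scal g x = scal g x := by
  unfold K.scal scal
  simp only [Kric_eq hg hX hx]

theorem pd_congr_set {X : Set (Fin n → ℝ)} (hX : IsOpen X) {f h : (Fin n → ℝ) → ℝ}
    (e : ∀ y ∈ X, f y = h y) {x : Fin n → ℝ} (hx : x ∈ X) (i : Fin n) :
    pd i f x = pd i h x :=
  pd_congr (Filter.mem_of_superset (hX.mem_nhds hx) e)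

theorem christoffel_congr_set {X : Set (Fin n → ℝ)} (hX : IsOpen X)
    {g g' : (Fin n → ℝ) → Matrix (Fin n) (Fin n) ℝ} (e : ∀ y ∈ X, g y = g' y)
    {x : Fin n → ℝ} (hx : x ∈ X) (c a b : Fin n) :
    christoffel g x c a b = christoffel g' x c a b := by
  unfold christoffel
  have h1 : ∀ i a b, pd i (fun y => g y a b) x = pd i (fun y => g' y a b) x := fun i a b =>
    pd_congr_set hX (fun y hy => by rw [e y hy]) hx i
  simp only [h1, e x hx]

theorem ricci_congr_set {X : Set (Fin n → ℝ)} (hX : IsOpen X)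
    {g g' : (Fin n → ℝ) → Matrix (Fin n) (Fin n) ℝ} (e : ∀ y ∈ X, g y = g' y)
    {x : Fin n → ℝ} (hx : x ∈ X) (a b : Fin n) : ricci g x a b = ricci g' x a b := by
  unfold ricci
  have h1 : ∀ i c a b, pd i (fun y => christoffel g y c a b) x
      = pd i (fun y => christoffel g' y c a b) x := fun i c a b =>
    pd_congr_set hX (fun y hy => christoffel_congr_set hX e hy c a b) hx i
  simp only [h1, christoffel_congr_set hX e hx]

theorem scal_congr_set {X : Set (Fin n → ℝ)} (hX : IsOpen X)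
    {g g' : (Fin n → ℝ) → Matrix (Fin n) (Fin n) ℝ} (e : ∀ y ∈ X, g y = g' y)
    {x : Fin n → ℝ} (hx : x ∈ X) : scal g x = scal g' x := by
  unfold scal
  simp only [ricci_congr_set hX e hx, e x hx]

end Vale.Agent.P223
end
end

section

section

set_option maxSynthPendingDepth 3

namespace Vale.Agent.P223

open scoped Matrix ContDiff Topology Manifold
open Finset MeasureTheory

variable {n : ℕ} {X : Type} [TopologicalSpace X] {J : Matrix (Fin n) (Fin n) ℝ}
  {c : X → K.Ch n X}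

theorem Katl_mem (hc : K.Atl J c) (a : X) : a ∈ (c a).source := by
  obtain ⟨x, hx⟩ := (hc a).1
  exact hx.1

/-- the charted space structure of an atlas -/
@[reducible] def toCS (hc : K.Atl J c) : ChartedSpace (Fin n → ℝ) X where
  atlas := Set.range c
  chartAt := c
  mem_chart_source := Katl_mem hc
  chart_mem_atlas a := ⟨a, rfl⟩

theorem cm_eq (e e' : K.Ch n X) : K.cm e e' = (e.symm.trans e') := rfl

theorem Kat_symm {e : K.Ch n X} {x : Fin n → ℝ} (hx : x ∈ e.target) : K.At e (e.symm x) x :=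
  ⟨e.map_target hx, e.right_inv hx⟩

theorem Kat_coe {e : K.Ch n X} {p : X} (hp : p ∈ e.source) : K.At e p (e p) := ⟨hp, rfl⟩

theorem ksm_at {P : Matrix (Fin n) (Fin n) ℝ → Prop} {e e' : K.Ch n X} (h : K.Sm P e e')
    {x : Fin n → ℝ} (hx : x ∈ (e.symm.trans e').source) :
    ContDiffAt ℝ ∞ (e.symm.trans e') x ∧ P (jac (e.symm.trans e') x) := by
  have hx' : x ∈ e.target ∧ e.symm x ∈ e'.source := by
    rw [OpenPartialHomeomorph.trans_source] at hx
    exact hx
  obtain ⟨h1, h2⟩ := h (e.symm x) x _ (Kat_symm hx'.1) (Kat_coe hx'.2)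
  have h3 : ContDiffAt ℝ ∞ (e.symm.trans e') x := by
    rw [contDiffAt_pi]
    exact h1
  refine ⟨h3, ?_⟩
  have h4 : K.jac (K.cm e e') x = jac (e.symm.trans e') x :=
    Kjac_eq fun i => ContDiffAt.differentiableAt (h1 i) (by simp)
  rw [h4] at h2
  exact h2

theorem isManifold_of_atl (hc : K.Atl J c) :
    letI := toCS hc; IsManifold 𝓘(ℝ, Fin n → ℝ) ∞ X := by
  letI := toCS hc
  apply isManifold_of_contDiffOn
  rintro _ _ ⟨a, rfl⟩ ⟨b, rfl⟩
  have h1 : ContDiffOn ℝ ∞ ((c a).symm.trans (c b)) ((c a).symm.trans (c b)).source :=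
    fun x hx => (ksm_at ((hc a).2 b) hx).1.contDiffWithinAt
  simpa using h1

theorem holoAtlas_of_atl (hc : K.Atl J c) : letI := toCS hc; HoloAtlas J X := by
  letI := toCS hc
  rintro _ ⟨a, rfl⟩ _ ⟨b, rfl⟩ x hx
  exact (ksm_at ((hc a).2 b) hx).2

/-- the coordinate change between two equal charts -/
theorem jac_same (e : K.Ch n X) {x : Fin n → ℝ} (hx : x ∈ e.target) :
    K.jac (K.cm e e) x = 1 := by
  have h1 : K.cm e e =ᶠ[𝓝 x] id := by
    filter_upwards [e.open_target.mem_nhds hx] with y hy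
    exact e.right_inv hy
  rw [Kjac_congr h1, Kjac_eq (φ := id) fun i => differentiableAt_apply i x]
  ext i j
  show pd j (fun z : Fin n → ℝ => z i) x = _
  unfold pd
  rw [fderiv_apply, Matrix.one_apply]
  · simp [Pi.single_apply]
  · exact differentiableAt_id

theorem herm_eq {g : X → (Fin n → ℝ) → Matrix (Fin n) (Fin n) ℝ} (hg : K.Herm J c g) {a b : X}
    (hab : c a = c b) {x : Fin n → ℝ} (hx : x ∈ (c a).target) : g a x = g b x := by
  have h1 := (hg a b ((c a).symm x) x x (Kat_symm hx) (by rw [← hab]; exact Kat_symm hx)).2.2.2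
  rw [← hab, jac_same _ hx] at h1
  simpa using h1

theorem herm_metricOn {g : X → (Fin n → ℝ) → Matrix (Fin n) (Fin n) ℝ} (hg : K.Herm J c g)
    (a : X) : IsMetricOn (c a).target (g a) where
  smooth := by
    intro i j x hx
    exact ((hg a a _ x x (Kat_symm hx) (Kat_symm hx)).1 i j).contDiffWithinAt
  posDef := fun x hx => (hg a a _ x x (Kat_symm hx) (Kat_symm hx)).2.1

open Classical in
/-- the matrices of a metric in the charts of the atlas -/
noncomputable def toMat (c : X → K.Ch n X) (g : X → (Fin n → ℝ) → Matrix (Fin n) (Fin n) ℝ)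
    (e : OpenPartialHomeomorph X (Fin n → ℝ)) : (Fin n → ℝ) → Matrix (Fin n) (Fin n) ℝ :=
  if h : ∃ a, c a = e then g h.choose else fun _ => 1

theorem toMat_eq {g : X → (Fin n → ℝ) → Matrix (Fin n) (Fin n) ℝ} (hg : K.Herm J c g) (a : X)
    {x : Fin n → ℝ} (hx : x ∈ (c a).target) : toMat c g (c a) x = g a x := by
  have h : ∃ b, c b = c a := ⟨a, rfl⟩
  unfold toMat
  rw [dif_pos h]
  exact (herm_eq hg h.choose_spec.symm hx).symm

/-- a metric in the sense of `K` as an `RMetric` -/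
noncomputable def toRM (hc : K.Atl J c) {g : X → (Fin n → ℝ) → Matrix (Fin n) (Fin n) ℝ}
    (hg : K.Herm J c g) : letI := toCS hc; RMetric (Fin n) X :=
  letI := toCS hc
  { mat := toMat c g
    isMetric := by
      rintro _ ⟨a, rfl⟩
      have h1 := herm_metricOn hg a
      refine ⟨fun i j => (h1.smooth i j).congr fun x hx => ?_, fun x hx => ?_⟩
      · rw [toMat_eq hg a hx]
      · rw [toMat_eq hg a hx]; exact h1.posDef x hx
    compat := by
      rintro _ ⟨a, rfl⟩ _ ⟨b, rfl⟩ x hx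
      have hx' : x ∈ (c a).target ∧ (c a).symm x ∈ (c b).source := by
        rw [OpenPartialHomeomorph.trans_source] at hx
        exact hx
      have h1 := (hg a b ((c a).symm x) x _ (Kat_symm hx'.1) (Kat_coe hx'.2)).2.2.2
      have h2 := (ksm_at ((hc a).2 b) hx).1
      rw [toMat_eq hg a hx'.1]
      have h3 : toMat c g (c b) (((c a).symm.trans (c b)) x) = g b ((c b) ((c a).symm x)) :=
        toMat_eq hg b ((c b).map_source hx'.2)
      rw [h3, h1]
      have h4 : K.jac (K.cm (c a) (c b)) x = jac ((c a).symm.trans (c b)) x := by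
        rw [cm_eq]
        exact Kjac_eq fun i => ((contDiffAt_pi.mp h2) i).differentiableAt (by simp)
      rw [h4] }

end Vale.Agent.P223
end
end

section

section

set_option maxSynthPendingDepth 3

namespace Vale.Agent.P223

open scoped Matrix ContDiff Topology Manifold
open Finset MeasureTheory

variable {n : ℕ} {X : Type} [TopologicalSpace X] {J : Matrix (Fin n) (Fin n) ℝ}
  {c : X → K.Ch n X} {g h : X → (Fin n → ℝ) → Matrix (Fin n) (Fin n) ℝ}

theorem toRM_scalar (hc : K.Atl J c) (hg : K.Herm J c g) (p : X) :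
    letI := toCS hc; (toRM hc hg).scalar p = K.scal (g p) (c p p) := by
  letI := toCS hc
  have hx : c p p ∈ (c p).target := (c p).map_source (Katl_mem hc p)
  rw [Kscal_eq (herm_metricOn hg p) (c p).open_target hx]
  exact scal_congr_set (c p).open_target (fun y hy => toMat_eq hg p hy) hx

theorem toRM_vol [MeasurableSpace X] [BorelSpace X] (hc : K.Atl J c) (hg : K.Herm J c g)
    {μ : Measure X} (hμ : K.Vol c g μ) : letI := toCS hc; IsVol (toRM hc hg) μ := by
  letI := toCS hc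
  rintro _ ⟨a, rfl⟩ A hA hAe
  have h1 := hμ a A hA
  have h2 : {p | p ∈ A ∧ ∃ x, K.At (c a) p x} = A := by
    ext p
    exact ⟨fun hp => hp.1, fun hp => ⟨hp, _, Kat_coe (hAe hp)⟩⟩
  have h3 : {x | ∃ p ∈ A, K.At (c a) p x} = (c a) '' A := by
    ext x
    constructor
    · rintro ⟨p, hp, hpx⟩
      exact ⟨p, hp, hpx.2⟩
    · rintro ⟨p, hp, rfl⟩
      exact ⟨p, hp, Kat_coe (hAe hp)⟩
  rw [h2, h3, lintegral_indicator (image_measurable (c a) hA hAe)] at h1
  rw [h1]
  refine setLIntegral_congr_fun (image_measurable (c a) hA hAe) ?_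
  rintro x ⟨p, hp, rfl⟩
  show ENNReal.ofReal (Real.sqrt _) = ENNReal.ofReal (Real.sqrt _)
  congr 3
  exact (toMat_eq hg a ((c a).map_source (hAe hp))).symm

theorem toRM_herm (hc : K.Atl J c) (hg : K.Herm J c g) :
    letI := toCS hc; (toRM hc hg).IsHermitian J := by
  letI := toCS hc
  rintro _ ⟨a, rfl⟩ x hx
  show Jᵀ * toMat c g (c a) x * J = toMat c g (c a) x
  rw [toMat_eq hg a hx]
  exact (hg a a _ x x (Kat_symm hx) (Kat_symm hx)).2.2.1

theorem toRM_kahler (hc : K.Atl J c) (hg : K.Herm J c g) (hK : K.Kah J c g) :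
    letI := toCS hc; (toRM hc hg).IsKahler J := by
  letI := toCS hc
  rintro _ ⟨a, rfl⟩ x hx i j k
  have h1 := hK a _ x (Kat_symm hx) i j k
  have hm := herm_metricOn hg a
  have hsm : ∀ p q, Sm (fun y => (Jᵀ * g a y) p q) x := by
    intro p q
    have e1 : (fun y => (Jᵀ * g a y) p q) = fun y => ∑ r, Jᵀ p r * g a y r q := by
      funext y
      exact Matrix.mul_apply
    rw [e1]
    exact Sm.sum fun r _ => (Sm.const _).mul (hm.sm (c a).open_target hx r q)
  have h2 : ∀ i p q, pd i (fun y => (Jᵀ * toMat c g (c a) y) p q) x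
      = K.pd i (fun y => (Matrix.transpose J * g a y) p q) x := by
    intro i p q
    rw [Kpd_eq (hsm p q).diff]
    exact pd_congr_set (c a).open_target (fun y hy => by rw [toMat_eq hg a hy]) hx i
  show pd i (fun y => (Jᵀ * toMat c g (c a) y) j k) x
    + pd j (fun y => (Jᵀ * toMat c g (c a) y) k i) x
    + pd k (fun y => (Jᵀ * toMat c g (c a) y) i j) x = 0
  rw [h2, h2, h2]
  exact h1

theorem quad_of_posSemidef {A : Matrix (Fin n) (Fin n) ℝ} (hA : A.PosSemidef) (v : Fin n → ℝ) :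
    0 ≤ ∑ a, ∑ b, v a * v b * A a b := by
  have h1 := hA.dotProduct_mulVec_nonneg v
  have h2 : star v ⬝ᵥ A *ᵥ v = ∑ a, ∑ b, v a * v b * A a b := by
    unfold dotProduct
    refine Finset.sum_congr rfl fun a _ => ?_
    have hm : (A *ᵥ v) a = ∑ b, A a b * v b := rfl
    rw [hm, Finset.mul_sum]
    refine Finset.sum_congr rfl fun b _ => ?_
    simp only [star_trivial]
    ring
  rwa [h2] at h1

theorem toRM_ricLe (hc : K.Atl J c) (hg : K.Herm J c g) (hh : K.Herm J c h) {eta : ℝ}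
    (hR : K.RicLe c g h eta) :
    letI := toCS hc; RicciLe (toRM hc hg) (toRM hc hh) 1 eta := by
  letI := toCS hc
  rintro _ ⟨a, rfl⟩ x hx v
  have h1 := quad_of_posSemidef (hR a _ x (Kat_symm hx)) v
  have h2 : ∀ i j, ricci (toMat c g (c a)) x i j = K.ric (g a) x i j := by
    intro i j
    rw [Kric_eq (herm_metricOn hg a) (c a).open_target hx]
    exact ricci_congr_set (c a).open_target (fun y hy => toMat_eq hg a hy) hx i j
  show ∑ i, ∑ j, v i * v j * ricci (toMat c g (c a)) x i j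
    ≤ -1 * (∑ i, ∑ j, v i * v j * toMat c g (c a) x i j)
      + eta * ∑ i, ∑ j, v i * v j * toMat c h (c a) x i j
  rw [toMat_eq hg a hx, toMat_eq hh a hx]
  simp only [h2]
  have h3 : ∑ a', ∑ b, v a' * v b * (eta • h a x - g a x - K.ric (g a) x) a' b
      = eta * (∑ i, ∑ j, v i * v j * h a x i j) - (∑ i, ∑ j, v i * v j * g a x i j)
        - ∑ i, ∑ j, v i * v j * K.ric (g a) x i j := by
    simp only [Finset.mul_sum, ← Finset.sum_sub_distrib]
    refine Finset.sum_congr rfl fun i _ => Finset.sum_congr rfl fun j _ => ?_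
    simp only [Matrix.sub_apply, Matrix.smul_apply, smul_eq_mul]
    ring
  rw [h3] at h1
  linarith only [h1]

end Vale.Agent.P223
end
end

section

section

set_option maxSynthPendingDepth 3

namespace Vale.Agent.P223

open scoped Matrix ContDiff Topology Manifold
open Finset MeasureTheory

section chains

variable {k : ℕ} {X : Type} [TopologicalSpace X]

/-- the two notions of simplices -/
def simpEquiv (k : ℕ) (X : Type) [TopologicalSpace X] : K.Simp k X ≃ Simp k X where
  toFun s := ⟨s.f, s.cont⟩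
  invFun σ := ⟨σ, σ.continuous⟩
  left_inv _ := rfl
  right_inv _ := rfl

/-- the two notions of chains -/
noncomputable def chainEquiv (k : ℕ) (X : Type) [TopologicalSpace X] :
    (K.Simp k X →₀ ℝ) ≃ Chain k X := Finsupp.equivCongrLeft (simpEquiv k X)

theorem chainEquiv_apply (z : K.Simp k X →₀ ℝ) (σ : K.Simp k X) :
    chainEquiv k X z (simpEquiv k X σ) = z σ := by
  show Finsupp.equivMapDomain _ _ _ = _
  rw [Finsupp.equivMapDomain_apply, Equiv.symm_apply_apply]

theorem chainEquiv_norm (z : K.Simp k X →₀ ℝ) :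
    norm1 (chainEquiv k X z) = z.sum fun _ r => |r| := by
  unfold norm1
  exact Finsupp.sum_equivMapDomain _ _ _

theorem bdry_apply (z : Chain (k + 1) X) (τ : Simp k X) [DecidableEq (Simp k X)] :
    bdry k z τ = z.sum fun σ a => ∑ i : Fin (k + 1),
      if σ.comp (faceMap k i) = τ then (-1 : ℝ) ^ (i : ℕ) * a else 0 := by
  unfold bdry
  rw [Finsupp.linearCombination_apply]
  unfold Finsupp.sum
  rw [Finsupp.finsetSum_apply]
  refine Finset.sum_congr rfl fun σ _ => ?_
  rw [Finsupp.smul_apply, Finsupp.finsetSum_apply, smul_eq_mul, Finset.mul_sum]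
  refine Finset.sum_congr rfl fun i _ => ?_
  rw [Finsupp.single_apply]
  split_ifs
  · ring
  · ring

theorem chainEquiv_bd (z : K.Simp (k + 1) X →₀ ℝ) (τ : K.Simp k X) :
    bdry k (chainEquiv (k + 1) X z) (simpEquiv k X τ) = K.bd z τ := by
  classical
  rw [bdry_apply]
  have h1 : (chainEquiv (k + 1) X z).sum (fun σ a => ∑ i : Fin (k + 1),
      if σ.comp (faceMap k i) = simpEquiv k X τ then (-1 : ℝ) ^ (i : ℕ) * a else 0)
      = z.sum fun σ a => ∑ i : Fin (k + 1),
      if (simpEquiv (k + 1) X σ).comp (faceMap k i) = simpEquiv k X τ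
        then (-1 : ℝ) ^ (i : ℕ) * a else 0 := Finsupp.sum_equivMapDomain _ _ _
  rw [h1]
  unfold K.bd
  refine Finset.sum_congr rfl fun σ _ => ?_
  show ∑ i : Fin (k + 1), (if (simpEquiv (k + 1) X σ).comp (faceMap k i) = simpEquiv k X τ
        then (-1 : ℝ) ^ (i : ℕ) * z σ else 0) = ∑ᶠ (i : Fin (k + 1))
      (_ : ∀ t, τ.f t = σ.f (stdSimplex.map i.succAbove t)), (-1 : ℝ) ^ (i : ℕ) * z σ
  rw [finsum_eq_sum_of_fintype]
  refine Finset.sum_congr rfl fun i _ => ?_
  rw [finsum_eq_if]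
  refine if_congr ?_ rfl rfl
  constructor
  · intro h t
    exact (congrArg (fun f : Simp k X => f t) h).symm
  · intro h
    ext t
    exact (h t).symm

end chains

section fund

variable {n : ℕ} {X : Type} [TopologicalSpace X] {J : Matrix (Fin n) (Fin n) ℝ}
  {c : X → K.Ch n X}

theorem isFund_iff (hc : K.Atl J c) (z : K.Simp (n + 1) X →₀ ℝ) :
    letI := toCS hc; K.IsFund c z ↔ IsFundamental (chainEquiv (n + 1) X z) := by
  classical
  letI := toCS hc
  have hbd : (∀ τ, K.bd z τ = 0) ↔ bdry n (chainEquiv (n + 1) X z) = 0 := by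
    constructor
    · intro h
      refine Finsupp.ext fun τ => ?_
      obtain ⟨τ', rfl⟩ := (simpEquiv n X).surjective τ
      rw [chainEquiv_bd, h]
      rfl
    · intro h τ
      rw [← chainEquiv_bd, h]
      rfl
  refine and_congr hbd (forall_congr' fun p => ?_)
  constructor
  · rintro ⟨s, b, e, w, D, h1, h2, h3, ⟨t, ht, htp⟩, h5⟩
    refine ⟨e, ?_, w, D, h2, simpEquiv (n + 1) X s, fun t => h3 t, ⟨t, ht, htp⟩,
      chainEquiv (n + 2) X b, chainEquiv (n + 1) X z - Finsupp.single (simpEquiv (n + 1) X s) 1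
        - bdry (n + 1) (chainEquiv (n + 2) X b), ?_, ?_⟩
    · rintro _ ⟨a, rfl⟩ x hx
      exact ksm_at (h1 a) hx
    · intro σ hσ hp
      obtain ⟨σ', rfl⟩ := (simpEquiv (n + 1) X).surjective σ
      rw [Finsupp.mem_support_iff] at hσ
      apply hσ
      obtain ⟨t', ht'⟩ := hp
      have h6 := h5 σ' ⟨t', ht'⟩
      rw [Finsupp.sub_apply, Finsupp.sub_apply, chainEquiv_apply, chainEquiv_bd,
        Finsupp.single_apply, h6]
      by_cases hs : σ' = s
      · rw [if_pos hs, if_pos (by rw [hs])]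
        ring
      · rw [if_neg hs, if_neg (fun hh => hs ((simpEquiv (n + 1) X).injective hh).symm)]
        ring
    · abel
  · rintro ⟨e, h1, w, D, h2, s, h3, ⟨t, ht, htp⟩, b, c', h4, h5⟩
    obtain ⟨s', rfl⟩ := (simpEquiv (n + 1) X).surjective s
    obtain ⟨b', rfl⟩ := (chainEquiv (n + 2) X).surjective b
    refine ⟨s', b', e, w, D, ?_, h2, fun t => h3 t, ⟨t, ht, htp⟩, ?_⟩
    · intro a q x y hq hq'
      have hx : x ∈ (e.symm.trans (c a)).source := by
        rw [← hq.2]
        exact mem_trans_source hq.1 hq'.1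
      obtain ⟨h6, h7⟩ := h1 (c a) ⟨a, rfl⟩ x hx
      have h8 : ∀ i, ContDiffAt ℝ ∞ (fun z => K.cm e (c a) z i) x := fun i =>
        (contDiffAt_pi.mp h6) i
      refine ⟨h8, ?_⟩
      rw [Kjac_eq fun i => (h8 i).differentiableAt (by simp)]
      exact h7
    · intro τ hτ
      obtain ⟨t', ht'⟩ := hτ
      have h6 : c' (simpEquiv (n + 1) X τ) = 0 := by
        by_contra hcon
        exact h4 _ (Finsupp.mem_support_iff.mpr hcon) ⟨t', ht'⟩
      have h7 := congrArg (fun f : Chain (n + 1) X => f (simpEquiv (n + 1) X τ)) h5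
      simp only [Finsupp.add_apply] at h7
      rw [chainEquiv_apply, chainEquiv_bd, h6, Finsupp.single_apply, add_zero] at h7
      rw [h7, add_comm]
      congr 1
      refine if_congr ⟨fun hh => ((simpEquiv (n + 1) X).injective hh).symm, fun hh => by rw [hh]⟩
        rfl rfl

theorem sv_eq (hc : K.Atl J c) : letI := toCS hc; K.sv c = simplicialVolume n X := by
  letI := toCS hc
  unfold K.sv simplicialVolume
  refine Equiv.iInf_congr (chainEquiv (n + 1) X) fun z => ?_
  rw [chainEquiv_norm]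
  exact iInf_congr_Prop (isFund_iff hc z).symm fun _ => rfl

end fund

end Vale.Agent.P223
end
end

section

section

set_option maxSynthPendingDepth 3

namespace Vale.Agent.P223

open scoped Matrix ContDiff Topology Manifold
open Finset MeasureTheory

variable {n : ℕ} {X Y : Type} [TopologicalSpace X] [TopologicalSpace Y]
  {J : Matrix (Fin n) (Fin n) ℝ} {c : X → K.Ch n X} {c' : Y → K.Ch n Y}

theorem holoCover_of (hc : K.Atl J c) {h : X → (Fin n → ℝ) → Matrix (Fin n) (Fin n) ℝ}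
    (hh : K.Herm J c h) (hc' : K.Atl J c') {f : Y → X} (hf : IsCoveringMap f) {d : ℕ}
    (hd : ∀ p, (f ⁻¹' {p}).encard = d)
    (hl : ∀ q p x, K.At (c' q) p x → K.At (c (f q)) (f p) x) :
    letI := toCS hc; letI := toCS hc'; HoloCover J d f := by
  letI := toCS hc
  letI := toCS hc'
  haveI := isManifold_of_atl hc
  -- the local expression of `f`
  have key : ∀ q b x, x ∈ (c' q).target → f ((c' q).symm x) ∈ (c b).source →
      x ∈ ((c (f q)).symm.trans (c b)).source ∧
      cmap f (c' q) (c b) =ᶠ[𝓝 x] ((c (f q)).symm.trans (c b)) := by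
    intro q b x hx hfx
    have h1 : ∀ y ∈ (c' q).target, y ∈ (c (f q)).target ∧ (c (f q)).symm y = f ((c' q).symm y) := by
      intro y hy
      have h2 := hl q _ y (Kat_symm hy)
      refine ⟨?_, ?_⟩
      · rw [← h2.2]; exact (c (f q)).map_source h2.1
      · rw [← h2.2, (c (f q)).left_inv h2.1, h2.2]
    refine ⟨?_, ?_⟩
    · rw [OpenPartialHomeomorph.trans_source]
      refine ⟨(h1 x hx).1, ?_⟩
      show (c (f q)).symm x ∈ (c b).source
      rw [(h1 x hx).2]
      exact hfx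
    · filter_upwards [(c' q).open_target.mem_nhds hx] with y hy
      show (c b) (f ((c' q).symm y)) = (c b) ((c (f q)).symm y)
      rw [(h1 y hy).2]
  refine ⟨hf, ⟨hf.continuous, ?_, ?_⟩, ?_, hd⟩
  · rintro _ ⟨q, rfl⟩ _ ⟨b, rfl⟩ x hx hfx
    obtain ⟨h1, h2⟩ := key q b x hx hfx
    exact (ksm_at ((hc (f q)).2 b) h1).1.congr_of_eventuallyEq h2
  · rintro _ ⟨q, rfl⟩ _ ⟨b, rfl⟩ x hx hfx
    obtain ⟨h1, h2⟩ := key q b x hx hfx
    rw [jac_congr h2]
    exact (ksm_at ((hc (f q)).2 b) h1).2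
  · rintro _ ⟨q, rfl⟩ _ ⟨b, rfl⟩ x hx hfx
    obtain ⟨h1, h2⟩ := key q b x hx hfx
    rw [jac_congr h2]
    exact ((toRM hc hh).chg ⟨f q, rfl⟩ ⟨b, rfl⟩).det_ne
      ((toRM hc hh).isMetric _ ⟨f q, rfl⟩) h1

theorem integral_eq [MeasurableSpace X] (hc : K.Atl J c) (hn : 3 ≤ n)
    {g : X → (Fin n → ℝ) → Matrix (Fin n) (Fin n) ℝ} (hg : K.Herm J c g) (μ : Measure X) :
    letI := toCS hc;
    ∫⁻ q, ENNReal.ofReal ((max 0 (-(toRM hc hg).scalar q)) ^ ((n : ℝ) / 2)) ∂μ
      = ENNReal.ofReal (((n : ℝ) * 1) ^ ((n : ℝ) / 2)) * K.I c g μ := by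
  letI := toCS hc
  unfold K.I
  have hn0 : (0 : ℝ) < n := by
    have : (3 : ℝ) ≤ n := by exact_mod_cast hn
    linarith only [this]
  rw [← lintegral_const_mul' _ _ ENNReal.ofReal_ne_top]
  refine lintegral_congr fun q => ?_
  rw [toRM_scalar hc hg q, ← ENNReal.ofReal_mul (by positivity)]
  congr 1
  rw [← Real.mul_rpow (by positivity) (by positivity)]
  congr 1
  field_simp

/-- the final inequality in the notation of `K` -/
theorem Kfinal (hn : 3 ≤ n) (hJ : J * J = -1) [T2Space X] [CompactSpace X] [MeasurableSpace X]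
    [BorelSpace X] [T2Space Y] [CompactSpace Y] [MeasurableSpace Y] [BorelSpace Y]
    (hc : K.Atl J c) {h : X → (Fin n → ℝ) → Matrix (Fin n) (Fin n) ℝ} (hh : K.Herm J c h)
    {V : ENNReal} (hV : ∀ eta : ℝ, 0 < eta → ∃ g0 μ0, K.Herm J c g0 ∧ K.Kah J c g0 ∧
      K.RicLe c g0 h eta ∧ K.Vol c g0 μ0 ∧ V ≤ μ0 Set.univ)
    {d : ℕ} (hc' : K.Atl J c') {f : Y → X} (hf : IsCoveringMap f)
    (hd : ∀ p, (f ⁻¹' {p}).encard = d) (hl : ∀ q p x, K.At (c' q) p x → K.At (c (f q)) (f p) x)
    {g : Y → (Fin n → ℝ) → Matrix (Fin n) (Fin n) ℝ} (hg : K.Herm J c' g) {μ : Measure Y}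
    (hμ : K.Vol c' g μ) :
    d * V ≤ K.I c' g μ ∧ V * K.sv c' ≤ K.sv c * K.I c' g μ ∧
      ∀ C : ENNReal, K.sv c ≤ C * V → K.sv c' ≤ C * K.I c' g μ := by
  letI i1 := toCS hc
  letI i2 := toCS hc'
  haveI := isManifold_of_atl hc
  haveI := isManifold_of_atl hc'
  have hn0 : (0 : ℝ) < n := by
    have : (3 : ℝ) ≤ n := by exact_mod_cast hn
    linarith only [this]
  set κ : ENNReal := ENNReal.ofReal (((n : ℝ) * 1) ^ ((n : ℝ) / 2)) with hκ
  have hκ0 : κ ≠ 0 := by
    rw [hκ]
    exact (ENNReal.ofReal_pos.mpr (by positivity)).ne'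
  have hκt : κ ≠ ⊤ := ENNReal.ofReal_ne_top
  have hmain := cover_final (lam := 1) hn hJ (holoAtlas_of_atl hc')
    (holoCover_of hc hh hc' hf hd hl) zero_le_one (toRM hc hh) (V := V) (fun eta heta => by
      obtain ⟨g0, μ0, h1, h2, h3, h4, h5⟩ := hV eta heta
      exact ⟨toRM hc h1, μ0, toRM_herm hc h1, toRM_kahler hc h1 h2, toRM_ricLe hc h1 hh h3,
        toRM_vol hc h1 h4, h5⟩) (toRM_herm hc' hg) (toRM_vol hc' hg hμ)
  rw [integral_eq hc' hn hg μ, ← hκ, ← sv_eq hc, ← sv_eq hc'] at hmain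
  obtain ⟨m1, m2, m3⟩ := hmain
  have hcancel : ∀ {a b : ENNReal}, κ * a ≤ κ * b → a ≤ b := fun {a b} h =>
    (ENNReal.mul_le_mul_iff_right hκ0 hκt).mp h
  refine ⟨hcancel m1, hcancel ?_, fun C hC => hcancel ?_⟩
  · calc κ * (V * K.sv c') = κ * V * K.sv c' := by ring
      _ ≤ K.sv c * (κ * K.I c' g μ) := m2
      _ = κ * (K.sv c * K.I c' g μ) := by ring
  · calc κ * K.sv c' ≤ C * (κ * K.I c' g μ) := m3 C hC
      _ = κ * (C * K.I c' g μ) := by ring

end Vale.Agent.P223
end
end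

section

section

set_option maxSynthPendingDepth 3

namespace Vale.Agent.P223

open scoped Matrix ContDiff Topology Manifold
open Finset MeasureTheory

variable {n : ℕ} {X Y : Type} [TopologicalSpace X] [TopologicalSpace Y]
  {J : Matrix (Fin n) (Fin n) ℝ} {c : X → K.Ch n X} {c' : Y → K.Ch n Y}

end Vale.Agent.P223
end
end
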